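import Mathlib

/-!
Kernel lemma: reduced polynomials of degree `< B` vanishing off `E` form a subspace of dimension
at most `|E| / q^N * H`, where `H` is the dimension of all reduced polynomials of degree `< B`.
Everything is phrased with coefficient functions `c : (X → Fin q) → K`.
-/

namespace Vale.Agent.Lib.P346

open Finset

/-- Number of exponent vectors (entries `< q`) over `X` with total degree `< B`. -/
def Hlt (q : ℕ) (X : Type*) [Fintype X] [DecidableEq X] (B : ℕ) : ℕ :=
  (univ.filter fun T : X → Fin q => ∑ i, (T i : ℕ) < B).card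

theorem sum_fin_cons {α : Type*} [Fintype α] {N : ℕ} {M : Type*} [AddCommMonoid M]
    (F : (Fin (N + 1) → α) → M) :
    ∑ T, F T = ∑ a, ∑ T', F (Fin.cons a T') := by
  rw [← Fintype.sum_prod_type']
  exact (Fintype.sum_equiv (Fin.consEquiv fun _ => α) _ _ (fun _ => rfl)).symm

theorem Hlt_succ (q N B : ℕ) :
    Hlt q (Fin (N + 1)) B = ∑ j : Fin q, Hlt q (Fin N) (B - j) := by
  unfold Hlt
  simp only [card_filter]
  rw [sum_fin_cons]
  refine Finset.sum_congr rfl fun j _ => Finset.sum_congr rfl fun T' _ => ?_
  simp only [Fin.sum_univ_succ, Fin.cons_zero, Fin.cons_succ]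
  by_cases h : ∑ i, (T' i : ℕ) < B - j
  · rw [if_pos h, if_pos (by omega)]
  · rw [if_neg h, if_neg (by omega)]

theorem Hlt_mono (q : ℕ) (X : Type*) [Fintype X] [DecidableEq X] {B B' : ℕ} (h : B ≤ B') :
    Hlt q X B ≤ Hlt q X B' := by
  unfold Hlt
  apply card_le_card
  intro T
  simp only [mem_filter, mem_univ, true_and]
  omega

variable {K : Type*} [Field K]

/-- The function on `K^X` with coefficient vector `c` in the reduced monomials. -/
def evalC {q : ℕ} {X : Type*} [Fintype X] [DecidableEq X]
    (c : (X → Fin q) → K) (x : X → K) : K :=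
  ∑ T, c T * ∏ i, x i ^ (T i : ℕ)

/-- Coefficient slice in the first variable. -/
def slice {q N : ℕ} (j : Fin q) : ((Fin (N + 1) → Fin q) → K) →ₗ[K] ((Fin N → Fin q) → K) :=
  LinearMap.funLeft K K (fun T' => Fin.cons j T')

@[simp] theorem slice_apply {q N : ℕ} (j : Fin q) (c : (Fin (N + 1) → Fin q) → K)
    (T' : Fin N → Fin q) : slice j c T' = c (Fin.cons j T') := rfl

theorem evalC_cons {q N : ℕ} (c : (Fin (N + 1) → Fin q) → K) (a : K) (y : Fin N → K) :
    evalC c (Fin.cons a y : Fin (N + 1) → K) = ∑ j : Fin q, a ^ (j : ℕ) * evalC (slice j c) y := by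
  unfold evalC
  rw [sum_fin_cons]
  refine Finset.sum_congr rfl fun j _ => ?_
  rw [Finset.mul_sum]
  refine Finset.sum_congr rfl fun T' _ => ?_
  simp only [Fin.prod_univ_succ, Fin.cons_zero, Fin.cons_succ, slice_apply]
  ring

theorem finrank_le_map_add {V V' : Type*} [AddCommGroup V] [Module K V] [FiniteDimensional K V]
    [AddCommGroup V'] [Module K V'] [FiniteDimensional K V']
    (U U' : Submodule K V) (φ : V →ₗ[K] V') (h : U ⊓ LinearMap.ker φ ≤ U') :
    Module.finrank K U ≤ Module.finrank K (U.map φ) + Module.finrank K U' := by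
  have h1 := LinearMap.finrank_range_add_finrank_ker (φ.domRestrict U)
  rw [LinearMap.range_domRestrict] at h1
  rw [← h1]
  refine Nat.add_le_add_left ?_ _
  have hinj : Function.Injective
      (fun z : LinearMap.ker (φ.domRestrict U) =>
        (⟨((z : U) : V), h ⟨(z : U).2, LinearMap.mem_ker.2 (LinearMap.mem_ker.1 z.2)⟩⟩ : U')) := by
    intro z z' hz
    apply Subtype.ext
    apply Subtype.ext
    simpa using hz
  let ψ : LinearMap.ker (φ.domRestrict U) →ₗ[K] U' :=
    { toFun := fun z => ⟨((z : U) : V), h ⟨(z : U).2, LinearMap.mem_ker.2 (LinearMap.mem_ker.1 z.2)⟩⟩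
      map_add' := fun _ _ => rfl
      map_smul' := fun _ _ => rfl }
  exact LinearMap.finrank_le_finrank_of_injective (f := ψ) hinj

variable [Fintype K]

/-- Base-free single step: leading coefficient vanishes when too few roots are available. -/
theorem slice_top_eval_zero {N q : ℕ} (c : (Fin (N + 1) → Fin q) → K)
    (j : ℕ) (hj : j < q)
    (htop : ∀ j' : Fin q, j < (j' : ℕ) → slice j' c = 0)
    (y : Fin N → K) (s : Finset K) (hs : ∀ a ∈ s, evalC c (Fin.cons a y : Fin (N + 1) → K) = 0)
    (hcard : j < s.card) :
    evalC (slice (⟨j, hj⟩ : Fin q) c) y = 0 := by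
  classical
  let R : Polynomial K :=
    ∑ j' : Fin q, Polynomial.C (evalC (slice j' c) y) * Polynomial.X ^ (j' : ℕ)
  have hdeg : R.natDegree ≤ j := by
    apply Polynomial.natDegree_sum_le_of_forall_le
    intro j' _
    by_cases hj' : j < (j' : ℕ)
    · rw [htop j' hj']
      have : evalC (0 : (Fin N → Fin q) → K) y = 0 := by simp [evalC]
      rw [this]; simp
    · calc _ ≤ (j' : ℕ) := Polynomial.natDegree_C_mul_X_pow_le _ _
        _ ≤ j := by omega
  have hev : ∀ a ∈ s, R.eval a = 0 := by
    intro a ha
    have := hs a ha
    rw [evalC_cons] at this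
    simp only [R, Polynomial.eval_finsetSum, Polynomial.eval_mul, Polynomial.eval_C,
      Polynomial.eval_pow, Polynomial.eval_X]
    rw [← this]
    exact Finset.sum_congr rfl fun _ _ => mul_comm _ _
  have hR : R = 0 :=
    Polynomial.eq_zero_of_natDegree_lt_card_of_eval_eq_zero' R s hev (by omega)
  have hcoef : R.coeff j = evalC (slice (⟨j, hj⟩ : Fin q) c) y := by
    simp only [R, Polynomial.finsetSum_coeff, Polynomial.coeff_C_mul_X_pow]
    rw [Finset.sum_eq_single (⟨j, hj⟩ : Fin q)]
    · simp
    · intro b _ hb
      rw [if_neg]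
      intro h
      exact hb (Fin.ext h.symm)
    · simp
  rw [← hcoef, hR]; simp

/-- The kernel lemma on `Fin N`. -/
theorem kernel_fin {q : ℕ} (hqK : Fintype.card K = q) : ∀ (N : ℕ) (E : Finset (Fin N → K)) (B : ℕ)
    (W : Submodule K ((Fin N → Fin q) → K)),
    (∀ c ∈ W, ∀ T, B ≤ ∑ i, (T i : ℕ) → c T = 0) →
    (∀ c ∈ W, ∀ x, x ∉ E → evalC c x = 0) →
    q ^ N * Module.finrank K W ≤ E.card * Hlt q (Fin N) B := by
  classical
  intro N
  induction N with
  | zero =>
    intro E B W hB hE
    rw [pow_zero, one_mul]
    by_cases hEe : E = ∅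
    · have hW : W = ⊥ := by
        rw [eq_bot_iff]
        intro c hc
        have h0 := hE c hc default (by simp [hEe])
        simp only [evalC, Finset.univ_unique, Finset.sum_singleton, mul_one,
          Fin.prod_univ_zero] at h0
        rw [Submodule.mem_bot]
        funext T
        exact (congrArg c (Subsingleton.elim T _)).trans h0
      rw [hW]; simp
    · have hcard : 1 ≤ E.card := Finset.card_pos.mpr (Finset.nonempty_iff_ne_empty.mpr hEe)
      by_cases hB0 : B = 0
      · have hW : W = ⊥ := by
          rw [eq_bot_iff]
          intro c hc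
          rw [Submodule.mem_bot]
          funext T
          exact hB c hc T (by omega)
        rw [hW]; simp
      · have h1 : Hlt q (Fin 0) B = 1 := by
          unfold Hlt
          rw [Finset.filter_true_of_mem]
          · simp
          · intro T _
            simp only [Fin.sum_univ_zero]
            omega
        rw [h1, mul_one]
        refine le_trans ?_ hcard
        calc Module.finrank K W ≤ Module.finrank K ((Fin 0 → Fin q) → K) :=
              Submodule.finrank_le W
          _ = 1 := by simp
  | succ N ih =>
    intro E B W hB hE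
    have hq0 : 0 < q := hqK ▸ Fintype.card_pos
    -- fibre sizes
    let n : (Fin N → K) → ℕ := fun y => (univ.filter fun a : K => (Fin.cons a y : Fin (N+1) → K) ∈ E).card
    have hnle : ∀ y, n y ≤ q := fun y => by
      simp only [n]
      rw [← hqK]
      exact (Finset.card_le_univ _)
    let Ej : ℕ → Finset (Fin N → K) := fun j => univ.filter fun y => q ≤ n y + j
    -- filtration
    let U : ℕ → Submodule K ((Fin (N + 1) → Fin q) → K) := fun j =>
      W ⊓ ⨅ (j' : Fin q) (_ : j ≤ (j' : ℕ)), LinearMap.ker (slice j')
    have hU : ∀ j c, c ∈ U j ↔ c ∈ W ∧ ∀ j' : Fin q, j ≤ (j' : ℕ) → slice j' c = 0 := by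
      intro j c
      simp [U, Submodule.mem_inf, Submodule.mem_iInf, LinearMap.mem_ker]
    have hU0 : U 0 = ⊥ := by
      rw [eq_bot_iff]
      intro c hc
      rw [Submodule.mem_bot]
      have := ((hU 0 c).1 hc).2
      funext T
      have h2 := congrFun (this (T 0) (Nat.zero_le _)) (Fin.tail T)
      simpa using h2
    have hUq : U q = W := by
      apply le_antisymm
      · exact inf_le_left
      · intro c hc
        rw [hU]
        refine ⟨hc, fun j' hj' => ?_⟩
        exact absurd j'.2 (by omega)
    -- images
    let V : ∀ j : Fin q, Submodule K ((Fin N → Fin q) → K) := fun j =>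
      (U ((j : ℕ) + 1)).map (slice j)
    have hstep : ∀ j : Fin q, Module.finrank K (U ((j : ℕ) + 1)) ≤
        Module.finrank K (V j) + Module.finrank K (U (j : ℕ)) := by
      intro j
      apply finrank_le_map_add
      intro c hc
      obtain ⟨hc1, hc2⟩ := Submodule.mem_inf.1 hc
      rw [LinearMap.mem_ker] at hc2
      rw [hU] at hc1 ⊢
      refine ⟨hc1.1, fun j' hj' => ?_⟩
      by_cases h : (j : ℕ) = (j' : ℕ)
      · have : j = j' := Fin.ext h
        rw [← this]; exact hc2
      · exact hc1.2 j' (by omega)
    have hfilt : ∀ m, m ≤ q → Module.finrank K (U m) ≤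
        ∑ j ∈ (univ : Finset (Fin q)).filter (fun j : Fin q => (j : ℕ) < m), Module.finrank K (V j) := by
      intro m
      induction m with
      | zero =>
        intro _
        rw [hU0]; simp
      | succ m ihm =>
        intro hm
        have h1 := hstep ⟨m, by omega⟩
        have h2 := ihm (by omega)
        have hsplit : (univ : Finset (Fin q)).filter (fun j : Fin q => (j : ℕ) < m + 1) =
            insert (⟨m, by omega⟩ : Fin q)
              ((univ : Finset (Fin q)).filter (fun j : Fin q => (j : ℕ) < m)) := by
          ext j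
          simp only [mem_filter, mem_univ, true_and, mem_insert, Fin.ext_iff]
          omega
        rw [hsplit, Finset.sum_insert (by simp)]
        simp only at h1
        omega
    have hfinal : Module.finrank K W ≤ ∑ j : Fin q, Module.finrank K (V j) := by
      have := hfilt q le_rfl
      rw [hUq] at this
      refine le_trans this (Finset.sum_le_sum_of_subset (Finset.filter_subset _ _))
    -- apply the induction hypothesis to each image
    have hIH : ∀ j : Fin q, q ^ N * Module.finrank K (V j) ≤
        (Ej j).card * Hlt q (Fin N) (B - j) := by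
      intro j
      apply ih
      · intro c' hc' T' hT'
        obtain ⟨c, hc, rfl⟩ := Submodule.mem_map.1 hc'
        have hcW := ((hU _ c).1 hc).1
        rw [slice_apply]
        apply hB c hcW
        simp only [Fin.sum_univ_succ, Fin.cons_zero, Fin.cons_succ]
        omega
      · intro c' hc' y hy
        obtain ⟨c, hc, rfl⟩ := Submodule.mem_map.1 hc'
        have hcU := (hU _ c).1 hc
        simp only [Ej, mem_filter, mem_univ, true_and, not_le] at hy
        have := slice_top_eval_zero c (j : ℕ) j.2 (fun j' hj' => hcU.2 j' hj') y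
          (univ.filter fun a : K => (Fin.cons a y : Fin (N+1) → K) ∉ E)
          (fun a ha => hE c hcU.1 _ (by simpa using ha))
          (by
            have hcomp := Finset.card_filter_add_card_filter_not (s := (univ : Finset K))
              (fun a : K => (Fin.cons a y : Fin (N+1) → K) ∈ E)
            rw [Finset.card_univ, hqK] at hcomp
            simp only [n] at hy
            omega)
        exact this
    -- combine with Chebyshev
    have hsumE : ∑ j : Fin q, (Ej j).card = E.card := by
      have h1 : ∀ y : Fin N → K, ∑ j : Fin q, (if q ≤ n y + (j : ℕ) then 1 else 0) = n y := by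
        intro y
        have hny := hnle y
        rw [← Finset.card_filter]
        have : ((univ : Finset (Fin q)).filter fun j : Fin q => q ≤ n y + (j : ℕ)).map Fin.valEmbedding =
            Finset.Ico (q - n y) q := by
          ext z
          simp only [mem_map, mem_filter, mem_univ, true_and, Fin.valEmbedding_apply, mem_Ico]
          constructor
          · rintro ⟨j, hj, rfl⟩
            exact ⟨by omega, j.2⟩
          · rintro ⟨h1, h2⟩
            exact ⟨⟨z, h2⟩, by simp only; omega, rfl⟩
        rw [← Finset.card_map Fin.valEmbedding, this, Nat.card_Ico]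
        omega
      have h2 : E.card = ∑ y : Fin N → K, n y := by
        have : E.card = ∑ z : Fin (N + 1) → K, if z ∈ E then 1 else 0 := by
          rw [← Finset.card_filter]; simp
        rw [this, sum_fin_cons, Finset.sum_comm]
        refine Finset.sum_congr rfl fun y _ => ?_
        simp only [n]
        rw [Finset.card_filter]
      rw [h2]
      simp only [Ej, Finset.card_filter]
      rw [Finset.sum_comm]
      exact Finset.sum_congr rfl fun y _ => h1 y
    have hcheb : (q : ℤ) * ∑ j : Fin q, ((Ej j).card : ℤ) * (Hlt q (Fin N) (B - j) : ℤ) ≤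
        (∑ j : Fin q, ((Ej j).card : ℤ)) * ∑ j : Fin q, (Hlt q (Fin N) (B - j) : ℤ) := by
      have hanti : Antivary (fun j : Fin q => ((Ej j).card : ℤ))
          (fun j : Fin q => (Hlt q (Fin N) (B - j) : ℤ)) := by
        apply Monotone.antivary
        · intro a b hab
          simp only
          have : (Ej a).card ≤ (Ej b).card := by
            apply card_le_card
            intro y
            simp only [Ej, mem_filter, mem_univ, true_and]
            have : (a : ℕ) ≤ b := hab
            omega
          exact_mod_cast this
        · intro a b hab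
          simp only
          have : Hlt q (Fin N) (B - b) ≤ Hlt q (Fin N) (B - a) := by
            apply Hlt_mono
            have : (a : ℕ) ≤ b := hab
            omega
          exact_mod_cast this
      have := hanti.card_mul_sum_le_sum_mul_sum
      simpa using this
    have hcheb' : q * ∑ j : Fin q, (Ej j).card * Hlt q (Fin N) (B - j) ≤
        (∑ j : Fin q, (Ej j).card) * ∑ j : Fin q, Hlt q (Fin N) (B - j) := by
      exact_mod_cast hcheb
    rw [hsumE, ← Hlt_succ] at hcheb'
    calc q ^ (N + 1) * Module.finrank K W
        ≤ q ^ (N + 1) * ∑ j : Fin q, Module.finrank K (V j) := Nat.mul_le_mul_left _ hfinal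
      _ = q * ∑ j : Fin q, q ^ N * Module.finrank K (V j) := by
          rw [pow_succ, Finset.mul_sum, Finset.mul_sum]
          exact Finset.sum_congr rfl fun _ _ => by ring
      _ ≤ q * ∑ j : Fin q, (Ej j).card * Hlt q (Fin N) (B - j) :=
          Nat.mul_le_mul_left _ (Finset.sum_le_sum fun j _ => hIH j)
      _ ≤ E.card * Hlt q (Fin (N + 1)) B := hcheb'

end Vale.Agent.Lib.P346
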