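import Mathlib
import Vale.Agent.Lib.P346.Kernel

/-!
Path polynomials of labelled layered graphs, valid paths and comparison of paths.
-/

namespace Vale.Agent.Lib.P346

open Finset

variable {V : Type*} [Fintype V] [DecidableEq V] {D : ℕ}

/-- Value of the path polynomial of the labelled layered graph `φ` started at `a`. -/
def pathVal {K : Type*} [Field K] : (r : ℕ) → (Fin r → V → Fin D → V) → (Fin r → V → Fin D → K) → V → K
  | 0, _, _, _ => 1
  | r + 1, φ, x, a =>
    ∑ l : Fin D, x 0 a l * pathVal r (Fin.tail φ) (Fin.tail x) (φ 0 a l)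

/-- Exponent vector of the path with label sequence `π` started at `a`. -/
def edgeExp : (r : ℕ) → (Fin r → V → Fin D → V) → V → (Fin r → Fin D) → Fin r → V → Fin D → ℕ
  | 0, _, _, _ => fun j => j.elim0
  | r + 1, φ, a, π => fun j b l =>
    Fin.cases (if b = a ∧ l = π 0 then 1 else 0)
      (fun j' => edgeExp r (Fin.tail φ) (φ 0 a (π 0)) (Fin.tail π) j' b l) j

omit [Fintype V] in
@[simp] theorem edgeExp_zero (r : ℕ) (φ : Fin (r + 1) → V → Fin D → V) (a : V)
    (π : Fin (r + 1) → Fin D) (b : V) (l : Fin D) :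
    edgeExp (r + 1) φ a π 0 b l = if b = a ∧ l = π 0 then 1 else 0 := rfl

omit [Fintype V] in
@[simp] theorem edgeExp_succ (r : ℕ) (φ : Fin (r + 1) → V → Fin D → V) (a : V)
    (π : Fin (r + 1) → Fin D) (j : Fin r) (b : V) (l : Fin D) :
    edgeExp (r + 1) φ a π j.succ b l =
      edgeExp r (Fin.tail φ) (φ 0 a (π 0)) (Fin.tail π) j b l := rfl

theorem prod_prod_indicator {M : Type*} [CommMonoid M] (y : V → Fin D → M) (a : V) (l₀ : Fin D) :
    ∏ b, ∏ l, y b l ^ (if b = a ∧ l = l₀ then 1 else 0) = y a l₀ := by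
  rw [Finset.prod_eq_single a, Finset.prod_eq_single l₀]
  · simp
  · intro l _ hl
    simp [hl]
  · simp
  · intro b _ hb
    apply Finset.prod_eq_one
    intro l _
    simp [hb]
  · simp

theorem pathVal_eq_sum {K : Type*} [Field K] : ∀ (r : ℕ) (φ : Fin r → V → Fin D → V)
    (x : Fin r → V → Fin D → K) (a : V),
    pathVal r φ x a = ∑ π : Fin r → Fin D, ∏ j, ∏ b, ∏ l, x j b l ^ edgeExp r φ a π j b l := by
  intro r
  induction r with
  | zero =>
    intro φ x a
    simp [pathVal]
  | succ r ih =>
    intro φ x a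
    rw [sum_fin_cons]
    simp only [pathVal]
    refine Finset.sum_congr rfl fun l _ => ?_
    rw [ih, Finset.mul_sum]
    refine Finset.sum_congr rfl fun π' _ => ?_
    rw [Fin.prod_univ_succ]
    simp only [edgeExp_zero, edgeExp_succ, Fin.cons_zero]
    rw [prod_prod_indicator]
    rfl

/-- Summation over edges with weights depending on the layer and the label. -/
theorem edgeExp_weighted : ∀ (r : ℕ) (φ : Fin r → V → Fin D → V) (a : V) (π : Fin r → Fin D)
    (ρ : Fin r → Fin D → ℕ),
    ∑ j, ∑ b, ∑ l, edgeExp r φ a π j b l * ρ j l = ∑ j, ρ j (π j) := by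
  intro r
  induction r with
  | zero => intro φ a π ρ; simp
  | succ r ih =>
    intro φ a π ρ
    rw [Fin.sum_univ_succ, Fin.sum_univ_succ]
    simp only [edgeExp_zero, edgeExp_succ]
    congr 1
    · rw [Finset.sum_eq_single a, Finset.sum_eq_single (π 0)]
      · simp
      · intro l _ hl
        simp [hl]
      · simp
      · intro b _ hb
        apply Finset.sum_eq_zero
        intro l _
        simp [hb]
      · simp
    · exact ih _ _ _ _

omit [Fintype V] in
theorem edgeExp_le_one : ∀ (r : ℕ) (φ : Fin r → V → Fin D → V) (a : V) (π : Fin r → Fin D)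
    (j : Fin r) (b : V) (l : Fin D), edgeExp r φ a π j b l ≤ 1 := by
  intro r
  induction r with
  | zero => intro φ a π j; exact j.elim0
  | succ r ih =>
    intro φ a π j b l
    refine Fin.cases ?_ (fun j' => ?_) j
    · rw [edgeExp_zero]
      split_ifs <;> omega
    · rw [edgeExp_succ]
      exact ih _ _ _ _ _ _

/-- Validity of a label at a vertex: all earlier labels are saturated, the label itself is used. -/
def Valid {q : ℕ} (τ : Fin D → Fin q) (l : Fin D) : Prop :=
  1 ≤ (τ l : ℕ) ∧ ∀ e, e < l → (τ e : ℕ) = q - 1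

/-- Validity of a path. -/
def ValidPath {q : ℕ} : (r : ℕ) → (Fin r → V → Fin D → V) → (Fin r → V → Fin D → Fin q) → V →
    (Fin r → Fin D) → Prop
  | 0, _, _, _, _ => True
  | r + 1, φ, T, a, π =>
    Valid (T 0 a) (π 0) ∧ ValidPath r (Fin.tail φ) (Fin.tail T) (φ 0 a (π 0)) (Fin.tail π)

omit [Fintype V] in
/-- On a valid path all edges have positive exponent. -/
theorem validPath_pos {q : ℕ} : ∀ (r : ℕ) (φ : Fin r → V → Fin D → V)
    (T : Fin r → V → Fin D → Fin q) (a : V) (π : Fin r → Fin D), ValidPath r φ T a π →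
    ∀ j b l, edgeExp r φ a π j b l ≠ 0 → 1 ≤ (T j b l : ℕ) := by
  intro r
  induction r with
  | zero => intro φ T a π _ j; exact j.elim0
  | succ r ih =>
    intro φ T a π hv j b l
    refine Fin.cases ?_ (fun j' => ?_) j
    · rw [edgeExp_zero]
      intro h
      by_cases hh : b = a ∧ l = π 0
      · rw [hh.1, hh.2]
        exact hv.1.1
      · simp [hh] at h
    · rw [edgeExp_succ]
      exact ih _ _ _ _ hv.2 j' b l

/-- Lexicographic value of a label sequence. -/
def lexval (D r : ℕ) (π : Fin r → Fin D) : ℕ := ∑ j : Fin r, (D + 1) ^ (r - 1 - j) * (D - π j)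

theorem lexval_succ (r : ℕ) (π : Fin (r + 1) → Fin D) :
    lexval D (r + 1) π = (D + 1) ^ r * (D - π 0) + lexval D r (Fin.tail π) := by
  unfold lexval
  rw [Fin.sum_univ_succ]
  congr 1
  refine Finset.sum_congr rfl fun j _ => ?_
  have : r + 1 - 1 - ((j.succ : Fin (r + 1)) : ℕ) = r - 1 - j := by
    simp only [Fin.val_succ]
    omega
  rw [this]
  rfl

theorem lexval_lt : ∀ (r : ℕ) (π : Fin r → Fin D), lexval D r π < (D + 1) ^ r := by
  intro r
  induction r with
  | zero => intro π; simp [lexval]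
  | succ r ih =>
    intro π
    rw [lexval_succ]
    have h1 := ih (Fin.tail π)
    have h2 : (D + 1) ^ r * (D - π 0) ≤ (D + 1) ^ r * D := Nat.mul_le_mul_left _ (Nat.sub_le _ _)
    rw [pow_succ]
    nlinarith

omit [Fintype V] in
/-- Comparison of a valid path with another path. -/
theorem path_compare {q : ℕ} : ∀ (r : ℕ) (φ : Fin r → V → Fin D → V)
    (T : Fin r → V → Fin D → Fin q) (a : V) (π' π : Fin r → Fin D), ValidPath r φ T a π' → π ≠ π' →
    (∃ j b l, edgeExp r φ a π j b l ≠ 0 ∧ (T j b l : ℕ) = q - 1 ∧ edgeExp r φ a π' j b l = 0) ∨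
      lexval D r π < lexval D r π' := by
  intro r
  induction r with
  | zero =>
    intro φ T a π' π _ hne
    exact absurd (Subsingleton.elim _ _) hne
  | succ r ih =>
    intro φ T a π' π hv hne
    rcases lt_trichotomy (π 0) (π' 0) with hlt | heq | hgt
    · left
      refine ⟨0, a, π 0, ?_, hv.1.2 _ hlt, ?_⟩
      · simp
      · rw [edgeExp_zero, if_neg]
        rintro ⟨_, h⟩
        exact absurd h (ne_of_lt hlt)
    · have hta : Fin.tail π ≠ Fin.tail π' := by
        intro h
        apply hne
        funext j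
        refine Fin.cases heq (fun j' => ?_) j
        exact congrFun h j'
      have hv2 : ValidPath r (Fin.tail φ) (Fin.tail T) (φ 0 a (π' 0)) (Fin.tail π') := hv.2
      rcases ih (Fin.tail φ) (Fin.tail T) (φ 0 a (π' 0)) (Fin.tail π') (Fin.tail π) hv2 hta with
        ⟨j, b, l, h1, h2, h3⟩ | h
      · left
        refine ⟨j.succ, b, l, ?_, h2, ?_⟩
        · rw [edgeExp_succ, heq]
          exact h1
        · rw [edgeExp_succ]
          exact h3
      · right
        rw [lexval_succ, lexval_succ, heq]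
        omega
    · right
      rw [lexval_succ, lexval_succ]
      have h1 := lexval_lt r (Fin.tail π)
      have h2 : (D - (π 0 : ℕ)) + 1 ≤ D - (π' 0 : ℕ) := by
        have h3 : (π' 0 : ℕ) < π 0 := hgt
        have h4 := (π 0).2
        omega
      have h5 : (D + 1) ^ r * ((D - (π 0 : ℕ)) + 1) ≤ (D + 1) ^ r * (D - (π' 0 : ℕ)) :=
        Nat.mul_le_mul_left _ h2
      rw [Nat.mul_add, Nat.mul_one] at h5
      omega

end Vale.Agent.Lib.P346
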