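import Mathlib
import Vale.Agent.Lib.P346.Paths

/-!
Product measures, counts of valid paths, first and second moments.
-/

namespace Vale.Agent.Lib.P346

open Finset

/-- Product weight. -/
def pw {ι α : Type*} [Fintype ι] (ν : α → ℝ) (T : ι → α) : ℝ := ∏ i, ν (T i)

section pw

variable {ι α : Type*} [Fintype ι] [DecidableEq ι] [Fintype α]

theorem pw_box (ν : α → ℝ) (G : ι → α → ℝ) :
    ∑ T : ι → α, pw ν T * ∏ i, G i (T i) = ∏ i, ∑ x, ν x * G i x := by
  have := Finset.prod_univ_sum (fun _ : ι => (univ : Finset α)) (fun i x => ν x * G i x)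
  rw [Fintype.piFinset_univ] at this
  rw [this]
  refine Finset.sum_congr rfl fun T _ => ?_
  rw [Finset.prod_mul_distrib]
  rfl

theorem pw_sum_one (ν : α → ℝ) (h : ∑ x, ν x = 1) : ∑ T : ι → α, pw ν T = 1 := by
  have := pw_box (ι := ι) ν (fun _ _ => 1)
  simp only [Finset.prod_const_one, mul_one, h] at this
  exact this

theorem pw_nonneg (ν : α → ℝ) (h : ∀ x, 0 ≤ ν x) (T : ι → α) : 0 ≤ pw ν T :=
  Finset.prod_nonneg fun _ _ => h _

theorem pw_pos (ν : α → ℝ) (h : ∀ x, 0 < ν x) (T : ι → α) : 0 < pw ν T :=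
  Finset.prod_pos fun _ _ => h _

theorem pw_marginal (ν : α → ℝ) (h : ∑ x, ν x = 1) (a : ι) (g : α → ℝ) :
    ∑ T : ι → α, pw ν T * g (T a) = ∑ x, ν x * g x := by
  have := pw_box (ι := ι) ν (fun i => if i = a then g else fun _ => 1)
  have h1 : ∀ T : ι → α, ∏ i, (if i = a then g else fun _ => 1) (T i) = g (T a) := by
    intro T
    rw [Finset.prod_eq_single a]
    · simp
    · intro b _ hb
      simp [hb]
    · simp
  simp only [h1] at this
  rw [this, Finset.prod_eq_single a]
  · simp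
  · intro b _ hb
    simp [hb, h]
  · simp

theorem pw_two (ν : α → ℝ) (h : ∑ x, ν x = 1) {a a' : ι} (hne : a ≠ a') (g g' : α → ℝ) :
    ∑ T : ι → α, pw ν T * (g (T a) * g' (T a')) = (∑ x, ν x * g x) * ∑ x, ν x * g' x := by
  have := pw_box (ι := ι) ν (fun i => if i = a then g else if i = a' then g' else fun _ => 1)
  have h1 : ∀ T : ι → α,
      ∏ i, (if i = a then g else if i = a' then g' else fun _ => 1) (T i) = g (T a) * g' (T a') := by
    intro T
    rw [Finset.prod_eq_mul a a' hne]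
    · simp [hne.symm]
    · intro c _ hc
      simp [hc.1, hc.2]
    · simp
    · simp
  simp only [h1] at this
  rw [this, Finset.prod_eq_mul a a' hne]
  · simp [hne.symm]
  · intro c _ hc
    simp [hc.1, hc.2, h]
  · simp
  · simp

end pw

/-- Expectation over functions on a successor, split by the first value. -/
theorem pw_sum_cons {α : Type*} [Fintype α] {r : ℕ} (ν : α → ℝ) (F : (Fin (r + 1) → α) → ℝ) :
    ∑ T, pw ν T * F T = ∑ a, ν a * ∑ T', pw ν T' * F (Fin.cons a T') := by
  rw [sum_fin_cons]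
  refine Finset.sum_congr rfl fun a _ => ?_
  rw [Finset.mul_sum]
  refine Finset.sum_congr rfl fun T' _ => ?_
  have : pw ν (Fin.cons a T' : Fin (r + 1) → α) = ν a * pw ν T' := by
    simp only [pw, Fin.prod_univ_succ, Fin.cons_zero, Fin.cons_succ]
  rw [this]
  ring

section layer

variable {q D : ℕ}

open scoped Classical in
/-- Probability that the label `l` is valid at a vertex. -/
noncomputable def wl (ν : Fin q → ℝ) (l : Fin D) : ℝ :=
  ∑ τ : Fin D → Fin q, pw ν τ * (if Valid τ l then 1 else 0)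

/-- Probability of a positive exponent. -/
noncomputable def uu (ν : Fin q → ℝ) : ℝ := ∑ j, ν j * (if 1 ≤ (j : ℕ) then 1 else 0)

/-- Probability of the top exponent. -/
noncomputable def pp (ν : Fin q → ℝ) : ℝ := ∑ j, ν j * (if (j : ℕ) = q - 1 then 1 else 0)

theorem wl_eq (ν : Fin q → ℝ) (hν : ∑ j, ν j = 1) (l : Fin D) :
    wl ν l = uu ν * pp ν ^ (l : ℕ) := by
  classical
  let G : Fin D → Fin q → ℝ := fun e j =>
    if e < l then (if (j : ℕ) = q - 1 then 1 else 0) else
      if e = l then (if 1 ≤ (j : ℕ) then 1 else 0) else 1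
  have h1 : ∀ τ : Fin D → Fin q, (if Valid τ l then (1 : ℝ) else 0) = ∏ e, G e (τ e) := by
    intro τ
    by_cases hv : Valid τ l
    · rw [if_pos hv]
      symm
      apply Finset.prod_eq_one
      intro e _
      simp only [G]
      rcases lt_trichotomy e l with h | h | h
      · rw [if_pos h, if_pos (hv.2 e h)]
      · rw [if_neg (by omega), if_pos h, h, if_pos hv.1]
      · rw [if_neg (by omega), if_neg (by omega)]
    · rw [if_neg hv]
      symm
      unfold Valid at hv
      push Not at hv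
      by_cases h1 : 1 ≤ (τ l : ℕ)
      · obtain ⟨e, he, he2⟩ := hv h1
        apply Finset.prod_eq_zero (Finset.mem_univ e)
        simp only [G]
        rw [if_pos he, if_neg he2]
      · apply Finset.prod_eq_zero (Finset.mem_univ l)
        simp [G, h1]
  unfold wl
  simp only [h1]
  rw [pw_box]
  have h2 : ∀ e, ∑ x, ν x * G e x =
      if e < l then pp ν else if e = l then uu ν else 1 := by
    intro e
    simp only [G]
    by_cases h : e < l
    · simp only [if_pos h, pp]
    · simp only [if_neg h]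
      by_cases h' : e = l
      · simp only [if_pos h', uu]
      · simp only [if_neg h', mul_one, hν]
  simp only [h2]
  rw [Finset.prod_ite, Finset.prod_const]
  have h3 : (univ.filter fun e : Fin D => e < l).card = (l : ℕ) := by
    rw [← Fin.card_Iio l]
    congr 1
    ext e
    simp
  rw [h3]
  have h4 : ∏ e ∈ univ.filter (fun e : Fin D => ¬ e < l), (if e = l then uu ν else 1) = uu ν := by
    rw [Finset.prod_eq_single l]
    · simp
    · intro b _ hb
      simp [hb]
    · simp
  rw [h4]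
  ring

theorem valid_and_valid {hq2 : 2 ≤ q} (τ : Fin D → Fin q) (l l' : Fin D) :
    (Valid τ l ∧ Valid τ l') ↔ Valid τ (max l l') := by
  constructor
  · rintro ⟨h, h'⟩
    rcases le_total l l' with hle | hle
    · rwa [max_eq_right hle]
    · rwa [max_eq_left hle]
  · intro h
    rcases le_total l l' with hle | hle
    · rw [max_eq_right hle] at h
      refine ⟨⟨?_, fun e he => h.2 e (lt_of_lt_of_le he hle)⟩, h⟩
      rcases hle.lt_or_eq with hlt | heq
      · rw [h.2 l hlt]; omega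
      · rw [heq]; exact h.1
    · rw [max_eq_left hle] at h
      refine ⟨h, ⟨?_, fun e he => h.2 e (lt_of_lt_of_le he hle)⟩⟩
      rcases hle.lt_or_eq with hlt | heq
      · rw [h.2 l' hlt]; omega
      · rw [heq]; exact h.1

open scoped Classical in
/-- Joint probability of validity of two labels at the same vertex. -/
theorem wl_same (hq2 : 2 ≤ q) (ν : Fin q → ℝ) (l l' : Fin D) :
    ∑ τ : Fin D → Fin q, pw ν τ * ((if Valid τ l then 1 else 0) * (if Valid τ l' then 1 else 0)) =
      wl ν (max l l') := by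
  unfold wl
  refine Finset.sum_congr rfl fun τ _ => ?_
  congr 1
  have := valid_and_valid (hq2 := hq2) τ l l'
  by_cases h1 : Valid τ (max l l')
  · rw [if_pos h1, if_pos (this.2 h1).1, if_pos (this.2 h1).2, one_mul]
  · rw [if_neg h1]
    by_cases h2 : Valid τ l
    · rw [if_pos h2, if_neg (fun h3 => h1 (this.1 ⟨h2, h3⟩))]
      simp
    · rw [if_neg h2, zero_mul]

end layer

section count

variable {V : Type*} [Fintype V] [DecidableEq V] {q D : ℕ}

open scoped Classical in
/-- Number of valid paths. -/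
noncomputable def cnt : (r : ℕ) → (Fin r → V → Fin D → V) → (Fin r → V → Fin D → Fin q) → V → ℝ
  | 0, _, _, _ => 1
  | r + 1, φ, T, a =>
    ∑ l : Fin D, if Valid (T 0 a) l then cnt r (Fin.tail φ) (Fin.tail T) (φ 0 a l) else 0

omit [Fintype V] [DecidableEq V] in
theorem cnt_nonneg : ∀ (r : ℕ) (φ : Fin r → V → Fin D → V) (T : Fin r → V → Fin D → Fin q) (a : V),
    0 ≤ cnt r φ T a := by
  intro r
  induction r with
  | zero => intro φ T a; simp [cnt]
  | succ r ih =>
    intro φ T a
    simp only [cnt]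
    apply Finset.sum_nonneg
    intro l _
    split_ifs
    · exact ih _ _ _
    · exact le_rfl

omit [Fintype V] [DecidableEq V] in
theorem exists_validPath_of_cnt_pos : ∀ (r : ℕ) (φ : Fin r → V → Fin D → V)
    (T : Fin r → V → Fin D → Fin q) (a : V), 0 < cnt r φ T a →
    ∃ π, ValidPath r φ T a π := by
  intro r
  induction r with
  | zero => intro φ T a _; exact ⟨Fin.elim0, trivial⟩
  | succ r ih =>
    intro φ T a h
    simp only [cnt] at h
    obtain ⟨l, _, hl⟩ := Finset.exists_lt_of_sum_lt (s := univ)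
      (f := fun _ : Fin D => (0 : ℝ)) (by simpa using h)
    by_cases hv : Valid (T 0 a) l
    · rw [if_pos hv] at hl
      obtain ⟨π', hπ'⟩ := ih _ _ _ hl
      refine ⟨Fin.cons l π', ?_⟩
      simp only [ValidPath, Fin.cons_zero]
      refine ⟨hv, ?_⟩
      simpa [Fin.tail_cons] using hπ'
    · rw [if_neg hv] at hl
      exact absurd hl (lt_irrefl _)

/-- Expected number of valid paths. -/
theorem first_moment (ν : Fin q → ℝ) (hν : ∑ j, ν j = 1) : ∀ (r : ℕ) (φ : Fin r → V → Fin D → V) (a : V),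
    ∑ T : Fin r → V → Fin D → Fin q, pw (pw (pw ν)) T * cnt r φ T a = (∑ l : Fin D, wl ν l) ^ r := by
  classical
  intro r
  induction r with
  | zero =>
    intro φ a
    simp [cnt, pw]
  | succ r ih =>
    intro φ a
    rw [pw_sum_cons]
    have h1 : ∀ T₀ : V → Fin D → Fin q, ∑ T' : Fin r → V → Fin D → Fin q,
        pw (pw (pw ν)) T' * cnt (r + 1) φ (Fin.cons T₀ T') a =
        ∑ l : Fin D, (if Valid (T₀ a) l then 1 else 0) * (∑ l' : Fin D, wl ν l') ^ r := by
      intro T₀
      simp only [cnt, Fin.cons_zero, Fin.tail_cons]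
      simp only [Finset.mul_sum]
      rw [Finset.sum_comm]
      refine Finset.sum_congr rfl fun l _ => ?_
      by_cases hv : Valid (T₀ a) l
      · simp only [if_pos hv, one_mul]
        exact ih _ _
      · simp [hv]
    simp only [h1, Finset.mul_sum]
    rw [Finset.sum_comm]
    have h2 : ∀ l : Fin D, ∑ T₀ : V → Fin D → Fin q, pw (pw ν) T₀ *
        ((if Valid (T₀ a) l then 1 else 0) * (∑ l' : Fin D, wl ν l') ^ r) =
        wl ν l * (∑ l' : Fin D, wl ν l') ^ r := by
      intro l
      have h3 := pw_marginal (ι := V) (pw ν) (pw_sum_one ν hν) a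
        (fun τ => if Valid τ l then (1 : ℝ) else 0)
      simp only [wl]
      rw [← h3, Finset.sum_mul]
      exact Finset.sum_congr rfl fun _ _ => by ring
    simp only [h2]
    rw [← Finset.sum_mul, pow_succ]
    ring

/-- The second moment. -/
noncomputable def KK (ν : Fin q → ℝ) (r : ℕ) (φ : Fin r → V → Fin D → V) (a a' : V) : ℝ :=
  ∑ T : Fin r → V → Fin D → Fin q, pw (pw (pw ν)) T * (cnt r φ T a * cnt r φ T a')

open scoped Classical in
/-- Joint probability of two labels at two vertices. -/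
noncomputable def JJ (ν : Fin q → ℝ) (a a' : V) (l l' : Fin D) : ℝ :=
  ∑ T₀ : V → Fin D → Fin q, pw (pw ν) T₀ *
    ((if Valid (T₀ a) l then 1 else 0) * (if Valid (T₀ a') l' then 1 else 0))

theorem JJ_ne (ν : Fin q → ℝ) (hν : ∑ j, ν j = 1) {a a' : V} (h : a ≠ a') (l l' : Fin D) :
    JJ ν a a' l l' = wl ν l * wl ν l' := by
  classical
  unfold JJ
  simp only [wl]
  exact pw_two (ι := V) (pw ν) (pw_sum_one (ι := Fin D) ν hν) h
    (fun τ => if Valid τ l then (1 : ℝ) else 0) (fun τ => if Valid τ l' then (1 : ℝ) else 0)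

theorem JJ_eq (hq2 : 2 ≤ q) (ν : Fin q → ℝ) (hν : ∑ j, ν j = 1) (a : V) (l l' : Fin D) :
    JJ ν a a l l' = wl ν (max l l') := by
  classical
  unfold JJ
  have := pw_marginal (ι := V) (pw ν) (pw_sum_one ν hν) a
    (fun τ => (if Valid τ l then (1 : ℝ) else 0) * (if Valid τ l' then 1 else 0))
  rw [this]
  exact wl_same hq2 ν l l'

/-- Recursion for the second moment. -/
theorem KK_succ (ν : Fin q → ℝ) (r : ℕ) (φ : Fin (r + 1) → V → Fin D → V) (a a' : V) :
    KK ν (r + 1) φ a a' = ∑ l, ∑ l', JJ ν a a' l l' *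
      KK ν r (Fin.tail φ) (φ 0 a l) (φ 0 a' l') := by
  classical
  unfold KK JJ
  rw [pw_sum_cons]
  let A : (V → Fin D → Fin q) → (Fin r → V → Fin D → Fin q) → Fin D → ℝ := fun T₀ T' l =>
    if Valid (T₀ a) l then cnt r (Fin.tail φ) T' (φ 0 a l) else 0
  let B : (V → Fin D → Fin q) → (Fin r → V → Fin D → Fin q) → Fin D → ℝ := fun T₀ T' l' =>
    if Valid (T₀ a') l' then cnt r (Fin.tail φ) T' (φ 0 a' l') else 0
  have hexpand : ∀ T₀ T', cnt (r + 1) φ (Fin.cons T₀ T') a * cnt (r + 1) φ (Fin.cons T₀ T') a' =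
      ∑ l, ∑ l', A T₀ T' l * B T₀ T' l' := by
    intro T₀ T'
    simp only [cnt, Fin.cons_zero, Fin.tail_cons, A, B]
    rw [Finset.sum_mul_sum]
  simp only [hexpand]
  calc ∑ T₀ : V → Fin D → Fin q, pw (pw ν) T₀ * ∑ T' : Fin r → V → Fin D → Fin q,
        pw (pw (pw ν)) T' * ∑ l, ∑ l', A T₀ T' l * B T₀ T' l'
      = ∑ T₀ : V → Fin D → Fin q, ∑ T' : Fin r → V → Fin D → Fin q, ∑ l, ∑ l',
        pw (pw ν) T₀ * (pw (pw (pw ν)) T' * (A T₀ T' l * B T₀ T' l')) := by
        simp only [Finset.mul_sum]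
    _ = ∑ T₀ : V → Fin D → Fin q, ∑ l, ∑ l', ∑ T' : Fin r → V → Fin D → Fin q,
        pw (pw ν) T₀ * (pw (pw (pw ν)) T' * (A T₀ T' l * B T₀ T' l')) := by
        refine Finset.sum_congr rfl fun T₀ _ => ?_
        rw [Finset.sum_comm]
        refine Finset.sum_congr rfl fun l _ => ?_
        rw [Finset.sum_comm]
    _ = ∑ l, ∑ l', ∑ T₀ : V → Fin D → Fin q, ∑ T' : Fin r → V → Fin D → Fin q,
        pw (pw ν) T₀ * (pw (pw (pw ν)) T' * (A T₀ T' l * B T₀ T' l')) := by
        rw [Finset.sum_comm]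
        refine Finset.sum_congr rfl fun l _ => ?_
        rw [Finset.sum_comm]
    _ = _ := by
        refine Finset.sum_congr rfl fun l _ => Finset.sum_congr rfl fun l' _ => ?_
        rw [Finset.sum_mul_sum]
        refine Finset.sum_congr rfl fun T₀ _ => Finset.sum_congr rfl fun T' _ => ?_
        simp only [A, B]
        by_cases h1 : Valid (T₀ a) l <;> by_cases h2 : Valid (T₀ a') l' <;> simp [h1, h2]

/-- Paley-Zygmund in the form needed: if `E Z² ≤ S` then `P(Z>0) ≥ (E Z)²/S`. -/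
theorem paley_zygmund {Ω : Type*} [Fintype Ω] (μ : Ω → ℝ) (hμ : ∀ ω, 0 ≤ μ ω) (Z : Ω → ℝ)
    (hZ : ∀ ω, 0 ≤ Z ω) {E S : ℝ} (hE : ∑ ω, μ ω * Z ω = E) (hS : ∑ ω, μ ω * (Z ω * Z ω) ≤ S)
    (hS0 : 0 < S) :
    E ^ 2 / S ≤ ∑ ω, μ ω * (if 0 < Z ω then 1 else 0) := by
  have hpt : ∀ ω, μ ω * (2 * (E / S) * Z ω - (E / S) ^ 2 * (Z ω * Z ω)) ≤
      μ ω * (if 0 < Z ω then 1 else 0) := by
    intro ω
    apply mul_le_mul_of_nonneg_left _ (hμ ω)
    by_cases h : 0 < Z ω
    · rw [if_pos h]
      nlinarith [sq_nonneg (1 - E / S * Z ω)]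
    · rw [if_neg h]
      have : Z ω = 0 := le_antisymm (by linarith) (hZ ω)
      rw [this]
      simp
  have hsum := Finset.sum_le_sum (s := univ) fun ω _ => hpt ω
  have h1 : ∑ ω, μ ω * (2 * (E / S) * Z ω - (E / S) ^ 2 * (Z ω * Z ω)) =
      2 * (E / S) * E - (E / S) ^ 2 * ∑ ω, μ ω * (Z ω * Z ω) := by
    rw [← hE, Finset.mul_sum, Finset.mul_sum, ← Finset.sum_sub_distrib]
    exact Finset.sum_congr rfl fun _ _ => by ring
  rw [h1] at hsum
  refine le_trans ?_ hsum
  have h2 : (E / S) ^ 2 * ∑ ω, μ ω * (Z ω * Z ω) ≤ (E / S) ^ 2 * S :=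
    mul_le_mul_of_nonneg_left hS (sq_nonneg _)
  have h3 : 2 * (E / S) * E - (E / S) ^ 2 * S = E ^ 2 / S := by
    field_simp
    ring
  linarith

end count

end Vale.Agent.Lib.P346
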