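import Mathlib
import Vale.Agent.Lib.P346.Prob

/-!
A random labelled layered graph: averaging the second moment over the graph.
-/

namespace Vale.Agent.Lib.P346

open Finset

variable {q D w : ℕ}

/-- Vertices: a residue and the label through which the vertex was entered. -/
abbrev VV (w D : ℕ) := Fin w × Fin D

/-- One layer of a labelled graph described by a function. -/
abbrev F1 (w D : ℕ) := VV w D → Fin D → Fin w

/-- Heads of edges: the second coordinate records the label, so distinct labels give distinct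
heads. -/
def hd {r : ℕ} (f : Fin r → F1 w D) : Fin r → VV w D → Fin D → VV w D :=
  fun j a l => (f j a l, l)

/-- Uniform weights. -/
noncomputable def unif (w : ℕ) : Fin w → ℝ := fun _ => 1 / (w : ℝ)

theorem unif_sum (hw : 0 < w) : ∑ j, unif w j = 1 := by
  have : (w : ℝ) ≠ 0 := by positivity
  simp [unif, this]

/-- The recursion for the averaged second moments. -/
noncomputable def sd (ν : Fin q → ℝ) (w D : ℕ) : ℕ → ℝ × ℝ
  | 0 => (1, 1)
  | r + 1 =>
    (∑ l : Fin D, ∑ l' : Fin D, wl ν (max l l') * (if l = l' then (sd ν w D r).1 else (sd ν w D r).2),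
     ∑ l : Fin D, ∑ l' : Fin D, wl ν l * wl ν l' * (if l = l' then
        (sd ν w D r).1 / w + (1 - 1 / (w : ℝ)) * (sd ν w D r).2 else (sd ν w D r).2))

/-- Probability of a collision. -/
theorem coll_prob (hw : 0 < w) {a a' : VV w D} (hne : a ≠ a') (l : Fin D) :
    ∑ f : F1 w D, pw (pw (unif w)) f * (if f a l = f a' l then 1 else 0) = 1 / (w : ℝ) := by
  classical
  have hw' : (w : ℝ) ≠ 0 := by positivity
  have h1 : ∀ f : F1 w D, (if f a l = f a' l then (1 : ℝ) else 0) =
      ∑ u : Fin w, (if f a l = u then 1 else 0) * (if f a' l = u then 1 else 0) := by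
    intro f
    rw [Finset.sum_eq_single (f a l)]
    · by_cases h : f a l = f a' l
      · simp [h]
      · simp [h, Ne.symm h]
    · intro b _ hb
      simp [Ne.symm hb]
    · simp
  simp only [h1, Finset.mul_sum]
  rw [Finset.sum_comm]
  have h2 : ∀ u : Fin w, ∑ f : F1 w D, pw (pw (unif w)) f *
      ((if f a l = u then 1 else 0) * (if f a' l = u then (1 : ℝ) else 0)) = (1 / (w : ℝ)) ^ 2 := by
    intro u
    have h3 := pw_two (ι := VV w D) (pw (unif w)) (pw_sum_one (ι := Fin D) _ (unif_sum hw)) hne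
      (fun τ => if τ l = u then (1 : ℝ) else 0) (fun τ => if τ l = u then (1 : ℝ) else 0)
    rw [h3]
    have h4 := pw_marginal (ι := Fin D) (unif w) (unif_sum hw) l
      (fun x => if x = u then (1 : ℝ) else 0)
    rw [h4]
    simp [unif, sq]
  simp only [h2]
  simp only [Finset.sum_const, Finset.card_univ, Fintype.card_fin, nsmul_eq_mul]
  field_simp

/-- The expectation over one layer of the function comparing heads. -/
theorem head_avg (hw : 0 < w) (a a' : VV w D) (l l' : Fin D) (s d : ℝ) :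
    ∑ f : F1 w D, pw (pw (unif w)) f *
      (if ((f a l, l) : VV w D) = (f a' l', l') then s else d) =
    if l = l' then (if a = a' then s else s / w + (1 - 1 / (w : ℝ)) * d) else d := by
  classical
  have hone : ∑ f : F1 w D, pw (pw (unif w)) f = 1 :=
    pw_sum_one _ (pw_sum_one _ (unif_sum hw))
  by_cases hl : l = l'
  · subst hl
    rw [if_pos rfl]
    by_cases ha : a = a'
    · subst ha
      simp [hone, ← Finset.sum_mul]
    · rw [if_neg ha]
      have h1 : ∀ f : F1 w D, pw (pw (unif w)) f *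
          (if ((f a l, l) : VV w D) = (f a' l, l) then s else d) =
          pw (pw (unif w)) f * d + (s - d) * (pw (pw (unif w)) f * (if f a l = f a' l then 1 else 0)) := by
        intro f
        by_cases h : f a l = f a' l
        · simp [h]; ring
        · have : ¬ ((f a l, l) : VV w D) = (f a' l, l) := fun h2 => h (congrArg Prod.fst h2)
          rw [if_neg this, if_neg h]
          ring
      simp only [h1]
      rw [Finset.sum_add_distrib, ← Finset.sum_mul, hone, ← Finset.mul_sum, coll_prob hw ha]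
      ring
  · rw [if_neg hl]
    have h1 : ∀ f : F1 w D, (if ((f a l, l) : VV w D) = (f a' l', l') then s else d) = d := by
      intro f
      rw [if_neg]
      intro h
      exact hl (congrArg Prod.snd h)
    simp only [h1]
    rw [← Finset.sum_mul, hone, one_mul]

/-- The averaged second moment is given by the recursion. -/
theorem avg_KK (hq2 : 2 ≤ q) (hw : 0 < w) (ν : Fin q → ℝ) (hν : ∑ j, ν j = 1) :
    ∀ (r : ℕ) (a a' : VV w D), ∑ f : Fin r → F1 w D, pw (pw (pw (unif w))) f *
      KK ν r (hd f) a a' = if a = a' then (sd ν w D r).1 else (sd ν w D r).2 := by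
  classical
  have hone : ∑ f : F1 w D, pw (pw (unif w)) f = 1 :=
    pw_sum_one _ (pw_sum_one _ (unif_sum hw))
  intro r
  induction r with
  | zero =>
    intro a a'
    have h0 : ∀ (φ : Fin 0 → VV w D → Fin D → VV w D) (a a' : VV w D),
        KK ν 0 φ a a' = 1 := by
      intro φ a a'
      simp [KK, cnt, pw]
    simp only [h0, mul_one, sd]
    simp [pw]
  | succ r ih =>
    intro a a'
    rw [pw_sum_cons]
    have h1 : ∀ f₀ : F1 w D, ∑ f' : Fin r → F1 w D, pw (pw (pw (unif w))) f' *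
        KK ν (r + 1) (hd (Fin.cons f₀ f')) a a' =
        ∑ l, ∑ l', JJ ν a a' l l' * (if ((f₀ a l, l) : VV w D) = (f₀ a' l', l') then
          (sd ν w D r).1 else (sd ν w D r).2) := by
      intro f₀
      have h2 : ∀ f' : Fin r → F1 w D, KK ν (r + 1) (hd (Fin.cons f₀ f')) a a' =
          ∑ l, ∑ l', JJ ν a a' l l' * KK ν r (hd f') (f₀ a l, l) (f₀ a' l', l') := by
        intro f'
        rw [KK_succ]
        rfl
      simp only [h2, Finset.mul_sum]
      rw [Finset.sum_comm]
      refine Finset.sum_congr rfl fun l _ => ?_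
      rw [Finset.sum_comm]
      refine Finset.sum_congr rfl fun l' _ => ?_
      rw [← ih (f₀ a l, l) (f₀ a' l', l'), Finset.mul_sum]
      exact Finset.sum_congr rfl fun _ _ => by ring
    simp only [h1, Finset.mul_sum]
    rw [Finset.sum_comm]
    have h3 : ∀ l l', ∑ f₀ : F1 w D, pw (pw (unif w)) f₀ * (JJ ν a a' l l' *
        (if ((f₀ a l, l) : VV w D) = (f₀ a' l', l') then (sd ν w D r).1 else (sd ν w D r).2)) =
        JJ ν a a' l l' * (if l = l' then (if a = a' then (sd ν w D r).1 else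
          (sd ν w D r).1 / w + (1 - 1 / (w : ℝ)) * (sd ν w D r).2) else (sd ν w D r).2) := by
      intro l l'
      rw [← head_avg hw a a' l l', Finset.mul_sum]
      exact Finset.sum_congr rfl fun _ _ => by ring
    have h4 : ∀ l, ∑ f₀ : F1 w D, ∑ l', pw (pw (unif w)) f₀ * (JJ ν a a' l l' *
        (if ((f₀ a l, l) : VV w D) = (f₀ a' l', l') then (sd ν w D r).1 else (sd ν w D r).2)) =
        ∑ l', JJ ν a a' l l' * (if l = l' then (if a = a' then (sd ν w D r).1 else
          (sd ν w D r).1 / w + (1 - 1 / (w : ℝ)) * (sd ν w D r).2) else (sd ν w D r).2) := by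
      intro l
      rw [Finset.sum_comm]
      exact Finset.sum_congr rfl fun l' _ => h3 l l'
    simp only [h4]
    by_cases ha : a = a'
    · subst ha
      simp only [if_true, JJ_eq hq2 ν hν, sd]
    · simp only [if_neg ha, JJ_ne ν hν ha, sd]

section bounds

variable (ν : Fin q → ℝ)

/-- The mean number of valid labels. -/
noncomputable def mm (ν : Fin q → ℝ) (D : ℕ) : ℝ := ∑ l : Fin D, wl ν l

/-- Sum of squares of the `wl`. -/
noncomputable def kap (ν : Fin q → ℝ) (D : ℕ) : ℝ := ∑ l : Fin D, wl ν l ^ 2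

/-- Sum over distinct labels of the joint probabilities. -/
noncomputable def sig (ν : Fin q → ℝ) (D : ℕ) : ℝ :=
  ∑ l : Fin D, ∑ l' : Fin D, if l = l' then 0 else wl ν (max l l')

theorem sd_succ_fst (r : ℕ) : (sd ν w D (r + 1)).1 =
    mm ν D * (sd ν w D r).1 + sig ν D * (sd ν w D r).2 := by
  classical
  have h1 : ∀ l l' : Fin D, wl ν (max l l') * (if l = l' then (sd ν w D r).1 else (sd ν w D r).2) =
      (if l = l' then wl ν l else 0) * (sd ν w D r).1 +
        (if l = l' then 0 else wl ν (max l l')) * (sd ν w D r).2 := by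
    intro l l'
    by_cases h : l = l'
    · subst h
      simp
    · simp [h]
  simp only [sd, h1, Finset.sum_add_distrib, ← Finset.sum_mul]
  simp [mm, sig]

theorem sd_succ_snd (hw : 0 < w) (r : ℕ) : (sd ν w D (r + 1)).2 =
    mm ν D ^ 2 * (sd ν w D r).2 + kap ν D * ((sd ν w D r).1 - (sd ν w D r).2) / w := by
  classical
  have hw' : (w : ℝ) ≠ 0 := by positivity
  have h1 : ∀ l l' : Fin D, wl ν l * wl ν l' * (if l = l' then
      (sd ν w D r).1 / w + (1 - 1 / (w : ℝ)) * (sd ν w D r).2 else (sd ν w D r).2) =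
      wl ν l * wl ν l' * (sd ν w D r).2 +
        (if l = l' then wl ν l ^ 2 else 0) * (((sd ν w D r).1 - (sd ν w D r).2) / w) := by
    intro l l'
    by_cases h : l = l'
    · subst h
      simp only [if_true]
      field_simp
      ring
    · simp [h]
  simp only [sd, h1, Finset.sum_add_distrib, ← Finset.sum_mul]
  rw [← Finset.sum_mul_sum]
  simp only [Finset.sum_ite_eq, Finset.mem_univ, if_true, mm, kap, sq]
  ring

theorem kap_le (hwl : ∀ l : Fin D, 0 ≤ wl ν l) : kap ν D ≤ mm ν D ^ 2 := by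
  classical
  have h1 : ∀ l : Fin D, wl ν l ≤ mm ν D := fun l =>
    Finset.single_le_sum (f := fun l => wl ν l) (fun l _ => hwl l) (Finset.mem_univ l)
  have h2 : kap ν D ≤ ∑ l : Fin D, wl ν l * mm ν D :=
    Finset.sum_le_sum fun l _ => by
      rw [sq]
      exact mul_le_mul_of_nonneg_left (h1 l) (hwl l)
  rw [← Finset.sum_mul] at h2
  simpa [mm, sq] using h2

theorem kap_nonneg : 0 ≤ kap ν D := Finset.sum_nonneg fun _ _ => sq_nonneg _

theorem sig_nonneg (hwl : ∀ l : Fin D, 0 ≤ wl ν l) : 0 ≤ sig ν D := by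
  classical
  apply Finset.sum_nonneg
  intro l _
  apply Finset.sum_nonneg
  intro l' _
  split_ifs
  · exact le_rfl
  · exact hwl _

theorem geom34 (n : ℕ) : ∑ i ∈ Finset.range n, ((3 : ℝ) / 4) ^ i ≤ 4 - 4 * (3 / 4) ^ n := by
  induction n with
  | zero => simp
  | succ n ih =>
    rw [Finset.sum_range_succ, pow_succ]
    linarith

/-- The bound for `sig`. -/
theorem sig_le (hν : ∑ j, ν j = 1) (hν0 : ∀ j, 0 ≤ ν j) (hp : pp ν ≤ 1 / 2) : sig ν D ≤ 16 := by
  classical
  have hu0 : 0 ≤ uu ν := by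
    apply Finset.sum_nonneg
    intro j _
    apply mul_nonneg (hν0 j)
    split_ifs <;> norm_num
  have hu1 : uu ν ≤ 1 := by
    rw [← hν]
    apply Finset.sum_le_sum
    intro j _
    have := hν0 j
    split_ifs <;> linarith
  have hp0 : 0 ≤ pp ν := by
    apply Finset.sum_nonneg
    intro j _
    apply mul_nonneg (hν0 j)
    split_ifs <;> norm_num
  have h1 : ∀ l l' : Fin D, (if l = l' then 0 else wl ν (max l l')) ≤
      ((3 : ℝ) / 4) ^ (l : ℕ) * ((3 : ℝ) / 4) ^ (l' : ℕ) := by
    intro l l'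
    have hpos : (0 : ℝ) ≤ ((3 : ℝ) / 4) ^ (l : ℕ) * ((3 : ℝ) / 4) ^ (l' : ℕ) := by positivity
    split_ifs
    · exact hpos
    · rw [wl_eq ν hν]
      set x : ℕ := ((max l l' : Fin D) : ℕ) with hx
      have hlx : (l : ℕ) ≤ x := by
        simp only [hx]
        exact_mod_cast le_max_left l l'
      have hlx' : (l' : ℕ) ≤ x := by
        simp only [hx]
        exact_mod_cast le_max_right l l'
      calc uu ν * pp ν ^ x ≤ 1 * (1 / 2 : ℝ) ^ x :=
            mul_le_mul hu1 (pow_le_pow_left₀ hp0 hp x) (by positivity) (by norm_num)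
        _ = (1 / 2 : ℝ) ^ x := one_mul _
        _ ≤ ((3 / 4 : ℝ) * (3 / 4)) ^ x := pow_le_pow_left₀ (by norm_num) (by norm_num) x
        _ = (3 / 4 : ℝ) ^ x * (3 / 4) ^ x := mul_pow _ _ _
        _ ≤ _ := mul_le_mul (pow_le_pow_of_le_one (by norm_num) (by norm_num) hlx)
            (pow_le_pow_of_le_one (by norm_num) (by norm_num) hlx') (by positivity) (by positivity)
  have h2 : sig ν D ≤ (∑ l : Fin D, ((3 : ℝ) / 4) ^ (l : ℕ)) * ∑ l : Fin D, ((3 : ℝ) / 4) ^ (l : ℕ) := by
    rw [Finset.sum_mul_sum]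
    exact Finset.sum_le_sum fun l _ => Finset.sum_le_sum fun l' _ => h1 l l'
  have h3 : ∑ l : Fin D, ((3 : ℝ) / 4) ^ (l : ℕ) ≤ 4 := by
    rw [Fin.sum_univ_eq_sum_range (fun i => ((3 : ℝ) / 4) ^ i) D]
    have := geom34 D
    have h5 : (0 : ℝ) ≤ 4 * (3 / 4) ^ D := by positivity
    linarith
  have h4 : (0 : ℝ) ≤ ∑ l : Fin D, ((3 : ℝ) / 4) ^ (l : ℕ) := by positivity
  nlinarith

theorem wl_nonneg (hν0 : ∀ j, 0 ≤ ν j) (l : Fin D) : 0 ≤ wl ν l := by
  classical
  unfold wl
  apply Finset.sum_nonneg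
  intro τ _
  apply mul_nonneg (pw_nonneg _ hν0 _)
  split_ifs <;> norm_num

/-- The bound for the recursion. -/
theorem sd_bound (hw : 0 < w) (hwl : ∀ l : Fin D, 0 ≤ wl ν l) (hm14 : 1 / 4 ≤ mm ν D)
    (hm1 : mm ν D ≤ 1) (hsig : sig ν D ≤ 16) (t : ℕ)
    (hbig : (t : ℝ) * (1 + 128 * t) ≤ w * mm ν D ^ t) :
    ∀ r, r ≤ t → (sd ν w D r).1 ≤ (1 + 128 * r) * mm ν D ^ r ∧
      (sd ν w D r).2 ≤ (1 + r * ((1 + 128 * t) / (w * mm ν D ^ t))) * mm ν D ^ (2 * r) ∧
      0 ≤ (sd ν w D r).1 ∧ 0 ≤ (sd ν w D r).2 := by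
  set m := mm ν D with hm
  have hm0 : 0 < m := by linarith
  have hw1 : (1 : ℝ) ≤ w := by exact_mod_cast hw
  have hw0 : (0 : ℝ) < w := by linarith
  have hmt : 0 < m ^ t := pow_pos hm0 t
  set B := (1 + 128 * (t : ℝ)) / (w * m ^ t) with hB
  have hB0 : 0 < B := by positivity
  have htB : (t : ℝ) * B ≤ 1 := by
    rw [hB, ← mul_div_assoc, div_le_one (by positivity)]
    exact hbig
  have hκ1 := kap_le ν hwl
  have hκ0 := kap_nonneg ν (D := D)
  have hσ0 := sig_nonneg ν hwl
  intro r
  induction r with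
  | zero =>
    intro _
    simp [sd]
  | succ r ih =>
    intro hr
    obtain ⟨h1, h2, h3, h4⟩ := ih (by omega)
    have hrt : (r : ℝ) + 1 ≤ t := by exact_mod_cast hr
    have hrB : (r : ℝ) * B ≤ 1 := by
      have : (r : ℝ) * B ≤ t * B := mul_le_mul_of_nonneg_right (by linarith) hB0.le
      linarith
    have hmr : 0 < m ^ r := pow_pos hm0 r
    have hdle : (sd ν w D r).2 ≤ 2 * m ^ (2 * r) := by
      have h5 : 0 < m ^ (2 * r) := pow_pos hm0 _
      nlinarith
    refine ⟨?_, ?_, ?_, ?_⟩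
    · rw [sd_succ_fst, ← hm]
      have h5 : m * (sd ν w D r).1 ≤ m * ((1 + 128 * r) * m ^ r) :=
        mul_le_mul_of_nonneg_left h1 hm0.le
      have h6 : sig ν D * (sd ν w D r).2 ≤ 16 * (2 * m ^ (2 * r)) :=
        mul_le_mul hsig hdle h4 (by norm_num)
      have h7 : 32 * m ^ (2 * r) ≤ 128 * m ^ (r + 1) := by
        rcases Nat.eq_zero_or_pos r with hr0 | hr0
        · subst hr0
          simp only [mul_zero, pow_zero, zero_add, pow_one]
          linarith
        · have h8 : m ^ (2 * r) ≤ m ^ (r + 1) :=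
            pow_le_pow_of_le_one hm0.le hm1 (by omega)
          have h9 : 0 < m ^ (r + 1) := pow_pos hm0 _
          nlinarith
      have h10 : m * ((1 + 128 * (r : ℝ)) * m ^ r) = (1 + 128 * r) * m ^ (r + 1) := by
        rw [pow_succ]; ring
      push_cast
      nlinarith
    · rw [sd_succ_snd ν hw, ← hm]
      have h5 : kap ν D * ((sd ν w D r).1 - (sd ν w D r).2) / w ≤ m ^ 2 * (sd ν w D r).1 / w := by
        apply div_le_div_of_nonneg_right _ hw0.le
        nlinarith
      have h6 : m ^ 2 * (sd ν w D r).1 / w ≤ B * m ^ (2 * (r + 1)) := by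
        have h7 : (1 + 128 * (r : ℝ)) * m ^ r * m ^ t ≤ (1 + 128 * t) * m ^ (2 * r) := by
          have h8 : m ^ r * m ^ t ≤ m ^ (2 * r) := by
            rw [← pow_add]
            exact pow_le_pow_of_le_one hm0.le hm1 (by omega)
          have h9 : 1 + 128 * (r : ℝ) ≤ 1 + 128 * t := by linarith
          have h10 : 0 ≤ m ^ r * m ^ t := by positivity
          calc (1 + 128 * (r : ℝ)) * m ^ r * m ^ t = (1 + 128 * (r : ℝ)) * (m ^ r * m ^ t) := by ring
            _ ≤ (1 + 128 * (t : ℝ)) * (m ^ (2 * r)) :=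
              mul_le_mul h9 h8 h10 (by positivity)
        have h11 : (sd ν w D r).1 * m ^ t ≤ (1 + 128 * t) * m ^ (2 * r) := by
          refine le_trans ?_ h7
          exact mul_le_mul_of_nonneg_right h1 hmt.le
        have h12 : (sd ν w D r).1 / w ≤ B * m ^ (2 * r) := by
          rw [hB, div_le_iff₀ hw0, div_mul_eq_mul_div, div_mul_eq_mul_div, le_div_iff₀ (by positivity)]
          nlinarith
        have e : m ^ (2 * (r + 1)) = m ^ 2 * m ^ (2 * r) := by
          rw [Nat.mul_succ, pow_add]; ring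
        rw [e]
        calc m ^ 2 * (sd ν w D r).1 / w = m ^ 2 * ((sd ν w D r).1 / w) := by ring
          _ ≤ m ^ 2 * (B * m ^ (2 * r)) := mul_le_mul_of_nonneg_left h12 (by positivity)
          _ = _ := by ring
      have e2 : m ^ (2 * (r + 1)) = m ^ 2 * m ^ (2 * r) := by
        rw [Nat.mul_succ, pow_add]; ring
      have h13 : m ^ 2 * (sd ν w D r).2 ≤ (1 + r * B) * m ^ (2 * (r + 1)) := by
        rw [e2]
        calc m ^ 2 * (sd ν w D r).2 ≤ m ^ 2 * ((1 + r * B) * m ^ (2 * r)) :=
              mul_le_mul_of_nonneg_left h2 (by positivity)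
          _ = _ := by ring
      push_cast
      nlinarith
    · rw [sd_succ_fst, ← hm]
      positivity
    · rw [sd_succ_snd ν hw, ← hm]
      have h5 : kap ν D * (sd ν w D r).2 / w ≤ m ^ 2 * (sd ν w D r).2 := by
        rw [div_le_iff₀ hw0]
        have h6 : kap ν D * (sd ν w D r).2 ≤ m ^ 2 * (sd ν w D r).2 :=
          mul_le_mul_of_nonneg_right hκ1 h4
        have h7 : 0 ≤ m ^ 2 * (sd ν w D r).2 := by positivity
        nlinarith
      have h8 : 0 ≤ kap ν D * (sd ν w D r).1 / w := by positivity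
      have e : kap ν D * ((sd ν w D r).1 - (sd ν w D r).2) / w =
          kap ν D * (sd ν w D r).1 / w - kap ν D * (sd ν w D r).2 / w := by ring
      rw [e]
      linarith

end bounds

open scoped Classical in
/-- Existence of a labelled layered graph with a valid path with good probability. -/
theorem exists_dag (hq2 : 2 ≤ q) (hw : 0 < w) (ν : Fin q → ℝ) (hν : ∑ j, ν j = 1)
    (hν0 : ∀ j, 0 ≤ ν j) (hp : pp ν ≤ 1 / 2) (hm14 : 1 / 4 ≤ mm ν D) (hm1 : mm ν D ≤ 1) (t : ℕ)
    (hbig : (t : ℝ) * (1 + 128 * t) ≤ w * mm ν D ^ t) (a₀ : VV w D) :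
    ∃ f : Fin t → F1 w D, mm ν D ^ t / (1 + 128 * t) ≤
      ∑ T : Fin t → VV w D → Fin D → Fin q, pw (pw (pw ν)) T *
        (if ∃ π, ValidPath t (hd f) T a₀ π then 1 else 0) := by
  classical
  have hm0 : 0 < mm ν D := by linarith
  have hmt : 0 < mm ν D ^ t := pow_pos hm0 t
  have hS0 : 0 < (1 + 128 * (t : ℝ)) * mm ν D ^ t := by positivity
  have hb := (sd_bound ν hw (wl_nonneg ν hν0) hm14 hm1 (sig_le ν hν hν0 hp) t hbig t le_rfl).1
  have havg := avg_KK (D := D) hq2 hw ν hν t a₀ a₀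
  rw [if_pos rfl] at havg
  have hunif : ∀ x : Fin w, 0 < unif w x := fun _ => by
    have : (0 : ℝ) < w := by exact_mod_cast hw
    simp only [unif]
    positivity
  have hμpos : ∀ f : Fin t → F1 w D, 0 < pw (pw (pw (unif w))) f :=
    pw_pos _ (pw_pos _ (pw_pos _ hunif))
  have hμsum : ∑ f : Fin t → F1 w D, pw (pw (pw (unif w))) f = 1 :=
    pw_sum_one _ (pw_sum_one _ (pw_sum_one _ (unif_sum hw)))
  -- pick a good graph
  have hex : ∃ f : Fin t → F1 w D, KK ν t (hd f) a₀ a₀ ≤ (1 + 128 * (t : ℝ)) * mm ν D ^ t := by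
    by_contra hall
    push Not at hall
    have : Nonempty (Fin t → F1 w D) := by
      have : Nonempty (Fin w) := ⟨⟨0, hw⟩⟩
      infer_instance
    have h1 : ∑ f : Fin t → F1 w D, pw (pw (pw (unif w))) f * ((1 + 128 * (t : ℝ)) * mm ν D ^ t) <
        ∑ f : Fin t → F1 w D, pw (pw (pw (unif w))) f * KK ν t (hd f) a₀ a₀ := by
      apply Finset.sum_lt_sum_of_nonempty Finset.univ_nonempty
      intro f _
      exact mul_lt_mul_of_pos_left (hall f) (hμpos f)
    rw [← Finset.sum_mul, hμsum, one_mul, havg] at h1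
    linarith
  obtain ⟨f, hf⟩ := hex
  refine ⟨f, ?_⟩
  have hpz := paley_zygmund (Ω := Fin t → VV w D → Fin D → Fin q) (pw (pw (pw ν)))
    (pw_nonneg _ (pw_nonneg _ (pw_nonneg _ hν0)))
    (fun T => cnt t (hd f) T a₀) (fun T => cnt_nonneg _ _ _ _)
    (E := (∑ l : Fin D, wl ν l) ^ t) (S := (1 + 128 * (t : ℝ)) * mm ν D ^ t)
    (first_moment ν hν t (hd f) a₀) hf hS0
  have h2 : ((∑ l : Fin D, wl ν l) ^ t) ^ 2 / ((1 + 128 * (t : ℝ)) * mm ν D ^ t) =
      mm ν D ^ t / (1 + 128 * t) := by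
    simp only [mm]
    have h3 : (∑ l : Fin D, wl ν l) ^ t ≠ 0 := by
      have := hmt
      simp only [mm] at this
      exact this.ne'
    field_simp
  rw [h2] at hpz
  refine le_trans hpz ?_
  apply Finset.sum_le_sum
  intro T _
  apply mul_le_mul_of_nonneg_left _ (pw_nonneg _ (pw_nonneg _ (pw_nonneg _ hν0)) T)
  by_cases h : 0 < cnt t (hd f) T a₀
  · rw [if_pos h, if_pos (exists_validPath_of_cnt_pos _ _ _ _ h)]
  · rw [if_neg h]
    split_ifs <;> norm_num

end Vale.Agent.Lib.P346
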