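import Mathlib
import Vale.Agent.Lib.P346.Kernel

/-!
Functions on `K^X` of bounded functional degree.
-/

namespace Vale.Agent.Lib.P346

open Finset

variable {K : Type*} [Field K]
variable {X : Type*} [Fintype X] [DecidableEq X]

/-- Monomial function with exponent vector `e`. -/
def mon (e : X → ℕ) : (X → K) → K := fun x => ∏ i, x i ^ e i

/-- Reduced monomial function with exponent vector `T`. -/
def monF {q : ℕ} (T : X → Fin q) : (X → K) → K := mon fun i => (T i : ℕ)

/-- Functions of functional degree at most `D`. -/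
def FD (K : Type*) [Field K] (X : Type*) [Fintype X] (D : ℕ) : Submodule K ((X → K) → K) :=
  Submodule.span K {f | ∃ e : X → ℕ, ∑ i, e i ≤ D ∧ f = mon e}

omit [DecidableEq X] in
theorem mon_mem_FD {D : ℕ} (e : X → ℕ) (h : ∑ i, e i ≤ D) : mon e ∈ FD K X D :=
  Submodule.subset_span ⟨e, h, rfl⟩

omit [DecidableEq X] in
theorem mon_mul (e e' : X → ℕ) : (mon e * mon e' : (X → K) → K) = mon (e + e') := by
  funext x
  simp only [Pi.mul_apply, mon, Pi.add_apply, pow_add, Finset.prod_mul_distrib]

omit [DecidableEq X] in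
theorem FD_mono {a b : ℕ} (h : a ≤ b) : FD K X a ≤ FD K X b := by
  apply Submodule.span_mono
  rintro f ⟨e, he, rfl⟩
  exact ⟨e, he.trans h, rfl⟩

omit [DecidableEq X] in
theorem FD_mul_mem {a b : ℕ} {f h : (X → K) → K} (hf : f ∈ FD K X a) (hh : h ∈ FD K X b) :
    f * h ∈ FD K X (a + b) := by
  induction hf using Submodule.span_induction with
  | mem f hf =>
    obtain ⟨e, he, rfl⟩ := hf
    induction hh using Submodule.span_induction with
    | mem h hh =>
      obtain ⟨e', he', rfl⟩ := hh
      rw [mon_mul]
      apply mon_mem_FD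
      simp only [Pi.add_apply, Finset.sum_add_distrib]
      omega
    | zero => simp
    | add x y _ _ hx hy => rw [mul_add]; exact Submodule.add_mem _ hx hy
    | smul c x _ hx => rw [mul_smul_comm]; exact Submodule.smul_mem _ _ hx
  | zero => simp
  | add x y _ _ hx hy => rw [add_mul]; exact Submodule.add_mem _ hx hy
  | smul c x _ hx => rw [smul_mul_assoc]; exact Submodule.smul_mem _ _ hx

omit [DecidableEq X] in
theorem FD_one : (1 : (X → K) → K) ∈ FD K X 0 := by
  have : (1 : (X → K) → K) = mon 0 := by
    funext x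
    simp [mon]
  rw [this]
  exact mon_mem_FD _ (by simp)

omit [DecidableEq X] in
theorem FD_const (c : K) (D : ℕ) : (fun _ => c : (X → K) → K) ∈ FD K X D := by
  have : (fun _ => c : (X → K) → K) = c • (1 : (X → K) → K) := by
    funext x
    simp
  rw [this]
  exact Submodule.smul_mem _ _ (FD_mono (Nat.zero_le _) FD_one)

theorem FD_coord (i : X) : (fun x => x i : (X → K) → K) ∈ FD K X 1 := by
  have : (fun x => x i : (X → K) → K) = mon (fun j => if j = i then 1 else 0) := by
    funext x
    simp [mon, Finset.prod_ite_eq', pow_ite]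
  rw [this]
  apply mon_mem_FD
  simp

omit [DecidableEq X] in
theorem FD_pow_mem {a : ℕ} {f : (X → K) → K} (hf : f ∈ FD K X a) (n : ℕ) :
    f ^ n ∈ FD K X (a * n) := by
  induction n with
  | zero =>
    rw [pow_zero]
    exact FD_mono (Nat.zero_le _) FD_one
  | succ n ih =>
    rw [pow_succ, Nat.mul_succ]
    exact FD_mul_mem ih hf

omit [DecidableEq X] in
theorem FD_prod_mem {ι : Type*} (s : Finset ι) {a : ℕ} (f : ι → (X → K) → K)
    (hf : ∀ i ∈ s, f i ∈ FD K X a) : (∏ i ∈ s, f i) ∈ FD K X (a * s.card) := by
  classical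
  induction s using Finset.induction_on with
  | empty =>
    simp only [Finset.prod_empty]
    exact FD_mono (Nat.zero_le _) FD_one
  | insert i s hi ih =>
    rw [Finset.prod_insert hi, Finset.card_insert_of_notMem hi, Nat.mul_succ, Nat.add_comm]
    exact FD_mul_mem (hf i (Finset.mem_insert_self _ _))
      (ih fun j hj => hf j (Finset.mem_insert_of_mem hj))

/-- Affine forms have functional degree at most one. -/
theorem FD_affine (c : K) (β : X → K) :
    (fun x => c + ∑ i, β i * x i : (X → K) → K) ∈ FD K X 1 := by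
  have : (fun x => c + ∑ i, β i * x i : (X → K) → K) =
      (fun _ => c) + ∑ i, β i • (fun x => x i : (X → K) → K) := by
    funext x
    simp [Finset.sum_apply]
  rw [this]
  refine Submodule.add_mem _ (FD_const c 1) (Submodule.sum_mem _ fun i _ => ?_)
  exact Submodule.smul_mem _ _ (FD_coord i)

section finite

variable [Fintype K]

/-- Any power is equal to a reduced power. -/
theorem exists_reduced_pow {q : ℕ} (hq : Fintype.card K = q) (n : ℕ) :
    ∃ j : Fin q, (j : ℕ) ≤ n ∧ ∀ a : K, a ^ n = a ^ (j : ℕ) := by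
  subst hq
  have hq2 : 2 ≤ Fintype.card K := Fintype.one_lt_card
  induction n using Nat.strong_induction_on with
  | _ n ih =>
    by_cases hn : n < Fintype.card K
    · exact ⟨⟨n, hn⟩, le_rfl, fun _ => rfl⟩
    · obtain ⟨j, hj, hj2⟩ := ih (n - Fintype.card K + 1) (by omega)
      refine ⟨j, by omega, fun a => ?_⟩
      rw [← hj2 a]
      have h1 : n = (n - Fintype.card K) + Fintype.card K := by omega
      conv_lhs => rw [h1, pow_add, FiniteField.pow_card]
      rw [pow_succ]

/-- Reduction of exponent vectors. -/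
theorem exists_reduced_mon {q : ℕ} (hq : Fintype.card K = q) (e : X → ℕ) :
    ∃ T : X → Fin q, (∀ i, (T i : ℕ) ≤ e i) ∧ (mon e : (X → K) → K) = monF T := by
  choose r hr1 hr2 using fun i => exists_reduced_pow (K := K) hq (e i)
  refine ⟨r, hr1, ?_⟩
  funext x
  simp only [mon, monF]
  exact Finset.prod_congr rfl fun i _ => hr2 i (x i)

/-- Expansion of members of `FD` in reduced monomials. -/
theorem exists_coeff_of_mem_FD {q : ℕ} (hq : Fintype.card K = q) {D : ℕ}
    {f : (X → K) → K} (hf : f ∈ FD K X D) :
    ∃ c : (X → Fin q) → K, (∀ T, D + 1 ≤ ∑ i, (T i : ℕ) → c T = 0) ∧ f = evalC c := by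
  induction hf using Submodule.span_induction with
  | mem f hf =>
    obtain ⟨e, he, rfl⟩ := hf
    obtain ⟨T₀, hT₀, hT₀2⟩ := exists_reduced_mon (K := K) hq e
    refine ⟨fun T => if T = T₀ then 1 else 0, ?_, ?_⟩
    · intro T hT
      show (if T = T₀ then (1 : K) else 0) = 0
      rw [if_neg]
      rintro rfl
      have : ∑ i, (T i : ℕ) ≤ ∑ i, e i := Finset.sum_le_sum fun i _ => hT₀ i
      omega
    · rw [hT₀2]
      funext x
      simp [evalC, monF, mon, Finset.sum_ite_eq']
  | zero =>
    refine ⟨0, fun _ _ => rfl, ?_⟩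
    funext x
    simp [evalC]
  | add f h _ _ hf hh =>
    obtain ⟨c, hc, rfl⟩ := hf
    obtain ⟨c', hc', rfl⟩ := hh
    refine ⟨c + c', fun T hT => by simp [hc T hT, hc' T hT], ?_⟩
    funext x
    simp [evalC, add_mul, Finset.sum_add_distrib]
  | smul a f _ hf =>
    obtain ⟨c, hc, rfl⟩ := hf
    refine ⟨a • c, fun T hT => by simp [hc T hT], ?_⟩
    funext x
    simp [evalC, Finset.mul_sum, mul_assoc]

/-- The linear map from coefficient vectors to functions. -/
def evalCL {q : ℕ} : ((X → Fin q) → K) →ₗ[K] ((X → K) → K) where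
  toFun := evalC
  map_add' c c' := by
    funext x
    simp [evalC, add_mul, Finset.sum_add_distrib]
  map_smul' a c := by
    funext x
    simp [evalC, Finset.mul_sum, mul_assoc]

@[simp] theorem evalCL_apply {q : ℕ} (c : (X → Fin q) → K) :
    (evalCL c : (X → K) → K) = evalC c := rfl

/-- Change of index type for the counting function. -/
theorem Hlt_congr {q : ℕ} {X' : Type*} [Fintype X'] [DecidableEq X'] (e : X ≃ X') (B : ℕ) :
    Hlt q X B = Hlt q X' B := by
  unfold Hlt
  apply Finset.card_bij (fun T _ => T ∘ e.symm)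
  · intro T hT
    simp only [mem_filter, mem_univ, true_and, Function.comp] at hT ⊢
    rw [Equiv.sum_comp e.symm (fun i => (T i : ℕ))]
    exact hT
  · intro T _ T' _ h
    funext i
    have := congrFun h (e i)
    simpa using this
  · intro T' hT'
    refine ⟨T' ∘ e, ?_, ?_⟩
    · simp only [mem_filter, mem_univ, true_and, Function.comp] at hT' ⊢
      rw [Equiv.sum_comp e (fun i => (T' i : ℕ))]
      exact hT'
    · funext i
      simp

/-- Kernel lemma for coefficient vectors on a general finite index type. -/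
theorem kernel_coeff {q : ℕ} (hq : Fintype.card K = q) (E : Finset (X → K)) (B : ℕ)
    (W : Submodule K ((X → Fin q) → K))
    (hB : ∀ c ∈ W, ∀ T, B ≤ ∑ i, (T i : ℕ) → c T = 0)
    (hE : ∀ c ∈ W, ∀ x, x ∉ E → evalC c x = 0) :
    q ^ Fintype.card X * Module.finrank K W ≤ E.card * Hlt q X B := by
  classical
  let e : X ≃ Fin (Fintype.card X) := Fintype.equivFin X
  -- transfer of coefficient vectors
  let Θ : ((X → Fin q) → K) →ₗ[K] ((Fin (Fintype.card X) → Fin q) → K) :=
    LinearMap.funLeft K K (fun T' => T' ∘ e)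
  have hΘinj : Function.Injective Θ := by
    intro c c' h
    funext T
    have := congrFun h (T ∘ e.symm)
    simpa [Θ, LinearMap.funLeft_apply, Function.comp_assoc] using this
  have hrank : Module.finrank K (W.map Θ) = Module.finrank K W :=
    (LinearEquiv.finrank_eq (Submodule.equivMapOfInjective Θ hΘinj W)).symm
  let E' : Finset (Fin (Fintype.card X) → K) := E.map ⟨fun x => x ∘ e.symm, by
    intro x x' h
    funext i
    have := congrFun h (e i)
    simpa using this⟩
  have hE'card : E'.card = E.card := Finset.card_map _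
  have hkey := kernel_fin hq (Fintype.card X) E' B (W.map Θ) ?_ ?_
  · rw [hrank, hE'card, ← Hlt_congr e] at hkey
    exact hkey
  · intro c' hc' T hT
    obtain ⟨c, hc, rfl⟩ := Submodule.mem_map.1 hc'
    simp only [Θ, LinearMap.funLeft_apply]
    apply hB c hc
    simp only [Function.comp]
    rw [Equiv.sum_comp e (fun i => (T i : ℕ))]
    exact hT
  · intro c' hc' y hy
    obtain ⟨c, hc, rfl⟩ := Submodule.mem_map.1 hc'
    have hx : y ∘ e ∉ E := by
      intro hmem
      apply hy
      refine Finset.mem_map.2 ⟨y ∘ e, hmem, ?_⟩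
      funext i
      show (y ∘ e) (e.symm i) = y i
      simp
    have h0 := hE c hc (y ∘ e) hx
    rw [← h0]
    simp only [evalC, Θ, LinearMap.funLeft_apply]
    apply Fintype.sum_equiv
      (⟨fun T' => T' ∘ e, fun T => T ∘ e.symm, fun T => by funext i; simp,
        fun T => by funext i; simp⟩ : (Fin (Fintype.card X) → Fin q) ≃ (X → Fin q))
    intro T
    congr 1
    simp only [Function.comp, Equiv.coe_fn_mk]
    exact (Equiv.prod_comp e (fun i => y i ^ (T i : ℕ))).symm

/-- `evalC` is injective. -/
theorem evalC_injective {q : ℕ} (hq : Fintype.card K = q) (c : (X → Fin q) → K)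
    (h : evalC c = (0 : (X → K) → K)) : c = 0 := by
  classical
  by_contra hc
  have h1 := kernel_coeff hq (∅ : Finset (X → K)) (q * Fintype.card X + 1)
    (Submodule.span K {c}) ?_ ?_
  · have hq0 : 0 < q := hq ▸ Fintype.card_pos
    have h2 : Module.finrank K (Submodule.span K {c}) = 1 := finrank_span_singleton hc
    rw [h2] at h1
    simp at h1
    omega
  · intro c' hc' T hT
    exfalso
    have : ∑ i, (T i : ℕ) ≤ ∑ _i : X, q := Finset.sum_le_sum fun i _ => (T i).2.le
    simp only [Finset.sum_const, Finset.card_univ, smul_eq_mul] at this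
    have h3 : Fintype.card X * q = q * Fintype.card X := Nat.mul_comm _ _
    omega
  · intro c' hc' x _
    obtain ⟨a, rfl⟩ := Submodule.mem_span_singleton.1 hc'
    have : evalC (a • c) x = a * evalC c x := by
      simp [evalC, Finset.mul_sum, mul_assoc]
    rw [this, h]
    simp

/-- Linear independence of the reduced monomials. -/
theorem monF_independent {q : ℕ} (hq : Fintype.card K = q) :
    LinearIndependent K (fun T : X → Fin q => (monF T : (X → K) → K)) := by
  rw [Fintype.linearIndependent_iff]
  intro g hg T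
  have : g = 0 := by
    apply evalC_injective hq
    funext x
    have := congrFun hg x
    simp only [Finset.sum_apply, Pi.smul_apply, smul_eq_mul, monF, mon] at this
    simpa [evalC] using this
  rw [this]
  rfl

/-- Dimension of `FD`. -/
theorem finrank_FD_le {q : ℕ} (hq : Fintype.card K = q) (D : ℕ) :
    Module.finrank K (FD K X D) ≤ Hlt q X (D + 1) := by
  classical
  let s : Finset (X → Fin q) := univ.filter fun T => ∑ i, (T i : ℕ) < D + 1
  have hle : FD K X D ≤ Submodule.span K ((s.image fun T => (monF T : (X → K) → K)) : Set ((X → K) → K)) := by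
    apply Submodule.span_le.2
    rintro f ⟨e, he, rfl⟩
    obtain ⟨T, hT, hT2⟩ := exists_reduced_mon (K := K) hq e
    apply Submodule.subset_span
    simp only [coe_image, Set.mem_image, mem_coe]
    refine ⟨T, ?_, hT2.symm⟩
    simp only [s, mem_filter, mem_univ, true_and]
    have : ∑ i, (T i : ℕ) ≤ ∑ i, e i := Finset.sum_le_sum fun i _ => hT i
    omega
  calc Module.finrank K (FD K X D)
      ≤ Module.finrank K (Submodule.span K ((s.image fun T => (monF T : (X → K) → K)) : Set ((X → K) → K))) :=
        Submodule.finrank_mono hle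
    _ ≤ (s.image fun T => (monF T : (X → K) → K)).card := finrank_span_finset_le_card _
    _ ≤ s.card := Finset.card_image_le
    _ = Hlt q X (D + 1) := rfl

/-- The kernel lemma for subspaces of `FD`. -/
theorem kernel_FD {q : ℕ} (hq : Fintype.card K = q) (E : Finset (X → K)) (D : ℕ)
    (W : Submodule K ((X → K) → K)) (hW : W ≤ FD K X D)
    (hE : ∀ f ∈ W, ∀ x, x ∉ E → f x = 0) :
    q ^ Fintype.card X * Module.finrank K W ≤ E.card * Hlt q X (D + 1) := by
  classical
  let W' : Submodule K ((X → Fin q) → K) :=
    (W.comap (evalCL (K := K) (X := X) (q := q))) ⊓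
      { carrier := {c | ∀ T, D + 1 ≤ ∑ i, (T i : ℕ) → c T = 0}
        add_mem' := fun ha hb T hT => by simp [ha T hT, hb T hT]
        zero_mem' := fun _ _ => rfl
        smul_mem' := fun a c hc T hT => by simp [hc T hT] }
  have h1 : W ≤ W'.map (evalCL (K := K) (X := X) (q := q)) := by
    intro f hf
    obtain ⟨c, hc, rfl⟩ := exists_coeff_of_mem_FD hq (hW hf)
    exact ⟨c, ⟨hf, hc⟩, rfl⟩
  have h2 : Module.finrank K W ≤ Module.finrank K W' :=
    (Submodule.finrank_mono h1).trans (Submodule.finrank_map_le _ _)
  have h3 := kernel_coeff hq E (D + 1) W' (fun c hc T hT => hc.2 T hT)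
    (fun c hc x hx => hE (evalC c) hc.1 x hx)
  calc q ^ Fintype.card X * Module.finrank K W ≤ q ^ Fintype.card X * Module.finrank K W' :=
        Nat.mul_le_mul_left _ h2
    _ ≤ _ := h3

/-- Functions of `r` functional-degree-one functions have functional degree at most `r (q-1)`. -/
theorem FD_of_forms {q : ℕ} (hq : Fintype.card K = q) {r : ℕ} (ℓ : Fin r → (X → K) → K)
    (hℓ : ∀ j, ℓ j ∈ FD K X 1) (h : (Fin r → K) → K) :
    (fun x => h fun j => ℓ j x) ∈ FD K X ((q - 1) * r) := by
  classical
  have hq2 : 2 ≤ q := hq ▸ Fintype.one_lt_card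
  -- indicator expansion
  have hind : ∀ a : K, ((1 : K) - a ^ (q - 1)) = if a = 0 then 1 else 0 := by
    intro a
    by_cases ha : a = 0
    · subst ha
      rw [if_pos rfl, zero_pow (by omega)]
      simp
    · rw [if_neg ha, ← hq, FiniteField.pow_card_sub_one_eq_one a ha]
      simp
  have hexp : (fun x => h fun j => ℓ j x) =
      ∑ w : Fin r → K, (h w) • ∏ j : Fin r,
        ((fun _ => 1 : (X → K) → K) - ((ℓ j) - fun _ => w j) ^ (q - 1)) := by
    funext x
    simp only [Finset.sum_apply, Pi.smul_apply, Finset.prod_apply, Pi.sub_apply, Pi.pow_apply,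
      smul_eq_mul, hind, sub_eq_zero]
    rw [Finset.sum_eq_single (fun j => ℓ j x)]
    · simp
    · intro w _ hw
      have : ∃ j, ℓ j x ≠ w j := by
        by_contra hne
        push Not at hne
        exact hw (funext fun j => (hne j).symm)
      obtain ⟨j, hj⟩ := this
      rw [Finset.prod_eq_zero (Finset.mem_univ j) (by rw [if_neg hj])]
      simp
    · simp
  rw [hexp]
  refine Submodule.sum_mem _ fun w _ => Submodule.smul_mem _ _ ?_
  have := FD_prod_mem (K := K) (X := X) (univ : Finset (Fin r)) (a := q - 1)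
    (fun j => (fun _ => 1 : (X → K) → K) - ((ℓ j) - fun _ => w j) ^ (q - 1)) ?_
  · simpa using this
  · intro j _
    refine Submodule.sub_mem _ (FD_const 1 _) ?_
    have h1 := FD_pow_mem (Submodule.sub_mem _ (hℓ j) (FD_const (w j) 1)) (q - 1)
    simpa using h1

end finite

end Vale.Agent.Lib.P346
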