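import Mathlib
import Vale.Agent.Lib.P346.FD
import Vale.Agent.Lib.P346.Paths

/-!
The family of shifted products indexed by covered exponent vectors is linearly independent.
-/

namespace Vale.Agent.Lib.P346

open Finset

variable {K : Type*} [Field K] [Fintype K]
variable {X : Type*} [Fintype X] [DecidableEq X]

/-- Triangularity implies independence. -/
theorem tri_indep {q : ℕ} (hq : Fintype.card K = q) {A : Finset (X → Fin q)} {P : Type*} [Fintype P]
    (red : (X → Fin q) → P → (X → Fin q)) (F : (X → Fin q) → (X → K) → K)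
    (hF : ∀ T ∈ A, F T = ∑ π, monF (red T π)) (W : (X → Fin q) → ℕ) (πs : (X → Fin q) → P)
    (h1 : ∀ T ∈ A, red T (πs T) = T) (h2 : ∀ T ∈ A, ∀ π, π ≠ πs T → W (red T π) < W T) :
    LinearIndependent K (fun T : A => F T) := by
  classical
  rw [Fintype.linearIndependent_iff]
  intro g hg
  by_contra hne
  push Not at hne
  obtain ⟨T₁, hT₁⟩ := hne
  obtain ⟨T₀, hT₀, hmax⟩ := Finset.exists_max_image (univ.filter fun T : A => g T ≠ 0)
    (fun T => W T.1) ⟨T₁, by simpa using hT₁⟩
  have hg0 : g T₀ ≠ 0 := (Finset.mem_filter.1 hT₀).2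
  let c : (X → Fin q) → K := fun T' => ∑ T : A, ∑ π, if red T.1 π = T' then g T else 0
  have hc : ∑ T', c T' • (monF T' : (X → K) → K) = 0 := by
    rw [← hg]
    simp only [c, Finset.sum_smul]
    rw [Finset.sum_comm]
    refine Finset.sum_congr rfl fun T _ => ?_
    rw [Finset.sum_comm, hF T.1 T.2, Finset.smul_sum]
    refine Finset.sum_congr rfl fun π _ => ?_
    rw [Finset.sum_eq_single (red T.1 π)]
    · simp
    · intro b _ hb
      rw [if_neg (Ne.symm hb), zero_smul]
    · simp
  have hc0 := (Fintype.linearIndependent_iff.1 (monF_independent (K := K) (X := X) hq)) c hc T₀.1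
  have hcT : c T₀.1 = g T₀ := by
    simp only [c]
    rw [Finset.sum_eq_single T₀]
    · rw [Finset.sum_eq_single (πs T₀.1)]
      · rw [if_pos (h1 _ T₀.2)]
      · intro π _ hπ
        rw [if_neg]
        intro h
        have := h2 _ T₀.2 π hπ
        rw [h] at this
        exact lt_irrefl _ this
      · simp
    · intro T _ hT
      apply Finset.sum_eq_zero
      intro π _
      by_cases hgT : g T = 0
      · simp [hgT]
      · rw [if_neg]
        intro h
        have hWle := hmax T (by simpa using hgT)
        by_cases hπ : π = πs T.1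
        · rw [hπ, h1 _ T.2] at h
          exact hT (Subtype.ext h)
        · have := h2 _ T.2 π hπ
          rw [h] at this
          omega
    · simp
  rw [hcT] at hc0
  exact hg0 hc0

/-- Reduction of exponents (used for exponents at most `q`). -/
def redExp {q : ℕ} (hq2 : 2 ≤ q) (y : X → ℕ) : X → Fin q :=
  fun z => if h : y z < q then ⟨y z, h⟩ else ⟨1, by omega⟩

theorem redExp_val_of_lt {q : ℕ} (hq2 : 2 ≤ q) {y : X → ℕ} {z : X} (h : y z < q) :
    (redExp hq2 y z : ℕ) = y z := by
  simp [redExp, h]

theorem mon_eq_monF_red {q : ℕ} (hq : Fintype.card K = q) (hq2 : 2 ≤ q) (y : X → ℕ)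
    (hy : ∀ z, y z ≤ q) : (mon y : (X → K) → K) = monF (redExp hq2 y) := by
  funext x
  simp only [mon, monF]
  refine Finset.prod_congr rfl fun z _ => ?_
  by_cases h : y z < q
  · rw [redExp_val_of_lt hq2 h]
  · have h' : y z = q := le_antisymm (hy z) (by omega)
    have e : (redExp hq2 y z : ℕ) = 1 := by simp [redExp, h]
    rw [e, h', ← hq, FiniteField.pow_card, pow_one]

/-- Linear functional on exponent vectors. -/
def WW (ρ : X → ℕ) (y : X → ℕ) : ℕ := ∑ z, y z * ρ z

theorem WW_add (ρ y y' : X → ℕ) : WW ρ (y + y') = WW ρ y + WW ρ y' := by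
  simp only [WW, Pi.add_apply, add_mul, Finset.sum_add_distrib]

theorem WW_red_le {q : ℕ} (hq2 : 2 ≤ q) (ρ y : X → ℕ) (hy : ∀ z, y z ≤ q) {z₀ : X} (hz₀ : y z₀ = q) :
    WW ρ (fun z => (redExp hq2 y z : ℕ)) + (q - 1) * ρ z₀ ≤ WW ρ y := by
  have hle : ∀ z, (redExp hq2 y z : ℕ) ≤ y z := by
    intro z
    by_cases h : y z < q
    · rw [redExp_val_of_lt hq2 h]
    · have e : (redExp hq2 y z : ℕ) = 1 := by simp [redExp, h]
      rw [e]
      omega
  have hsplit : WW ρ y = WW ρ (fun z => (redExp hq2 y z : ℕ)) +
      ∑ z, (y z - (redExp hq2 y z : ℕ)) * ρ z := by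
    simp only [WW]
    rw [← Finset.sum_add_distrib]
    refine Finset.sum_congr rfl fun z _ => ?_
    rw [← add_mul]
    congr 1
    have := hle z
    omega
  have hsingle : (y z₀ - (redExp hq2 y z₀ : ℕ)) * ρ z₀ ≤ ∑ z, (y z - (redExp hq2 y z : ℕ)) * ρ z :=
    Finset.single_le_sum (f := fun z => (y z - (redExp hq2 y z : ℕ)) * ρ z)
      (fun _ _ => Nat.zero_le _) (Finset.mem_univ z₀)
  have e : (redExp hq2 y z₀ : ℕ) = 1 := by
    have : ¬ y z₀ < q := by omega
    simp [redExp, this]
  rw [e, hz₀] at hsingle
  omega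

section flat

variable {V : Type*} [Fintype V] [DecidableEq V] {k g t D : ℕ}

/-- The index set of the `x` variables. -/
abbrev XX (k g t D : ℕ) (V : Type*) := (Fin k × Fin g) × (Fin t × (V × Fin D))

/-- Slice of a function on the variables at one copy of one segment. -/
def sliceX {α : Type*} (x : XX k g t D V → α) (i : Fin k) (b : Fin g) : Fin t → V → Fin D → α :=
  fun j a l => x ((i, b), (j, (a, l)))

/-- Product of the path polynomials of the selected copies. -/
def PhiB (φ : Fin t → V → Fin D → V) (a₀ : V) (x : XX k g t D V → K) (bb : Fin k → Fin g) : K :=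
  ∏ i, pathVal t φ (sliceX x i (bb i)) a₀

/-- Exponent vector of a selection of paths. -/
def flatExp (φ : Fin t → V → Fin D → V) (a₀ : V) (bb : Fin k → Fin g) (ππ : Fin k → Fin t → Fin D) :
    XX k g t D V → ℕ :=
  fun z => if z.1.2 = bb z.1.1 then edgeExp t φ a₀ (ππ z.1.1) z.2.1 z.2.2.1 z.2.2.2 else 0

omit [Fintype K] in
theorem PhiB_eq_sum (φ : Fin t → V → Fin D → V) (a₀ : V) (x : XX k g t D V → K)
    (bb : Fin k → Fin g) :
    PhiB φ a₀ x bb = ∑ ππ : Fin k → Fin t → Fin D, mon (flatExp φ a₀ bb ππ) x := by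
  classical
  unfold PhiB
  simp only [pathVal_eq_sum]
  have := Finset.prod_univ_sum (fun _ : Fin k => (univ : Finset (Fin t → Fin D)))
    (fun i π => ∏ j, ∏ b, ∏ l, sliceX x i (bb i) j b l ^ edgeExp t φ a₀ π j b l)
  rw [Fintype.piFinset_univ] at this
  rw [this]
  refine Finset.sum_congr rfl fun ππ _ => ?_
  simp only [mon, Fintype.prod_prod_type]
  refine Finset.prod_congr rfl fun i _ => ?_
  rw [Finset.prod_eq_single (bb i)]
  · simp only [flatExp, if_true, sliceX]
  · intro b _ hb
    simp [flatExp, hb]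
  · simp

omit [Fintype K] in
theorem flatExp_le_one (φ : Fin t → V → Fin D → V) (a₀ : V) (bb : Fin k → Fin g)
    (ππ : Fin k → Fin t → Fin D) (z : XX k g t D V) : flatExp φ a₀ bb ππ z ≤ 1 := by
  simp only [flatExp]
  split_ifs
  · exact edgeExp_le_one _ _ _ _ _ _ _
  · omega

omit [Fintype K] in
theorem flatExp_weighted (φ : Fin t → V → Fin D → V) (a₀ : V) (bb : Fin k → Fin g)
    (ππ : Fin k → Fin t → Fin D) (ρ : Fin t → Fin D → ℕ) :
    WW (fun z : XX k g t D V => ρ z.2.1 z.2.2.2) (flatExp φ a₀ bb ππ) =
      ∑ i, ∑ j, ρ j (ππ i j) := by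
  classical
  simp only [WW, Fintype.sum_prod_type]
  refine Finset.sum_congr rfl fun i _ => ?_
  rw [Finset.sum_eq_single (bb i)]
  · simp only [flatExp, if_true]
    exact edgeExp_weighted _ _ _ _ _
  · intro b _ hb
    simp [flatExp, hb]
  · simp

/-- `T` is covered if each segment contains a copy with a valid path. -/
def Covered {q : ℕ} (φ : Fin t → V → Fin D → V) (a₀ : V) (T : XX k g t D V → Fin q) : Prop :=
  ∀ i, ∃ b, ∃ π, ValidPath t φ (sliceX T i b) a₀ π

/-- The independent family. -/
theorem lm_family {q : ℕ} (hq : Fintype.card K = q) (hg : 0 < g) (hD : 0 < D)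
    (φ : Fin t → V → Fin D → V) (a₀ : V) (A : Finset (XX k g t D V → Fin q))
    (hA : ∀ T ∈ A, Covered φ a₀ T) :
    ∃ (M : (XX k g t D V → Fin q) → XX k g t D V → ℕ)
      (bb : (XX k g t D V → Fin q) → Fin k → Fin g),
      (∀ T ∈ A, ∑ z, M T z + k * t = ∑ z, (T z : ℕ)) ∧
      (∀ T ∈ A, (fun x => mon (M T) x * PhiB φ a₀ x (bb T)) ∈ FD K (XX k g t D V) (∑ z, (T z : ℕ))) ∧
      LinearIndependent K
        (fun T : A => (fun x => mon (M T) x * PhiB φ a₀ x (bb T) : (XX k g t D V → K) → K)) := by
  classical
  have hq2 : 2 ≤ q := hq ▸ Fintype.one_lt_card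
  have : NeZero g := ⟨by omega⟩
  have : NeZero D := ⟨by omega⟩
  -- choice of selections
  have hch : ∀ T : XX k g t D V → Fin q, ∃ (bb : Fin k → Fin g) (ππ : Fin k → Fin t → Fin D),
      Covered φ a₀ T → ∀ i, ValidPath t φ (sliceX T i (bb i)) a₀ (ππ i) := by
    intro T
    by_cases hT : Covered φ a₀ T
    · choose b π hbπ using hT
      exact ⟨b, π, fun _ => hbπ⟩
    · exact ⟨fun _ => 0, fun _ _ => 0, fun h => absurd h hT⟩
  choose bb ππs hvalid using hch
  let ee : (XX k g t D V → Fin q) → XX k g t D V → ℕ := fun T => flatExp φ a₀ (bb T) (ππs T)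
  let M : (XX k g t D V → Fin q) → XX k g t D V → ℕ := fun T z => (T z : ℕ) - ee T z
  -- basic facts
  have hpos : ∀ T ∈ A, ∀ z, ee T z ≤ (T z : ℕ) := by
    intro T hT z
    have h1 := flatExp_le_one φ a₀ (bb T) (ππs T) z
    by_cases h0 : ee T z = 0
    · simp only [h0]
      omega
    · have hne : z.1.2 = bb T z.1.1 := by
        by_contra hne
        apply h0
        simp [ee, flatExp, hne]
      have h2 : edgeExp t φ a₀ (ππs T z.1.1) z.2.1 z.2.2.1 z.2.2.2 ≠ 0 := by
        intro h3
        apply h0
        simp [ee, flatExp, hne, h3]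
      have h3 := validPath_pos t φ _ a₀ _ (hvalid T (hA T hT) z.1.1) _ _ _ h2
      have h4 : sliceX T z.1.1 (bb T z.1.1) z.2.1 z.2.2.1 z.2.2.2 = T z := by
        simp only [sliceX]
        rw [← hne]
      rw [h4] at h3
      simp only [ee] at h1 ⊢
      omega
  have hMadd : ∀ T ∈ A, ∀ z, M T z + ee T z = (T z : ℕ) := by
    intro T hT z
    have := hpos T hT z
    simp only [M]
    omega
  have hsum1 : ∀ (bb' : Fin k → Fin g) (ππ : Fin k → Fin t → Fin D),
      ∑ z, flatExp φ a₀ bb' ππ z = k * t := by
    intro bb' ππ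
    have := flatExp_weighted φ a₀ bb' ππ (fun _ _ => 1)
    simp only [WW, mul_one, Finset.sum_const, Finset.card_univ, Fintype.card_fin, smul_eq_mul] at this
    exact this
  have hdeg : ∀ T ∈ A, ∑ z, M T z + k * t = ∑ z, (T z : ℕ) := by
    intro T hT
    rw [← hsum1 (bb T) (ππs T), ← Finset.sum_add_distrib]
    exact Finset.sum_congr rfl fun z _ => hMadd T hT z
  -- expansion
  have hexp : ∀ T, (fun x => mon (M T) x * PhiB φ a₀ x (bb T) : (XX k g t D V → K) → K) =
      ∑ ππ : Fin k → Fin t → Fin D, mon (M T + flatExp φ a₀ (bb T) ππ) := by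
    intro T
    funext x
    rw [PhiB_eq_sum, Finset.mul_sum, Finset.sum_apply]
    refine Finset.sum_congr rfl fun ππ _ => ?_
    have := congrFun (mon_mul (K := K) (M T) (flatExp φ a₀ (bb T) ππ)) x
    simpa using this
  refine ⟨M, bb, hdeg, ?_, ?_⟩
  · intro T hT
    rw [hexp T]
    refine Submodule.sum_mem _ fun ππ _ => mon_mem_FD _ ?_
    simp only [Pi.add_apply, Finset.sum_add_distrib]
    rw [hsum1, hdeg T hT]
  · -- triangularity
    let Λ := (D + 1) ^ t
    let Big := k * Λ + 1
    let ρ₀ : Fin t → Fin D → ℕ := fun j l => Big + (D + 1) ^ (t - 1 - j) * (D - l)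
    let ρ : XX k g t D V → ℕ := fun z => ρ₀ z.2.1 z.2.2.2
    have hWflat : ∀ (bb' : Fin k → Fin g) (ππ : Fin k → Fin t → Fin D),
        WW ρ (flatExp φ a₀ bb' ππ) = k * (t * Big) + ∑ i, lexval D t (ππ i) := by
      intro bb' ππ
      rw [flatExp_weighted]
      simp only [ρ₀, Finset.sum_add_distrib, Finset.sum_const, Finset.card_univ, Fintype.card_fin,
        smul_eq_mul]
      rfl
    have hs : ∀ ππ : Fin k → Fin t → Fin D, ∑ i, lexval D t (ππ i) < Big := by
      intro ππ
      have : ∑ i, lexval D t (ππ i) ≤ ∑ _i : Fin k, Λ :=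
        Finset.sum_le_sum fun i _ => (lexval_lt t (ππ i)).le
      simp only [Finset.sum_const, Finset.card_univ, Fintype.card_fin, smul_eq_mul] at this
      simp only [Big]
      omega
    have hρBig : ∀ z, Big ≤ ρ z := fun z => by
      simp only [ρ, ρ₀]
      omega
    refine tri_indep hq (fun T ππ => redExp hq2 (M T + flatExp φ a₀ (bb T) ππ))
      (fun T x => mon (M T) x * PhiB φ a₀ x (bb T)) ?hF
      (fun T' => WW ρ (fun z => (T' z : ℕ))) ππs ?h1 ?h2
    case hF =>
      intro T hT
      rw [hexp T]
      refine Finset.sum_congr rfl fun ππ _ => ?_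
      apply mon_eq_monF_red hq hq2
      intro z
      have h1 := flatExp_le_one φ a₀ (bb T) ππ z
      have h2 : M T z ≤ q - 1 := by
        have := (T z).2
        simp only [M]
        omega
      simp only [Pi.add_apply]
      omega
    case h1 =>
      intro T hT
      funext z
      apply Fin.ext
      rw [redExp_val_of_lt hq2]
      · exact hMadd T hT z
      · show M T z + ee T z < q
        rw [hMadd T hT z]
        exact (T z).2
    case h2 =>
      intro T hT ππ hππ
      set y := M T + flatExp φ a₀ (bb T) ππ with hy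
      have hyle : ∀ z, y z ≤ q := by
        intro z
        have h1 := flatExp_le_one φ a₀ (bb T) ππ z
        have h2 : M T z ≤ q - 1 := by
          have := (T z).2
          simp only [M]
          omega
        simp only [hy, Pi.add_apply]
        omega
      have hWT : WW ρ (fun z => (T z : ℕ)) =
          WW ρ (M T) + (k * (t * Big) + ∑ i, lexval D t (ππs T i)) := by
        rw [← hWflat (bb T) (ππs T), ← WW_add]
        congr 1
        funext z
        exact (hMadd T hT z).symm
      have hWy : WW ρ y = WW ρ (M T) + (k * (t * Big) + ∑ i, lexval D t (ππ i)) := by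
        rw [hy, WW_add, hWflat]
      by_cases hcol : ∃ z, y z = q
      · obtain ⟨z₀, hz₀⟩ := hcol
        have h1 := WW_red_le hq2 ρ y hyle hz₀
        have h2 := hρBig z₀
        have h3 := hs ππ
        have h4 : Big ≤ (q - 1) * ρ z₀ := by
          have : 1 ≤ q - 1 := by omega
          nlinarith
        rw [hWT]
        omega
      · push Not at hcol
        have hylt : ∀ z, y z < q := fun z => lt_of_le_of_ne (hyle z) (hcol z)
        have hredval : (fun z => (redExp hq2 y z : ℕ)) = y := by
          funext z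
          exact redExp_val_of_lt hq2 (hylt z)
        rw [hredval, hWT, hWy]
        have hlt : ∑ i, lexval D t (ππ i) < ∑ i, lexval D t (ππs T i) := by
          have hcmp : ∀ i, ππ i ≠ ππs T i → lexval D t (ππ i) < lexval D t (ππs T i) := by
            intro i hi
            rcases path_compare t φ _ a₀ _ _ (hvalid T (hA T hT) i) hi with ⟨j, b, l, h1, h2, h3⟩ | h
            · exfalso
              let z : XX k g t D V := ((i, bb T i), (j, (b, l)))
              have hz1 : flatExp φ a₀ (bb T) ππ z = 1 := by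
                have h5 := flatExp_le_one φ a₀ (bb T) ππ z
                have h6 : flatExp φ a₀ (bb T) ππ z ≠ 0 := by
                  simpa [flatExp, z] using h1
                omega
              have hz2 : ee T z = 0 := by
                simpa [ee, flatExp, z] using h3
              have hz3 : (T z : ℕ) = q - 1 := h2
              have hz4 : y z = q := by
                simp only [hy, Pi.add_apply, M]
                rw [hz1, hz2, hz3]
                omega
              exact hcol z hz4
            · exact h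
          have hexi : ∃ i, ππ i ≠ ππs T i := by
            by_contra hall
            push Not at hall
            exact hππ (funext hall)
          obtain ⟨i₀, hi₀⟩ := hexi
          apply Finset.sum_lt_sum
          · intro i _
            by_cases hi : ππ i = ππs T i
            · rw [hi]
            · exact (hcmp i hi).le
          · exact ⟨i₀, Finset.mem_univ _, hcmp i₀ hi₀⟩
        omega

end flat

end Vale.Agent.Lib.P346
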