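import Mathlib
import Vale.Agent.Lib.P346.Family
import Vale.Agent.Lib.P346.Dag

/-!
The geometric weights and the weight of the covered exponent vectors.
-/

namespace Vale.Agent.Lib.P346

open Finset

section weights

variable {q : ℕ}

/-- The partition function. -/
noncomputable def Zθ (q : ℕ) (θ : ℝ) : ℝ := ∑ j : Fin q, θ ^ (j : ℕ)

/-- Geometric weights. -/
noncomputable def nuθ (q : ℕ) (θ : ℝ) : Fin q → ℝ := fun j => θ ^ (j : ℕ) / Zθ q θ

theorem Zθ_eq_range (θ : ℝ) : Zθ q θ = ∑ i ∈ Finset.range q, θ ^ i :=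
  Fin.sum_univ_eq_sum_range (fun i => θ ^ i) q

theorem Zθ_pos (hq : 0 < q) {θ : ℝ} (h0 : 0 < θ) : 0 < Zθ q θ := by
  have : Nonempty (Fin q) := ⟨⟨0, hq⟩⟩
  exact Finset.sum_pos (fun _ _ => pow_pos h0 _) Finset.univ_nonempty

theorem nuθ_sum (hq : 0 < q) {θ : ℝ} (h0 : 0 < θ) : ∑ j, nuθ q θ j = 1 := by
  simp only [nuθ]
  rw [← Finset.sum_div]
  exact div_self (Zθ_pos hq h0).ne'

theorem nuθ_nonneg {θ : ℝ} (hq : 0 < q) (h0 : 0 < θ) (j : Fin q) : 0 ≤ nuθ q θ j :=
  div_nonneg (pow_pos h0 _).le (Zθ_pos hq h0).le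

theorem pp_nuθ (hq : 0 < q) (θ : ℝ) : pp (nuθ q θ) = θ ^ (q - 1) / Zθ q θ := by
  classical
  simp only [pp, nuθ]
  rw [Finset.sum_eq_single (⟨q - 1, by omega⟩ : Fin q)]
  · simp
  · intro b _ hb
    rw [if_neg]
    · simp
    · intro h
      exact hb (Fin.ext h)
  · simp

theorem uu_nuθ (hq : 0 < q) {θ : ℝ} (h0 : 0 < θ) : uu (nuθ q θ) = 1 - 1 / Zθ q θ := by
  classical
  have hZ := Zθ_pos hq h0
  have h1 : ∀ j : Fin q, nuθ q θ j * (if 1 ≤ (j : ℕ) then 1 else 0) =
      nuθ q θ j - (if (j : ℕ) = 0 then 1 / Zθ q θ else 0) := by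
    intro j
    by_cases h : (j : ℕ) = 0
    · simp [h, nuθ]
    · have h2 : 1 ≤ (j : ℕ) := by omega
      simp [h, h2]
  simp only [uu, h1, Finset.sum_sub_distrib, nuθ_sum hq h0]
  congr 1
  rw [Finset.sum_eq_single (⟨0, hq⟩ : Fin q)]
  · simp
  · intro b _ hb
    rw [if_neg]
    intro h
    exact hb (Fin.ext h)
  · simp

/-- The key identity `u = θ (1 - p)`. -/
theorem uu_eq (hq : 0 < q) {θ : ℝ} (h0 : 0 < θ) :
    uu (nuθ q θ) = θ * (1 - pp (nuθ q θ)) := by
  have hZ := Zθ_pos hq h0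
  rw [uu_nuθ hq h0, pp_nuθ hq]
  obtain ⟨q', rfl⟩ : ∃ q', q = q' + 1 := ⟨q - 1, by omega⟩
  have h1 : Zθ (q' + 1) θ = 1 + θ * ∑ i ∈ Finset.range q', θ ^ i := by
    rw [Zθ_eq_range, Finset.sum_range_succ', add_comm, Finset.mul_sum]
    simp only [pow_zero, pow_succ]
    congr 1
    exact Finset.sum_congr rfl fun _ _ => by ring
  have h2 : Zθ (q' + 1) θ = (∑ i ∈ Finset.range q', θ ^ i) + θ ^ q' := by
    rw [Zθ_eq_range, Finset.sum_range_succ]
  simp only [Nat.add_sub_cancel]
  field_simp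
  nlinarith

/-- The top weight is at most `1/q`. -/
theorem pp_le {θ : ℝ} (hq2 : 2 ≤ q) (h0 : 0 < θ) (h1 : θ ≤ 1) : pp (nuθ q θ) ≤ 1 / 2 := by
  have hq : 0 < q := by omega
  have hZ := Zθ_pos hq h0
  rw [pp_nuθ hq, div_le_iff₀ hZ]
  have h2 : ∀ j : Fin q, θ ^ (q - 1) ≤ θ ^ (j : ℕ) := fun j =>
    pow_le_pow_of_le_one h0.le h1 (by have := j.2; omega)
  have h3 : ∑ _j : Fin q, θ ^ (q - 1) ≤ Zθ q θ := Finset.sum_le_sum fun j _ => h2 j
  simp only [Finset.sum_const, Finset.card_univ, Fintype.card_fin, nsmul_eq_mul] at h3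
  have h4 : (2 : ℝ) ≤ q := by exact_mod_cast hq2
  have h5 : 0 < θ ^ (q - 1) := pow_pos h0 _
  nlinarith

/-- The mean number of valid labels. -/
theorem mm_eq {D : ℕ} (hq : 0 < q) {θ : ℝ} (h0 : 0 < θ) :
    mm (nuθ q θ) D = θ * (1 - pp (nuθ q θ) ^ D) := by
  have hν := nuθ_sum hq h0
  simp only [mm, wl_eq _ hν]
  rw [← Finset.mul_sum, uu_eq hq h0,
    Fin.sum_univ_eq_sum_range (fun i => pp (nuθ q θ) ^ i) D, mul_assoc]
  congr 1
  have := mul_neg_geom_sum (pp (nuθ q θ)) D
  linarith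

end weights

section cover

variable {V : Type*} [Fintype V] [DecidableEq V] {k g t D q : ℕ}

omit [Fintype V] [DecidableEq V] in
theorem pw_flat (ν : Fin q → ℝ) [Fintype V] [DecidableEq V] (T : XX k g t D V → Fin q) :
    pw ν T = pw (pw (pw (pw ν))) (fun p j a l => T (p, (j, (a, l)))) := by
  simp only [pw, Fintype.prod_prod_type]

/-- The currying equivalence. -/
def curryEquiv (k g t D q : ℕ) (V : Type*) :
    (XX k g t D V → Fin q) ≃ (Fin k × Fin g → Fin t → V → Fin D → Fin q) where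
  toFun T := fun p j a l => T (p, (j, (a, l)))
  invFun S := fun z => S z.1 z.2.1 z.2.2.1 z.2.2.2
  left_inv _ := rfl
  right_inv _ := rfl

open scoped Classical in
/-- The weight of the uncovered vectors. -/
theorem uncovered_weight (ν : Fin q → ℝ) (hν : ∑ j, ν j = 1) (hν0 : ∀ j, 0 ≤ ν j)
    (φ : Fin t → V → Fin D → V) (a₀ : V) :
    ∑ T : XX k g t D V → Fin q, pw ν T * (if Covered φ a₀ T then 0 else 1) ≤
      k * (1 - ∑ ω : Fin t → V → Fin D → Fin q, pw (pw (pw ν)) ω *
        (if ∃ π, ValidPath t φ ω a₀ π then 1 else 0)) ^ g := by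
  set ψ := ∑ ω : Fin t → V → Fin D → Fin q, pw (pw (pw ν)) ω *
        (if ∃ π, ValidPath t φ ω a₀ π then 1 else 0) with hψ
  have hone : ∑ ω : Fin t → V → Fin D → Fin q, pw (pw (pw ν)) ω = 1 :=
    pw_sum_one _ (pw_sum_one _ (pw_sum_one _ hν))
  let C : (Fin t → V → Fin D → Fin q) → Prop := fun ω => ∃ π, ValidPath t φ ω a₀ π
  -- one segment
  have hseg : ∀ i : Fin k, ∑ S : Fin k × Fin g → Fin t → V → Fin D → Fin q,
      pw (pw (pw (pw ν))) S * (if ∀ b, ¬ C (S (i, b)) then 1 else 0) = (1 - ψ) ^ g := by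
    intro i
    have hbox := pw_box (ι := Fin k × Fin g) (pw (pw (pw ν)))
      (fun p ω => if p.1 = i then (if C ω then 0 else 1) else 1)
    have h1 : ∀ S : Fin k × Fin g → Fin t → V → Fin D → Fin q,
        ∏ p : Fin k × Fin g, (if p.1 = i then (if C (S p) then (0 : ℝ) else 1) else 1) =
        if ∀ b, ¬ C (S (i, b)) then 1 else 0 := by
      intro S
      rw [Fintype.prod_prod_type]
      rw [Finset.prod_eq_single i]
      · simp only [if_true]
        by_cases h : ∀ b, ¬ C (S (i, b))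
        · rw [if_pos h]
          apply Finset.prod_eq_one
          intro b _
          rw [if_neg (h b)]
        · rw [if_neg h]
          push Not at h
          obtain ⟨b, hb⟩ := h
          apply Finset.prod_eq_zero (Finset.mem_univ b)
          rw [if_pos hb]
      · intro i' _ hi'
        apply Finset.prod_eq_one
        intro b _
        simp [hi']
      · simp
    simp only [h1] at hbox
    rw [hbox, Fintype.prod_prod_type, Finset.prod_eq_single i]
    · have h2 : ∑ ω, pw (pw (pw ν)) ω * (if C ω then (0 : ℝ) else 1) = 1 - ψ := by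
        have h3 : ∀ ω, pw (pw (pw ν)) ω * (if C ω then (0 : ℝ) else 1) =
            pw (pw (pw ν)) ω - pw (pw (pw ν)) ω *
              (if ∃ π, ValidPath t φ ω a₀ π then 1 else 0) := by
          intro ω
          by_cases h : C ω
          · rw [if_pos h]
            simp only [C] at h
            rw [if_pos h]
            ring
          · rw [if_neg h]
            simp only [C] at h
            rw [if_neg h]
            ring
        simp only [h3]
        rw [Finset.sum_sub_distrib, hone]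
      have h4 : ∀ b : Fin g, ∑ ω, pw (pw (pw ν)) ω *
          (if ((i, b) : Fin k × Fin g).1 = i then (if C ω then (0 : ℝ) else 1) else 1) = 1 - ψ := by
        intro b
        simpa using h2
      rw [Finset.prod_congr rfl fun b _ => h4 b]
      simp
    · intro i' _ hi'
      apply Finset.prod_eq_one
      intro b _
      simp only [hi', if_false, mul_one]
      exact hone
    · simp
  -- union bound
  have hpt : ∀ T : XX k g t D V → Fin q, (if Covered φ a₀ T then (0 : ℝ) else 1) ≤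
      ∑ i : Fin k, if ∀ b, ¬ C (curryEquiv k g t D q V T (i, b)) then 1 else 0 := by
    intro T
    by_cases h : Covered φ a₀ T
    · rw [if_pos h]
      apply Finset.sum_nonneg
      intro i _
      split_ifs <;> norm_num
    · rw [if_neg h]
      unfold Covered at h
      push Not at h
      obtain ⟨i, hi⟩ := h
      have h2 : ∀ b, ¬ C (curryEquiv k g t D q V T (i, b)) := by
        intro b hC
        obtain ⟨π, hπ⟩ := hC
        exact hi b π hπ
      calc (1 : ℝ) = if ∀ b, ¬ C (curryEquiv k g t D q V T (i, b)) then 1 else 0 := by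
            rw [if_pos h2]
        _ ≤ _ := Finset.single_le_sum
            (f := fun i => if ∀ b, ¬ C (curryEquiv k g t D q V T (i, b)) then (1 : ℝ) else 0)
            (fun i _ => by split_ifs <;> norm_num) (Finset.mem_univ i)
  calc ∑ T : XX k g t D V → Fin q, pw ν T * (if Covered φ a₀ T then 0 else 1)
      ≤ ∑ T : XX k g t D V → Fin q, pw ν T *
          ∑ i : Fin k, if ∀ b, ¬ C (curryEquiv k g t D q V T (i, b)) then 1 else 0 :=
        Finset.sum_le_sum fun T _ => mul_le_mul_of_nonneg_left (hpt T) (pw_nonneg _ hν0 _)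
    _ = ∑ i : Fin k, ∑ S : Fin k × Fin g → Fin t → V → Fin D → Fin q,
        pw (pw (pw (pw ν))) S * (if ∀ b, ¬ C (S (i, b)) then 1 else 0) := by
        simp only [Finset.mul_sum]
        rw [Finset.sum_comm]
        refine Finset.sum_congr rfl fun i _ => ?_
        apply Fintype.sum_equiv (curryEquiv k g t D q V)
        intro T
        rw [pw_flat]
        rfl
    _ = _ := by
        simp only [hseg, Finset.sum_const, Finset.card_univ, Fintype.card_fin, nsmul_eq_mul]

open scoped Classical in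
/-- The weight of the covered vectors in terms of `θ`. -/
theorem covered_weight {θ : ℝ} (hq : 0 < q) (h0 : 0 < θ)
    (φ : Fin t → V → Fin D → V) (a₀ : V) {ψ₀ : ℝ}
    (hψ : ψ₀ ≤ ∑ ω : Fin t → V → Fin D → Fin q, pw (pw (pw (nuθ q θ))) ω *
        (if ∃ π, ValidPath t φ ω a₀ π then 1 else 0)) (hψ₁ : ψ₀ ≤ 1) :
    (1 - k * (1 - ψ₀) ^ g) * Zθ q θ ^ Fintype.card (XX k g t D V) ≤
      ∑ T ∈ (univ.filter fun T : XX k g t D V → Fin q => Covered φ a₀ T),
        θ ^ (∑ z, (T z : ℕ)) := by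
  have hν := nuθ_sum hq h0
  have hν0 := nuθ_nonneg (q := q) hq h0
  have hZ := Zθ_pos hq h0
  have hZN : 0 < Zθ q θ ^ Fintype.card (XX k g t D V) := pow_pos hZ _
  have hone : ∑ T : XX k g t D V → Fin q, pw (nuθ q θ) T = 1 := pw_sum_one _ hν
  have hpw : ∀ T : XX k g t D V → Fin q, pw (nuθ q θ) T =
      θ ^ (∑ z, (T z : ℕ)) / Zθ q θ ^ Fintype.card (XX k g t D V) := by
    intro T
    simp only [pw, nuθ]
    rw [Finset.prod_div_distrib, Finset.prod_pow_eq_pow_sum, Finset.prod_const, Finset.card_univ]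
  have hunc := uncovered_weight (k := k) (g := g) (nuθ q θ) hν hν0 φ a₀
  have hψ' : (1 - ∑ ω : Fin t → V → Fin D → Fin q, pw (pw (pw (nuθ q θ))) ω *
        (if ∃ π, ValidPath t φ ω a₀ π then 1 else 0)) ^ g ≤ (1 - ψ₀) ^ g := by
    apply pow_le_pow_left₀ _ (by linarith)
    have : ∑ ω : Fin t → V → Fin D → Fin q, pw (pw (pw (nuθ q θ))) ω *
        (if ∃ π, ValidPath t φ ω a₀ π then 1 else 0) ≤
        ∑ ω : Fin t → V → Fin D → Fin q, pw (pw (pw (nuθ q θ))) ω := by
      apply Finset.sum_le_sum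
      intro ω _
      have h3 := pw_nonneg _ (pw_nonneg _ (pw_nonneg _ hν0)) ω
      split_ifs <;> linarith
    rw [pw_sum_one _ (pw_sum_one _ (pw_sum_one _ hν))] at this
    linarith
  have hsplit : ∑ T : XX k g t D V → Fin q, pw (nuθ q θ) T * (if Covered φ a₀ T then 1 else 0) =
      1 - ∑ T : XX k g t D V → Fin q, pw (nuθ q θ) T * (if Covered φ a₀ T then 0 else 1) := by
    have h3 : ∀ T : XX k g t D V → Fin q, pw (nuθ q θ) T * (if Covered φ a₀ T then (1 : ℝ) else 0) =
        pw (nuθ q θ) T - pw (nuθ q θ) T * (if Covered φ a₀ T then 0 else 1) := by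
      intro T
      split_ifs <;> ring
    simp only [h3]
    rw [Finset.sum_sub_distrib, hone]
  have hcov : ∑ T ∈ (univ.filter fun T : XX k g t D V → Fin q => Covered φ a₀ T),
      θ ^ (∑ z, (T z : ℕ)) = Zθ q θ ^ Fintype.card (XX k g t D V) *
        ∑ T : XX k g t D V → Fin q, pw (nuθ q θ) T * (if Covered φ a₀ T then 1 else 0) := by
    rw [Finset.sum_filter, Finset.mul_sum]
    refine Finset.sum_congr rfl fun T _ => ?_
    rw [hpw T]
    split_ifs
    · field_simp
    · simp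
  rw [hcov, hsplit]
  have h5 : (k : ℝ) * (1 - ∑ ω : Fin t → V → Fin D → Fin q, pw (pw (pw (nuθ q θ))) ω *
        (if ∃ π, ValidPath t φ ω a₀ π then 1 else 0)) ^ g ≤ k * (1 - ψ₀) ^ g :=
    mul_le_mul_of_nonneg_left hψ' (by positivity)
  nlinarith

end cover

end Vale.Agent.Lib.P346
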