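import Mathlib
import Vale.Agent.Lib.P346.FD

/-!
Analysis of one lower product gate: outside a small bad set, every coefficient of the gate (in the
`Y` variables) is a function of small functional degree.
-/

namespace Vale.Agent.Lib.P346

open Finset MvPolynomial

variable {K : Type*} [Field K]
variable {X Y ι : Type*} [Fintype X] [DecidableEq X] [Fintype ι] [DecidableEq ι]

/-- Value of a bottom gate at the point `x`. -/
noncomputable def botEv (lam : ι → MvPolynomial Y K) (c : ι → K) (β : ι → X → K) (x : X → K)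
    (j : ι) : MvPolynomial Y K :=
  lam j + C (c j + ∑ i, β j i * x i)

/-- Value of a lower product gate at the point `x`. -/
noncomputable def gateEv (lam : ι → MvPolynomial Y K) (c : ι → K) (β : ι → X → K) (e : ι → ℕ)
    (x : X → K) : MvPolynomial Y K :=
  ∏ j, botEv lam c β x j ^ e j

omit [Fintype X] [DecidableEq X] [Fintype ι] [DecidableEq ι] in
theorem coeff_hom_mul_eq_zero {p r : MvPolynomial Y K} {d : ℕ} (hp : p.IsHomogeneous d)
    {v : Y →₀ ℕ} (hv : v.degree < d) : coeff v (p * r) = 0 := by
  classical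
  rw [coeff_mul]
  apply Finset.sum_eq_zero
  rintro ⟨a, b⟩ hab
  have hab' : a + b = v := HasAntidiagonal.mem_antidiagonal.1 hab
  have h1 : a.degree + b.degree = v.degree := by rw [← map_add, hab']
  have h2 : a.degree ≠ d := by omega
  simp only
  rw [hp.coeff_eq_zero h2, zero_mul]

omit [Fintype X] [DecidableEq X] [DecidableEq ι] in
/-- Choice of pivots among the gate's factors. -/
theorem exists_pivots {V : Type*} [AddCommGroup V] [Module K V] (β : ι → V) (e : ι → ℕ) :
    ∃ (r : ℕ) (p : Fin r → ι), (∀ a, e (p a) ≠ 0) ∧ LinearIndependent K (fun a => β (p a)) ∧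
      ∀ j, e j ≠ 0 → β j ∈ Submodule.span K (Set.range fun a => β (p a)) := by
  classical
  let s : Set V := β '' {j | e j ≠ 0}
  obtain ⟨b, hbs, hspan, hli⟩ := exists_linearIndependent K s
  have hsfin : s.Finite := Set.Finite.image _ (Set.toFinite _)
  have hbfin : b.Finite := hsfin.subset hbs
  have : Fintype b := hbfin.fintype
  have hsec : ∀ z : b, ∃ j, e j ≠ 0 ∧ β j = z := fun z => by
    obtain ⟨j, hj, hz⟩ := hbs z.2
    exact ⟨j, hj, hz⟩
  choose σ hσ1 hσ2 using hsec
  let eqv : b ≃ Fin (Fintype.card b) := Fintype.equivFin b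
  refine ⟨Fintype.card b, fun a => σ (eqv.symm a), fun a => hσ1 _, ?_, ?_⟩
  · have : (fun a => β (σ (eqv.symm a))) = (fun z : b => (z : V)) ∘ eqv.symm := by
      funext a
      simp [hσ2]
    rw [this]
    exact hli.comp _ eqv.symm.injective
  · intro j hj
    have h1 : (Set.range fun a => β (σ (eqv.symm a))) = b := by
      ext z
      constructor
      · rintro ⟨a, rfl⟩
        show β (σ (eqv.symm a)) ∈ b
        rw [hσ2]
        exact (eqv.symm a).2
      · intro hz
        exact ⟨eqv ⟨z, hz⟩, by simp [hσ2]⟩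
    rw [h1, hspan]
    exact Submodule.subset_span ⟨j, hj, rfl⟩

/-- Sum over a surjective homomorphism of finite groups. -/
theorem sum_comp_surj {A B : Type*} [AddCommGroup A] [Fintype A] [DecidableEq A] [AddCommGroup B]
    [Fintype B] [DecidableEq B]
    (φ : A →+ B) (hφ : Function.Surjective φ) (G : B → ℝ) :
    (Fintype.card B : ℝ) * ∑ x, G (φ x) = Fintype.card A * ∑ z, G z := by
  have hfib : ∀ z, (univ.filter fun x => φ x = z).card = (univ.filter fun x => φ x = 0).card := by
    intro z
    exact AddMonoidHom.card_fiber_eq_of_mem_range φ (hφ z) (hφ 0)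
  have h1 : ∑ x, G (φ x) = ∑ z, ((univ.filter fun x => φ x = 0).card : ℝ) * G z := by
    rw [← Finset.sum_fiberwise (s := univ) (g := φ) (f := fun x => G (φ x))]
    refine Finset.sum_congr rfl fun z _ => ?_
    rw [← hfib z, Finset.sum_congr rfl (g := fun _ => G z)
      (fun x hx => by rw [(Finset.mem_filter.1 hx).2])]
    simp
  have h2 : (Fintype.card A : ℝ) = Fintype.card B * ((univ.filter fun x => φ x = 0).card : ℝ) := by
    have : Fintype.card A = ∑ z : B, (univ.filter fun x => φ x = z).card := by
      rw [← Finset.card_univ]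
      exact Finset.card_eq_sum_card_fiberwise (fun _ _ => Finset.mem_univ _)
    rw [this, Finset.sum_congr rfl fun z _ => hfib z]
    simp
  rw [h1, h2, ← Finset.mul_sum]
  ring

section density

variable [Fintype K]

/-- Surjectivity of the map defined by independent functionals. -/
theorem forms_surjective {r : ℕ} (β : Fin r → X → K) (hli : LinearIndependent K β) :
    Function.Surjective (fun x : X → K => fun a => ∑ i, β a i * x i) := by
  classical
  let A : Matrix (Fin r) X K := Matrix.of β
  have hrow : LinearIndependent K A.row := hli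
  have hrank : A.rank = Fintype.card (Fin r) := hrow.rank_matrix
  have hrange : LinearMap.range A.mulVecLin = ⊤ := by
    apply Submodule.eq_top_of_finrank_eq
    rw [← Matrix.rank, hrank]
    simp
  intro z
  have hz : z ∈ LinearMap.range A.mulVecLin := by rw [hrange]; trivial
  obtain ⟨x, hx⟩ := hz
  refine ⟨x, ?_⟩
  rw [← hx]
  funext a
  simp [A, Matrix.mulVec, dotProduct]

/-- Density of the points where few pivots vanish. -/
theorem pivot_density [DecidableEq K] {q : ℕ} (hq : Fintype.card K = q) {r : ℕ} (β : Fin r → X → K)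
    (hli : LinearIndependent K β) (c : Fin r → K) (cG : ℕ) :
    (((univ : Finset (X → K)).filter fun x =>
        (univ.filter fun a => c a + ∑ i, β a i * x i = 0).card ≤ cG).card : ℝ) ≤
      2 ^ cG * (1 - 1 / (2 * (q : ℝ))) ^ r * (q : ℝ) ^ Fintype.card X := by
  classical
  have hq0 : (0 : ℝ) < q := by
    have : 0 < q := hq ▸ Fintype.card_pos
    exact_mod_cast this
  let F : (Fin r → K) → ℝ := fun z => ∏ a, (if c a + z a = 0 then (1 / 2 : ℝ) else 1)
  let φ : (X → K) →+ (Fin r → K) :=
    { toFun := fun x a => ∑ i, β a i * x i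
      map_zero' := by funext a; simp
      map_add' := fun x y => by
        funext a
        simp [mul_add, Finset.sum_add_distrib] }
  have hφ : Function.Surjective φ := forms_surjective β hli
  have hF0 : ∀ z, 0 ≤ F z := fun z => Finset.prod_nonneg fun a _ => by split_ifs <;> norm_num
  -- pointwise bound
  have hpt : ∀ x : X → K, (if (univ.filter fun a => c a + ∑ i, β a i * x i = 0).card ≤ cG then (1 : ℝ) else 0)
      ≤ 2 ^ cG * F (φ x) := by
    intro x
    have hFx : F (φ x) = (1 / 2 : ℝ) ^ (univ.filter fun a => c a + ∑ i, β a i * x i = 0).card := by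
      simp only [F]
      rw [Finset.prod_ite, Finset.prod_const_one, mul_one, Finset.prod_const]
      rfl
    split_ifs with h
    · rw [hFx]
      have h2 : (2 : ℝ) ^ cG * (1 / 2) ^ (univ.filter fun a => c a + ∑ i, β a i * x i = 0).card =
          2 ^ (cG - (univ.filter fun a => c a + ∑ i, β a i * x i = 0).card) := by
        obtain ⟨d, hd⟩ := Nat.exists_eq_add_of_le h
        rw [hd, Nat.add_sub_cancel_left, pow_add, mul_assoc, mul_comm ((2:ℝ)^d), ← mul_assoc,
          ← mul_pow]
        norm_num
      rw [h2]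
      exact one_le_pow₀ (by norm_num)
    · exact mul_nonneg (by positivity) (hF0 _)
  have hsum : ∑ z, F z = ((q : ℝ) - 1 / 2) ^ r := by
    have h1 : ∀ a : Fin r, ∑ b : K, (if c a + b = 0 then (1 / 2 : ℝ) else 1) = (q : ℝ) - 1 / 2 := by
      intro a
      have h2 : ∀ b : K, (if c a + b = 0 then (1 / 2 : ℝ) else 1) =
          1 - (if b = -c a then (1 / 2 : ℝ) else 0) := by
        intro b
        have : c a + b = 0 ↔ b = -c a := by
          constructor
          · intro h; linear_combination h
          · intro h; rw [h]; ring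
        simp only [this]
        split_ifs <;> norm_num
      simp only [h2, Finset.sum_sub_distrib, Finset.sum_const, Finset.card_univ, nsmul_eq_mul,
        mul_one, hq, Finset.sum_ite_eq', Finset.mem_univ, if_true]
    simp only [F]
    have := Finset.prod_univ_sum (fun _ : Fin r => (univ : Finset K))
      (fun a b => if c a + b = 0 then (1 / 2 : ℝ) else 1)
    rw [Fintype.piFinset_univ] at this
    rw [← this, Finset.prod_congr rfl fun a _ => h1 a]
    simp
  have hfib := sum_comp_surj φ hφ F
  simp only [Fintype.card_pi, Finset.prod_const, Finset.card_univ, Fintype.card_fin, hq] at hfib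
  have hmain : (((univ : Finset (X → K)).filter fun x =>
        (univ.filter fun a => c a + ∑ i, β a i * x i = 0).card ≤ cG).card : ℝ) ≤
      2 ^ cG * ∑ x, F (φ x) := by
    rw [Finset.card_filter]
    push_cast
    rw [Finset.mul_sum]
    exact Finset.sum_le_sum fun x _ => hpt x
  refine le_trans hmain ?_
  have hqr : ((q : ℝ) ^ r) ≠ 0 := by positivity
  have hval : ∑ x, F (φ x) = (q : ℝ) ^ Fintype.card X * ((q : ℝ) - 1 / 2) ^ r / (q : ℝ) ^ r := by
    rw [eq_div_iff hqr, ← hsum]
    push_cast at hfib
    linear_combination hfib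
  rw [hval]
  have h3 : (1 - 1 / (2 * (q : ℝ))) ^ r = ((q : ℝ) - 1 / 2) ^ r / (q : ℝ) ^ r := by
    rw [← div_pow]
    congr 1
    field_simp
  rw [h3]
  apply le_of_eq
  ring

/-- The exponential form of the density bound. -/
theorem density_exp {q : ℕ} (hq0 : 0 < q) (r cG R : ℕ) (h : 2 * q * cG + R ≤ r) :
    (2 : ℝ) ^ cG * (1 - 1 / (2 * (q : ℝ))) ^ r ≤ Real.exp (-(R : ℝ) / (2 * q)) := by
  have hq' : (0 : ℝ) < q := by exact_mod_cast hq0
  have h1 : (1 : ℝ) ≤ 2 * q := by
    have : (1 : ℝ) ≤ q := by exact_mod_cast hq0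
    linarith
  have hbase : 0 ≤ 1 - 1 / (2 * (q : ℝ)) := by
    rw [sub_nonneg, div_le_one (by positivity)]
    exact h1
  have h2 : 1 - 1 / (2 * (q : ℝ)) ≤ Real.exp (-(1 / (2 * (q : ℝ)))) := by
    have := Real.add_one_le_exp (-(1 / (2 * (q : ℝ))))
    linarith
  have h3 : (1 - 1 / (2 * (q : ℝ))) ^ r ≤ Real.exp (-(1 / (2 * (q : ℝ)))) ^ r :=
    pow_le_pow_left₀ hbase h2 r
  rw [← Real.exp_nat_mul] at h3
  have h4 : Real.exp ((r : ℝ) * -(1 / (2 * (q : ℝ)))) ≤
      Real.exp (-(cG : ℝ)) * Real.exp (-(R : ℝ) / (2 * q)) := by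
    rw [← Real.exp_add]
    apply Real.exp_le_exp.2
    have h5 : (2 * q * cG + R : ℝ) ≤ r := by exact_mod_cast h
    have h6 : (r : ℝ) * (1 / (2 * (q : ℝ))) ≥ (2 * q * cG + R) * (1 / (2 * (q : ℝ))) :=
      mul_le_mul_of_nonneg_right h5 (by positivity)
    have h7 : ((2 * q * cG + R : ℝ)) * (1 / (2 * (q : ℝ))) = cG + R / (2 * q) := by
      field_simp
    have h8 : -(R : ℝ) / (2 * q) = -(R / (2 * q)) := by ring
    rw [h8]
    linarith
  have h9 : (2 : ℝ) ^ cG * Real.exp (-(cG : ℝ)) ≤ 1 := by
    rw [Real.exp_neg, ← div_eq_mul_inv, div_le_one (Real.exp_pos _)]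
    have : (2 : ℝ) ≤ Real.exp 1 := by
      have := Real.add_one_le_exp (1 : ℝ)
      linarith
    calc (2 : ℝ) ^ cG ≤ Real.exp 1 ^ cG := pow_le_pow_left₀ (by norm_num) this cG
      _ = Real.exp (cG : ℝ) := by rw [← Real.exp_nat_mul]; simp
  calc (2 : ℝ) ^ cG * (1 - 1 / (2 * (q : ℝ))) ^ r
      ≤ 2 ^ cG * (Real.exp (-(cG : ℝ)) * Real.exp (-(R : ℝ) / (2 * q))) :=
        mul_le_mul_of_nonneg_left (h3.trans h4) (by positivity)
    _ = (2 ^ cG * Real.exp (-(cG : ℝ))) * Real.exp (-(R : ℝ) / (2 * q)) := by ring
    _ ≤ 1 * Real.exp (-(R : ℝ) / (2 * q)) :=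
        mul_le_mul_of_nonneg_right h9 (Real.exp_pos _).le
    _ = _ := one_mul _

/-- The gate analysis. -/
theorem gate_bound {q : ℕ} (hq : Fintype.card K = q) (lam : ι → MvPolynomial Y K)
    (hlam : ∀ j, (lam j).IsHomogeneous 1) (c : ι → K) (β : ι → X → K) (e : ι → ℕ) (R : ℕ) :
    ∃ Bad : Finset (X → K), (Bad.card : ℝ) ≤ Real.exp (-(R : ℝ) / (2 * q)) * (q : ℝ) ^ Fintype.card X ∧
      ∀ v : Y →₀ ℕ, ∃ h ∈ FD K X ((q - 1) * (2 * q * v.degree + R)),
        ∀ x, x ∉ Bad → coeff v (gateEv lam c β e x) = h x := by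
  classical
  have hq0 : 0 < q := hq ▸ Fintype.card_pos
  obtain ⟨r, p, hpe, hli, hspan⟩ := exists_pivots (K := K) β e
  have hγ : ∀ j, ∃ γ : Fin r → K, e j ≠ 0 → ∀ x : X → K,
      ∑ i, β j i * x i = ∑ a, γ a * ∑ i, β (p a) i * x i := by
    intro j
    by_cases hj : e j = 0
    · exact ⟨0, fun h => absurd hj h⟩
    · obtain ⟨γ, hγ⟩ := (Submodule.mem_span_range_iff_exists_fun K).1 (hspan j hj)
      refine ⟨γ, fun _ x => ?_⟩
      rw [← hγ]
      simp only [Finset.sum_apply, Pi.smul_apply, smul_eq_mul, Finset.sum_mul, Finset.mul_sum, mul_assoc]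
      exact Finset.sum_comm
  choose γ hγ using hγ
  let ℓ : Fin r → (X → K) → K := fun a x => ∑ i, β (p a) i * x i
  have hℓ : ∀ a, ℓ a ∈ FD K X 1 := by
    intro a
    have := FD_affine (K := K) 0 (β (p a))
    simpa [ℓ] using this
  let G : (Fin r → K) → MvPolynomial Y K := fun z =>
    ∏ j, (lam j + C (c j + ∑ a, γ j a * z a)) ^ e j
  have hG : ∀ x : X → K, gateEv lam c β e x = G fun a => ℓ a x := by
    intro x
    simp only [gateEv, G, botEv]
    refine Finset.prod_congr rfl fun j _ => ?_
    by_cases hj : e j = 0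
    · simp [hj]
    · rw [hγ j hj x]
  have hcoef : ∀ v : Y →₀ ℕ, (fun x => coeff v (gateEv lam c β e x)) ∈ FD K X ((q - 1) * r) := by
    intro v
    have := FD_of_forms hq ℓ hℓ (fun z => coeff v (G z))
    simpa only [hG] using this
  by_cases hrR : r < R
  · refine ⟨∅, by simp; positivity, fun v => ⟨_, FD_mono ?_ (hcoef v), fun x _ => rfl⟩⟩
    apply Nat.mul_le_mul_left
    nlinarith
  · push Not at hrR
    let cG : ℕ := (r - R) / (2 * q)
    have hcG1 : 2 * q * cG + R ≤ r := by
      have := Nat.mul_div_le (r - R) (2 * q)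
      simp only [cG]
      omega
    have hcG2 : r - R < 2 * q * (cG + 1) := by
      simp only [cG]
      exact Nat.lt_mul_div_succ _ (by omega)
    let c' : Fin r → K := fun a => c (p a)
    let Bad : Finset (X → K) := univ.filter fun x =>
      (univ.filter fun a => c' a + ∑ i, β (p a) i * x i = 0).card ≤ cG
    refine ⟨Bad, ?_, fun v => ?_⟩
    · have h1 := pivot_density hq (fun a => β (p a)) hli c' cG
      have h2 := density_exp hq0 r cG R hcG1
      calc (Bad.card : ℝ) ≤ _ := h1
        _ ≤ _ := mul_le_mul_of_nonneg_right h2 (by positivity)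
    · by_cases hv : v.degree ≤ cG
      · refine ⟨0, Submodule.zero_mem _, fun x hx => ?_⟩
        have hZ : cG < (univ.filter fun a => c' a + ∑ i, β (p a) i * x i = 0).card := by
          by_contra hne
          apply hx
          simp only [Bad, mem_filter, mem_univ, true_and]
          omega
        set Z := univ.filter fun a => c' a + ∑ i, β (p a) i * x i = 0 with hZdef
        have hpinj : Function.Injective p := by
          intro a b hab
          apply hli.injective
          simp only [hab]
        let Z' : Finset ι := Z.image p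
        have hZ'card : Z'.card = Z.card := Finset.card_image_of_injective _ hpinj
        -- factor out
        have hfac : gateEv lam c β e x = (∏ j ∈ Z', lam j) *
            ((∏ j ∈ Z', botEv lam c β x j ^ (e j - 1)) * ∏ j ∈ univ \ Z', botEv lam c β x j ^ e j) := by
          have h1 : ∏ j ∈ Z', botEv lam c β x j ^ e j =
              (∏ j ∈ Z', lam j) * ∏ j ∈ Z', botEv lam c β x j ^ (e j - 1) := by
            rw [← Finset.prod_mul_distrib]
            refine Finset.prod_congr rfl fun j hj => ?_
            obtain ⟨a, ha, rfl⟩ := Finset.mem_image.1 hj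
            have h0 : c (p a) + ∑ i, β (p a) i * x i = 0 := (Finset.mem_filter.1 ha).2
            have hb : botEv lam c β x (p a) = lam (p a) := by
              simp only [botEv, h0, map_zero, add_zero]
            rw [hb]
            have h1 : e (p a) ≠ 0 := hpe a
            rw [← pow_succ']
            congr 1
            omega
          unfold gateEv
          rw [← Finset.prod_sdiff (Finset.subset_univ Z'), h1]
          ring
        have hhom : (∏ j ∈ Z', lam j).IsHomogeneous Z'.card := by
          have := MvPolynomial.IsHomogeneous.prod Z' lam (fun _ => 1) (fun j _ => hlam j)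
          simpa using this
        rw [hfac]
        exact coeff_hom_mul_eq_zero hhom (by omega)
      · refine ⟨_, FD_mono ?_ (hcoef v), fun x _ => rfl⟩
        apply Nat.mul_le_mul_left
        push Not at hv
        have h1 : 2 * q * (cG + 1) ≤ 2 * q * v.degree := Nat.mul_le_mul_left _ hv
        omega

end density

end Vale.Agent.Lib.P346
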