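import Mathlib
import Vale.Agent.Lib.P346.Gate

/-!
The top product gates: the order-`k` coefficients of a product of at most `n` factors are, outside
the bad set, combinations of few fixed functions with coefficients of small functional degree.
-/

namespace Vale.Agent.Lib.P346

open Finset MvPolynomial

variable {K : Type*} [Field K]
variable {X Y ι : Type*} [Fintype X]

/-- Agreement outside `Bad` with a member of the subspace `W`. -/
def AgreeIn (Bad : Finset (X → K)) (W : Submodule K ((X → K) → K)) (f : (X → K) → K) : Prop :=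
  ∃ g ∈ W, ∀ x, x ∉ Bad → f x = g x

omit [Fintype X] in
theorem AgreeIn.mono {Bad : Finset (X → K)} {W W' : Submodule K ((X → K) → K)} {f : (X → K) → K}
    (h : AgreeIn Bad W f) (hW : W ≤ W') : AgreeIn Bad W' f := by
  obtain ⟨g, hg, hgf⟩ := h
  exact ⟨g, hW hg, hgf⟩

omit [Fintype X] in
theorem AgreeIn.sum {Bad : Finset (X → K)} {W : Submodule K ((X → K) → K)} {α : Type*}
    (s : Finset α) (f : α → (X → K) → K) (h : ∀ a ∈ s, AgreeIn Bad W (f a)) :
    AgreeIn Bad W (fun x => ∑ a ∈ s, f a x) := by
  classical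
  induction s using Finset.induction_on with
  | empty => exact ⟨0, W.zero_mem, fun x _ => by simp⟩
  | insert a s ha ih =>
    obtain ⟨g₁, hg₁, hf₁⟩ := h a (Finset.mem_insert_self _ _)
    obtain ⟨g₂, hg₂, hf₂⟩ := ih fun b hb => h b (Finset.mem_insert_of_mem hb)
    refine ⟨g₁ + g₂, W.add_mem hg₁ hg₂, fun x hx => ?_⟩
    show ∑ b ∈ insert a s, f b x = g₁ x + g₂ x
    rw [Finset.sum_insert ha, hf₁ x hx, ← hf₂ x hx]

/-- Span of products `F * h` with `F` from the list `S` and `h` of functional degree `≤ B`. -/
def Wsp (S : List ((X → K) → K)) (B : ℕ) : Submodule K ((X → K) → K) :=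
  Submodule.span K {f | ∃ F ∈ S, ∃ h ∈ FD K X B, f = F * h}

theorem Wsp_mono {S S' : List ((X → K) → K)} {B B' : ℕ} (hS : ∀ F ∈ S, F ∈ S') (hB : B ≤ B') :
    Wsp S B ≤ Wsp S' B' := by
  apply Submodule.span_mono
  rintro f ⟨F, hF, h, hh, rfl⟩
  exact ⟨F, hS F hF, h, FD_mono hB hh, rfl⟩

theorem Wsp_mul_left (S : List ((X → K) → K)) (B : ℕ) (F₀ : (X → K) → K) {f : (X → K) → K}
    (hf : f ∈ Wsp S B) : F₀ * f ∈ Wsp (S.map (F₀ * ·)) B := by
  induction hf using Submodule.span_induction with
  | mem f hf =>
    obtain ⟨F, hF, h, hh, rfl⟩ := hf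
    apply Submodule.subset_span
    exact ⟨F₀ * F, List.mem_map.2 ⟨F, hF, rfl⟩, h, hh, by ring⟩
  | zero => simp
  | add x y _ _ hx hy => rw [mul_add]; exact Submodule.add_mem _ hx hy
  | smul c x _ hx => rw [mul_smul_comm]; exact Submodule.smul_mem _ _ hx

theorem Wsp_mul_FD (S : List ((X → K) → K)) {a b : ℕ} {h f : (X → K) → K} (hh : h ∈ FD K X a)
    (hf : f ∈ Wsp S b) : h * f ∈ Wsp S (a + b) := by
  induction hf using Submodule.span_induction with
  | mem f hf =>
    obtain ⟨F, hF, h', hh', rfl⟩ := hf
    apply Submodule.subset_span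
    exact ⟨F, hF, h * h', FD_mul_mem hh hh', by ring⟩
  | zero => simp
  | add x y _ _ hx hy => rw [mul_add]; exact Submodule.add_mem _ hx hy
  | smul c x _ hx => rw [mul_smul_comm]; exact Submodule.smul_mem _ _ hx

/-- The list of fixed functions attached to a list of factors. -/
noncomputable def Sel (midEv : ι → (X → K) → MvPolynomial Y K) :
    List ι → ℕ → List ((X → K) → K)
  | [], _ => [1]
  | j :: L, c =>
    (Sel midEv L c).map ((fun x => coeff 0 (midEv j x)) * ·) ++
      (if c = 0 then [] else Sel midEv L (c - 1))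

omit [Fintype X] in
theorem Sel_mono (midEv : ι → (X → K) → MvPolynomial Y K) :
    ∀ (L : List ι) {c c' : ℕ}, c' ≤ c → ∀ F ∈ Sel midEv L c', F ∈ Sel midEv L c := by
  intro L
  induction L with
  | nil => intro c c' _ F hF; simpa [Sel] using hF
  | cons j L ih =>
    intro c c' hc F hF
    simp only [Sel, List.mem_append, List.mem_map] at hF ⊢
    rcases hF with ⟨F', hF', rfl⟩ | hF
    · exact Or.inl ⟨F', ih hc F' hF', rfl⟩
    · right
      by_cases hc' : c' = 0
      · simp [hc'] at hF
      · rw [if_neg hc'] at hF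
        rw [if_neg (by omega)]
        exact ih (by omega) F hF

/-- Partial sum of binomial coefficients. -/
def Bsum (a c : ℕ) : ℕ := ∑ i ∈ Finset.range (c + 1), a.choose i

theorem Bsum_zero_left (c : ℕ) : Bsum 0 c = 1 := by
  unfold Bsum
  rw [Finset.sum_range_succ']
  simp

theorem Bsum_succ_zero (a : ℕ) : Bsum (a + 1) 0 = Bsum a 0 := by
  simp [Bsum]

theorem Bsum_succ_succ (a c : ℕ) : Bsum (a + 1) (c + 1) = Bsum a (c + 1) + Bsum a c := by
  unfold Bsum
  rw [Finset.sum_range_succ' _ (c + 1)]
  simp only [Nat.choose_succ_succ, Finset.sum_add_distrib, Nat.choose_zero_right]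
  rw [Finset.sum_range_succ' (fun i => a.choose i) (c + 1)]
  simp only [Nat.choose_zero_right]
  ring

theorem Bsum_mono {a b : ℕ} (h : a ≤ b) (c : ℕ) : Bsum a c ≤ Bsum b c :=
  Finset.sum_le_sum fun _ _ => Nat.choose_le_choose _ h

omit [Fintype X] in
theorem Sel_length (midEv : ι → (X → K) → MvPolynomial Y K) :
    ∀ (L : List ι) (c : ℕ), (Sel midEv L c).length ≤ Bsum L.length c := by
  intro L
  induction L with
  | nil => intro c; simp [Sel, Bsum_zero_left]
  | cons j L ih =>
    intro c
    simp only [Sel, List.length_append, List.length_map, List.length_cons]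
    cases c with
    | zero =>
      simp only [if_true, List.length_nil, add_zero, Bsum_succ_zero]
      exact ih 0
    | succ c =>
      simp only [Nat.add_eq_zero_iff, one_ne_zero, and_false, if_false, Nat.add_sub_cancel,
        Bsum_succ_succ]
      exact Nat.add_le_add (ih _) (ih _)

section finite

variable [DecidableEq X] [Fintype K] [DecidableEq Y]

/-- Order-`deg u` coefficients of a product of factors. -/
theorem sel_claim {q : ℕ} (R : ℕ) (midEv : ι → (X → K) → MvPolynomial Y K) (Bad : Finset (X → K))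
    (hmid : ∀ j (v : Y →₀ ℕ), AgreeIn Bad (FD K X ((q - 1) * (2 * q * v.degree + R)))
      (fun x => coeff v (midEv j x))) :
    ∀ (L : List ι) (u : Y →₀ ℕ), AgreeIn Bad
      (Wsp (Sel midEv L u.degree) ((q - 1) * (2 * q + R) * u.degree))
      (fun x => coeff u ((L.map fun j => midEv j x).prod)) := by
  intro L
  induction L with
  | nil =>
    intro u
    refine ⟨(1 : (X → K) → K) * (fun _ => coeff u (1 : MvPolynomial Y K)), ?_, fun x _ => by simp⟩
    apply Submodule.subset_span
    exact ⟨1, by simp [Sel], _, FD_const _ _, rfl⟩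
  | cons j L ih =>
    intro u
    simp only [List.map_cons, List.prod_cons]
    simp only [coeff_mul]
    apply AgreeIn.sum
    rintro ⟨v, w⟩ hvw
    have hvw' : v + w = u := HasAntidiagonal.mem_antidiagonal.1 hvw
    have hdeg : v.degree + w.degree = u.degree := by rw [← map_add, hvw']
    simp only
    by_cases hv : v = 0
    · subst hv
      have hw : w = u := by simpa using hvw'
      subst hw
      obtain ⟨g, hg, hgf⟩ := ih w
      refine ⟨(fun x => coeff 0 (midEv j x)) * g, ?_, fun x hx => ?_⟩
      · refine Wsp_mono ?_ le_rfl (Wsp_mul_left _ _ _ hg)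
        intro F hF
        simp only [Sel, List.mem_append]
        exact Or.inl hF
      · show coeff 0 (midEv j x) * coeff w ((L.map fun j => midEv j x).prod) =
          coeff 0 (midEv j x) * g x
        rw [show coeff w ((L.map fun j => midEv j x).prod) = g x from hgf x hx]
    · have hv1 : 1 ≤ v.degree := by
        rw [Nat.one_le_iff_ne_zero]
        intro h0
        exact hv ((Finsupp.degree_eq_zero_iff v).1 h0)
      obtain ⟨g, hg, hgf⟩ := ih w
      obtain ⟨h, hh, hhf⟩ := hmid j v
      refine ⟨h * g, ?_, fun x hx => ?_⟩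
      · refine Wsp_mono ?_ ?_ (Wsp_mul_FD _ hh hg)
        · intro F hF
          simp only [Sel, List.mem_append]
          right
          rw [if_neg (by omega)]
          exact Sel_mono midEv L (by omega) F hF
        · rw [← hdeg]
          have h2 : 2 * q * v.degree + R + (2 * q + R) * w.degree ≤
              (2 * q + R) * (v.degree + w.degree) := by
            nlinarith [Nat.mul_le_mul_left R hv1]
          calc (q - 1) * (2 * q * v.degree + R) + (q - 1) * (2 * q + R) * w.degree
              = (q - 1) * (2 * q * v.degree + R + (2 * q + R) * w.degree) := by ring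
            _ ≤ (q - 1) * ((2 * q + R) * (v.degree + w.degree)) := Nat.mul_le_mul_left _ h2
            _ = _ := by ring
      · show coeff v (midEv j x) * coeff w ((L.map fun j => midEv j x).prod) = h x * g x
        rw [show coeff w ((L.map fun j => midEv j x).prod) = g x from hgf x hx,
          show coeff v (midEv j x) = h x from hhf x hx]

/-- Family of generators for the upper bound. -/
noncomputable def genFam {q : ℕ} {T₀ : ℕ} (midEv : ι → (X → K) → MvPolynomial Y K)
    (L : Fin T₀ → List ι) (k B : ℕ) :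
    (Σ i : Fin T₀, Fin (Sel midEv (L i) k).length × {T : X → Fin q // ∑ i, (T i : ℕ) < B + 1}) →
      (X → K) → K :=
  fun a => (Sel midEv (L a.1) k).get a.2.1 * monF a.2.2.1

theorem card_genFam_index {q : ℕ} {T₀ : ℕ} (midEv : ι → (X → K) → MvPolynomial Y K)
    (L : Fin T₀ → List ι) (k B n : ℕ) (hL : ∀ i, (L i).length ≤ n) :
    Fintype.card (Σ i : Fin T₀, Fin (Sel midEv (L i) k).length ×
        {T : X → Fin q // ∑ i, (T i : ℕ) < B + 1}) ≤
      T₀ * (Bsum n k * Hlt q X (B + 1)) := by
  classical
  rw [Fintype.card_sigma]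
  calc ∑ i : Fin T₀, Fintype.card (Fin (Sel midEv (L i) k).length ×
        {T : X → Fin q // ∑ i, (T i : ℕ) < B + 1})
      ≤ ∑ _i : Fin T₀, (Bsum n k * Hlt q X (B + 1)) := by
        apply Finset.sum_le_sum
        intro i _
        rw [Fintype.card_prod, Fintype.card_fin]
        apply Nat.mul_le_mul
        · exact (Sel_length midEv (L i) k).trans (Bsum_mono (hL i) k)
        · rw [Fintype.card_subtype]
          unfold Hlt
          apply le_of_eq
          congr!
    _ = _ := by simp

theorem Wsp_le_genSpan {q : ℕ} (hq : Fintype.card K = q) {T₀ : ℕ}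
    (midEv : ι → (X → K) → MvPolynomial Y K)
    (L : Fin T₀ → List ι) (k B : ℕ) (i : Fin T₀) :
    Wsp (Sel midEv (L i) k) B ≤
      Submodule.span K (Set.range (genFam (q := q) midEv L k B)) := by
  apply Submodule.span_le.2
  rintro f ⟨F, hF, h, hh, rfl⟩
  obtain ⟨c, hc, rfl⟩ := exists_coeff_of_mem_FD hq hh
  obtain ⟨a, ha⟩ := List.get_of_mem hF
  have hexp : F * evalC c = ∑ T : X → Fin q, c T • (F * (monF T : (X → K) → K)) := by
    funext x
    simp only [Pi.mul_apply, evalC, Finset.sum_apply, Pi.smul_apply, smul_eq_mul, Finset.mul_sum,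
      monF, mon]
    exact Finset.sum_congr rfl fun _ _ => by ring
  simp only [SetLike.mem_coe]
  rw [hexp]
  refine Submodule.sum_mem _ fun T _ => ?_
  by_cases hT : ∑ i, (T i : ℕ) < B + 1
  · apply Submodule.smul_mem
    apply Submodule.subset_span
    refine ⟨⟨i, a, ⟨T, hT⟩⟩, ?_⟩
    simp only [genFam, ha]
  · rw [hc T (by omega), zero_smul]
    exact Submodule.zero_mem _

/-- Final form: shifted coefficient functions of a sum of top products agree, outside `Bad`, with
the span of the generator family. -/
theorem shifted_coeff_agree {q : ℕ} (hq : Fintype.card K = q) (R : ℕ) {T₀ : ℕ}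
    (midEv : ι → (X → K) → MvPolynomial Y K) (Bad : Finset (X → K))
    (hmid : ∀ j (v : Y →₀ ℕ), AgreeIn Bad (FD K X ((q - 1) * (2 * q * v.degree + R)))
      (fun x => coeff v (midEv j x)))
    (L : Fin T₀ → List ι) (γ : Fin T₀ → K) (u : Y →₀ ℕ) (M : X → ℕ) :
    AgreeIn Bad
      (Submodule.span K (Set.range (genFam (q := q) midEv L u.degree
        (∑ i, M i + (q - 1) * (2 * q + R) * u.degree))))
      (fun x => mon M x * coeff u (∑ i, C (γ i) * ((L i).map fun j => midEv j x).prod)) := by
  have h1 : ∀ i, AgreeIn Bad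
      (Submodule.span K (Set.range (genFam (q := q) midEv L u.degree
        (∑ i, M i + (q - 1) * (2 * q + R) * u.degree))))
      (fun x => γ i * (mon M x * coeff u (((L i).map fun j => midEv j x).prod))) := by
    intro i
    obtain ⟨g, hg, hgf⟩ := sel_claim R midEv Bad hmid (L i) u
    refine ⟨γ i • ((mon M : (X → K) → K) * g), ?_, fun x hx => ?_⟩
    · apply Submodule.smul_mem
      apply Wsp_le_genSpan hq midEv L u.degree _ i
      exact Wsp_mul_FD _ (mon_mem_FD M le_rfl) hg
    · show γ i * (mon M x * coeff u (((L i).map fun j => midEv j x).prod)) = γ i * (mon M x * g x)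
      rw [show coeff u (((L i).map fun j => midEv j x).prod) = g x from hgf x hx]
  have h2 := AgreeIn.sum (Bad := Bad) univ _ (fun i _ => h1 i)
  obtain ⟨g, hg, hgf⟩ := h2
  refine ⟨g, hg, fun x hx => ?_⟩
  rw [← hgf x hx]
  simp only [coeff_sum, coeff_C_mul, Finset.mul_sum]
  exact Finset.sum_congr rfl fun _ _ => by ring

end finite

end Vale.Agent.Lib.P346
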