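import Mathlib
import Vale.Agent.Lib.P346.Top

/-!
The core inequality: dimension count for each degree, then a weighted sum over all degrees.
-/

namespace Vale.Agent.Lib.P346

open Finset MvPolynomial

variable {K : Type*} [Field K]
variable {X Y ι : Type*} [Fintype X] [DecidableEq X]

/-- Multiplication by the indicator of the complement of `Bad`. -/
noncomputable def cutOff (Bad : Finset (X → K)) : ((X → K) → K) →ₗ[K] ((X → K) → K) := by
  classical
  exact
    { toFun := fun f x => if x ∈ Bad then 0 else f x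
      map_add' := fun f g => by
        funext x
        by_cases h : x ∈ Bad <;> simp [h]
      map_smul' := fun a f => by
        funext x
        by_cases h : x ∈ Bad <;> simp [h] }

theorem cutOff_apply_not_mem (Bad : Finset (X → K)) (f : (X → K) → K) {x : X → K} (h : x ∉ Bad) :
    cutOff Bad f x = f x := by
  classical
  simp [cutOff, h]

theorem cutOff_eq_of_agree (Bad : Finset (X → K)) {f g : (X → K) → K}
    (h : ∀ x, x ∉ Bad → f x = g x) : cutOff Bad f = cutOff Bad g := by
  classical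
  funext x
  by_cases hx : x ∈ Bad
  · simp [cutOff, hx]
  · simp [cutOff, hx, h x hx]

section finite

variable [Fintype K] [DecidableEq Y]

theorem genSpan_mono {q : ℕ} {T₀ : ℕ} (midEv : ι → (X → K) → MvPolynomial Y K)
    (L : Fin T₀ → List ι) (k : ℕ) {B B' : ℕ} (h : B ≤ B') :
    Submodule.span K (Set.range (genFam (q := q) midEv L k B)) ≤
      Submodule.span K (Set.range (genFam (q := q) midEv L k B')) := by
  apply Submodule.span_mono
  rintro f ⟨⟨i, a, T⟩, rfl⟩
  exact ⟨⟨i, a, ⟨T.1, by have := T.2; omega⟩⟩, rfl⟩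

/-- The dimension inequality at degree `D`. -/
theorem dim_ineq {q : ℕ} (hq : Fintype.card K = q) (R : ℕ) {T₀ : ℕ}
    (midEv : ι → (X → K) → MvPolynomial Y K) (Bad : Finset (X → K))
    (hmid : ∀ j (v : Y →₀ ℕ), AgreeIn Bad (FD K X ((q - 1) * (2 * q * v.degree + R)))
      (fun x => coeff v (midEv j x)))
    (L : Fin T₀ → List ι) (γ : Fin T₀ → K) (n k κ : ℕ) (hL : ∀ i, (L i).length ≤ n)
    (A : Finset (X → Fin q)) (M : (X → Fin q) → X → ℕ) (u : (X → Fin q) → Y →₀ ℕ)
    (hA1 : ∀ T ∈ A, ∑ i, M T i + κ = ∑ i, (T i : ℕ))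
    (hu : ∀ T ∈ A, (u T).degree = k)
    (hFD : ∀ T ∈ A, (fun x => mon (M T) x *
        coeff (u T) (∑ i, C (γ i) * ((L i).map fun j => midEv j x).prod)) ∈
        FD K X (∑ i, (T i : ℕ)))
    (hind : LinearIndependent K (fun T : A => (fun x => mon (M T) x *
        coeff (u T) (∑ i, C (γ i) * ((L i).map fun j => midEv j x).prod) : (X → K) → K)))
    (D : ℕ) :
    (q : ℝ) ^ Fintype.card X * ((A.filter fun T => ∑ i, (T i : ℕ) ≤ D).card : ℝ) ≤
      Bad.card * Hlt q X (D + 1) + (q : ℝ) ^ Fintype.card X *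
        (T₀ * (Bsum n k * Hlt q X ((D - κ) + (q - 1) * (2 * q + R) * k + 1))) := by
  classical
  set AD := A.filter fun T => ∑ i, (T i : ℕ) ≤ D with hAD
  let F : (X → Fin q) → (X → K) → K := fun T x => mon (M T) x *
        coeff (u T) (∑ i, C (γ i) * ((L i).map fun j => midEv j x).prod)
  have hADsub : AD ⊆ A := Finset.filter_subset _ _
  let emb : AD → A := fun T => ⟨T.1, hADsub T.2⟩
  have hindD : LinearIndependent K (fun T : AD => F T) :=
    hind.comp emb (fun a b h => by
      apply Subtype.ext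
      exact congrArg (fun z : A => (z : X → Fin q)) h)
  let U : Submodule K ((X → K) → K) := Submodule.span K (Set.range fun T : AD => F T)
  have hUrank : Module.finrank K U = AD.card := by
    have := finrank_span_eq_card hindD
    simpa using this
  have hUFD : U ≤ FD K X D := by
    apply Submodule.span_le.2
    rintro f ⟨T, rfl⟩
    have hT := (Finset.mem_filter.1 T.2).2
    exact FD_mono hT (hFD T.1 (hADsub T.2))
  have hstep := finrank_le_map_add U (U ⊓ LinearMap.ker (cutOff Bad)) (cutOff Bad) le_rfl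
  -- the kernel part
  have hker := kernel_FD hq Bad D (U ⊓ LinearMap.ker (cutOff Bad)) (inf_le_left.trans hUFD)
    (fun f hf x hx => by
      have h0 : cutOff Bad f = 0 := LinearMap.mem_ker.1 hf.2
      have := congrFun h0 x
      rwa [cutOff_apply_not_mem Bad f hx] at this)
  -- the image part
  let B := (D - κ) + (q - 1) * (2 * q + R) * k
  have himg : U.map (cutOff Bad) ≤
      (Submodule.span K (Set.range (genFam (q := q) midEv L k B))).map (cutOff Bad) := by
    rw [Submodule.map_le_iff_le_comap]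
    apply Submodule.span_le.2
    rintro f ⟨T, rfl⟩
    have hT := Finset.mem_filter.1 T.2
    have hTA := hT.1
    obtain ⟨g, hg, hgf⟩ := shifted_coeff_agree hq R midEv Bad hmid L γ (u T.1) (M T.1)
    rw [hu T.1 hTA] at hg
    refine ⟨g, genSpan_mono midEv L k ?_ hg, (cutOff_eq_of_agree Bad hgf).symm⟩
    have h1 := hA1 T.1 hTA
    simp only [B]
    have h2 := hT.2
    omega
  have himg2 : Module.finrank K (U.map (cutOff Bad)) ≤ T₀ * (Bsum n k * Hlt q X (B + 1)) := by
    calc Module.finrank K (U.map (cutOff Bad))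
        ≤ Module.finrank K ((Submodule.span K (Set.range (genFam (q := q) midEv L k B))).map
            (cutOff Bad)) := Submodule.finrank_mono himg
      _ ≤ Module.finrank K (Submodule.span K (Set.range (genFam (q := q) midEv L k B))) :=
          Submodule.finrank_map_le _ _
      _ ≤ Fintype.card _ := finrank_range_le_card _
      _ ≤ _ := card_genFam_index midEv L k B n hL
  have hfin : (AD.card : ℝ) ≤ (Module.finrank K (U.map (cutOff Bad)) : ℝ) +
      Module.finrank K ↥(U ⊓ LinearMap.ker (cutOff Bad)) := by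
    rw [hUrank] at hstep
    exact_mod_cast hstep
  have hker' : (q : ℝ) ^ Fintype.card X *
      (Module.finrank K ↥(U ⊓ LinearMap.ker (cutOff Bad)) : ℝ) ≤ Bad.card * Hlt q X (D + 1) := by
    exact_mod_cast hker
  have himg' : (Module.finrank K (U.map (cutOff Bad)) : ℝ) ≤
      T₀ * (Bsum n k * Hlt q X (B + 1)) := by
    exact_mod_cast himg2
  have hq0 : (0 : ℝ) ≤ (q : ℝ) ^ Fintype.card X := by positivity
  nlinarith [mul_le_mul_of_nonneg_left hfin hq0, mul_le_mul_of_nonneg_left himg' hq0]

end finite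

/-- Layer-cake identity for one exponent. -/
theorem hasSum_layer {θ : ℝ} (h0 : 0 < θ) (h1 : θ < 1) (c : ℕ) :
    HasSum (fun D : ℕ => (1 - θ) * θ ^ D * (if c ≤ D then (1 : ℝ) else 0)) (θ ^ c) := by
  have hgeo : HasSum (fun n : ℕ => (1 - θ) * θ ^ n) 1 := by
    have := (hasSum_geometric_of_lt_one h0.le h1).mul_left (1 - θ)
    rwa [mul_inv_cancel₀ (by linarith)] at this
  rw [← hasSum_nat_add_iff' c]
  have hzero : ∑ i ∈ Finset.range c, (1 - θ) * θ ^ i * (if c ≤ i then (1 : ℝ) else 0) = 0 := by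
    apply Finset.sum_eq_zero
    intro i hi
    rw [if_neg (by have := Finset.mem_range.1 hi; omega), mul_zero]
  rw [hzero, sub_zero]
  have := hgeo.mul_left (θ ^ c)
  rw [mul_one] at this
  have e : (fun n : ℕ => (1 - θ) * θ ^ (n + c) * (if c ≤ n + c then (1 : ℝ) else 0)) =
      fun n => θ ^ c * ((1 - θ) * θ ^ n) := by
    funext n
    rw [if_pos (by omega), pow_add]
    ring
  rw [e]
  exact this

/-- Layer-cake identity for a finite family. -/
theorem hasSum_layer_finset {θ : ℝ} (h0 : 0 < θ) (h1 : θ < 1) {α : Type*} (S : Finset α)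
    (d : α → ℕ) :
    HasSum (fun D : ℕ => (1 - θ) * θ ^ D * ((S.filter fun a => d a ≤ D).card : ℝ))
      (∑ a ∈ S, θ ^ d a) := by
  have := hasSum_sum (s := S) (fun a _ => hasSum_layer h0 h1 (d a))
  convert this using 2 with D
  rw [Finset.card_filter]
  push_cast
  rw [Finset.mul_sum]

/-- Total weight of all exponent vectors. -/
theorem sum_weight_all (θ : ℝ) (q : ℕ) :
    ∑ T : X → Fin q, θ ^ (∑ i, (T i : ℕ)) = (∑ j : Fin q, θ ^ (j : ℕ)) ^ Fintype.card X := by
  have := Finset.prod_univ_sum (fun _ : X => (univ : Finset (Fin q))) (fun _ j => θ ^ (j : ℕ))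
  rw [Fintype.piFinset_univ] at this
  rw [Finset.prod_const] at this
  rw [Finset.card_univ] at this
  rw [this]
  exact Finset.sum_congr rfl fun T _ => (Finset.prod_pow_eq_pow_sum _ _ _).symm

section finite2

variable [Fintype K] [DecidableEq Y]

/-- The core inequality. -/
theorem core_ineq {q : ℕ} (hq : Fintype.card K = q) (R : ℕ) {T₀ : ℕ}
    (midEv : ι → (X → K) → MvPolynomial Y K) (Bad : Finset (X → K))
    (hmid : ∀ j (v : Y →₀ ℕ), AgreeIn Bad (FD K X ((q - 1) * (2 * q * v.degree + R)))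
      (fun x => coeff v (midEv j x)))
    (L : Fin T₀ → List ι) (γ : Fin T₀ → K) (n k κ κ' : ℕ) (hL : ∀ i, (L i).length ≤ n)
    (hκ : κ' + (q - 1) * (2 * q + R) * k = κ)
    (A : Finset (X → Fin q)) (M : (X → Fin q) → X → ℕ) (u : (X → Fin q) → Y →₀ ℕ)
    (hA1 : ∀ T ∈ A, ∑ i, M T i + κ = ∑ i, (T i : ℕ))
    (hu : ∀ T ∈ A, (u T).degree = k)
    (hFD : ∀ T ∈ A, (fun x => mon (M T) x *
        coeff (u T) (∑ i, C (γ i) * ((L i).map fun j => midEv j x).prod)) ∈
        FD K X (∑ i, (T i : ℕ)))
    (hind : LinearIndependent K (fun T : A => (fun x => mon (M T) x *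
        coeff (u T) (∑ i, C (γ i) * ((L i).map fun j => midEv j x).prod) : (X → K) → K)))
    {θ : ℝ} (hθ0 : 0 < θ) (hθ1 : θ < 1) :
    ∑ T ∈ A, θ ^ (∑ i, (T i : ℕ)) ≤
      ((Bad.card : ℝ) / (q : ℝ) ^ Fintype.card X + T₀ * Bsum n k * θ ^ κ') *
        (∑ j : Fin q, θ ^ (j : ℕ)) ^ Fintype.card X := by
  classical
  have hq0 : (0 : ℝ) < q := by
    have : 0 < q := hq ▸ Fintype.card_pos
    exact_mod_cast this
  have hqN : (0 : ℝ) < (q : ℝ) ^ Fintype.card X := by positivity
  -- series
  have hS1 := hasSum_layer_finset hθ0 hθ1 A (fun T => ∑ i, (T i : ℕ))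
  have hS2 := hasSum_layer_finset hθ0 hθ1 (univ : Finset (X → Fin q)) (fun T => ∑ i, (T i : ℕ))
  have hS3 := hasSum_layer_finset hθ0 hθ1 (univ : Finset (X → Fin q)) (fun T => ∑ i, (T i : ℕ) + κ')
  have hS := (hS2.mul_left ((Bad.card : ℝ) / (q : ℝ) ^ Fintype.card X)).add
    (hS3.mul_left ((T₀ : ℝ) * Bsum n k))
  have hle := hasSum_le (f := _) (g := _) ?_ hS1 hS
  · rw [sum_weight_all] at hle
    have h3 : ∑ T : X → Fin q, θ ^ (∑ i, (T i : ℕ) + κ') =
        θ ^ κ' * (∑ j : Fin q, θ ^ (j : ℕ)) ^ Fintype.card X := by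
      rw [← sum_weight_all, Finset.mul_sum]
      exact Finset.sum_congr rfl fun _ _ => by rw [pow_add]; ring
    rw [h3] at hle
    calc _ ≤ _ := hle
      _ = _ := by ring
  · intro D
    have h1mθ : 0 ≤ (1 - θ) * θ ^ D := mul_nonneg (by linarith) (by positivity)
    have hmain : ((A.filter fun T => ∑ i, (T i : ℕ) ≤ D).card : ℝ) ≤
        (Bad.card : ℝ) / (q : ℝ) ^ Fintype.card X *
          ((univ.filter fun T : X → Fin q => ∑ i, (T i : ℕ) ≤ D).card : ℝ) +
        (T₀ : ℝ) * Bsum n k * ((univ.filter fun T : X → Fin q => ∑ i, (T i : ℕ) + κ' ≤ D).card : ℝ) := by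
      by_cases hD : κ ≤ D
      · have h := dim_ineq hq R midEv Bad hmid L γ n k κ hL A M u hA1 hu hFD hind D
        have e1 : Hlt q X (D + 1) = (univ.filter fun T : X → Fin q => ∑ i, (T i : ℕ) ≤ D).card := by
          unfold Hlt
          congr 1
          ext T
          simp only [mem_filter, mem_univ, true_and]
          omega
        have e2 : Hlt q X ((D - κ) + (q - 1) * (2 * q + R) * k + 1) =
            (univ.filter fun T : X → Fin q => ∑ i, (T i : ℕ) + κ' ≤ D).card := by
          unfold Hlt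
          congr 1
          ext T
          simp only [mem_filter, mem_univ, true_and]
          omega
        rw [e1, e2] at h
        have h5 : (q : ℝ) ^ Fintype.card X * ((A.filter fun T => ∑ i, (T i : ℕ) ≤ D).card : ℝ) ≤
            (q : ℝ) ^ Fintype.card X * ((Bad.card : ℝ) / (q : ℝ) ^ Fintype.card X *
              ((univ.filter fun T : X → Fin q => ∑ i, (T i : ℕ) ≤ D).card : ℝ) +
            (T₀ : ℝ) * Bsum n k *
              ((univ.filter fun T : X → Fin q => ∑ i, (T i : ℕ) + κ' ≤ D).card : ℝ)) := by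
          refine le_trans h (le_of_eq ?_)
          field_simp
        exact le_of_mul_le_mul_left h5 hqN
      · have hempty : (A.filter fun T => ∑ i, (T i : ℕ) ≤ D) = ∅ := by
          apply Finset.filter_eq_empty_iff.2
          intro T hT
          have := hA1 T hT
          omega
        rw [hempty]
        simp only [Finset.card_empty, Nat.cast_zero]
        positivity
    calc (1 - θ) * θ ^ D * ((A.filter fun T => ∑ i, (T i : ℕ) ≤ D).card : ℝ)
        ≤ (1 - θ) * θ ^ D * ((Bad.card : ℝ) / (q : ℝ) ^ Fintype.card X *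
          ((univ.filter fun T : X → Fin q => ∑ i, (T i : ℕ) ≤ D).card : ℝ) +
        (T₀ : ℝ) * Bsum n k * ((univ.filter fun T : X → Fin q => ∑ i, (T i : ℕ) + κ' ≤ D).card : ℝ)) :=
          mul_le_mul_of_nonneg_left hmain h1mθ
      _ = _ := by ring

end finite2

end Vale.Agent.Lib.P346
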