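import Mathlib

/-!
Iterated matrix multiplication and homogeneous depth-five circuits.
-/

namespace Vale.Agent.Lib.P346

open MvPolynomial

/-- `IMM_{w,d}`: the top-left entry of the product of `d` generic `w × w` matrices; the variable
`X (l, a, b)` is the `(a, b)` entry of the `l`-th matrix. -/
noncomputable def imm (K : Type*) [Field K] (w d : ℕ) [NeZero w] :
    MvPolynomial (Fin d × Fin w × Fin w) K :=
  (List.ofFn fun l : Fin d =>
    (Matrix.of fun a b => X (l, a, b) :
      Matrix (Fin w) (Fin w) (MvPolynomial (Fin d × Fin w × Fin w) K))).prod 0 0

/-- A `ΣΠΣΠΣ` circuit over `K` with variables `V`, given layer by layer from the leaves to the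
output: `nB` bottom sum gates (each a constant plus a linear form in the variables), `nL` lower
product gates (each a product of bottom gates with multiplicities), `nM` middle sum gates (each a
`K`-linear combination of lower product gates), `nT` top product gates (each a product of middle
gates with multiplicities) and one output sum gate (a `K`-linear combination of top product
gates). Gates may be shared since a gate may be used by any number of gates of the next layer. -/
structure Circuit (K V : Type*) where
  /-- number of bottom sum gates -/
  nB : ℕ
  /-- number of lower product gates -/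
  nL : ℕ
  /-- number of middle sum gates -/
  nM : ℕ
  /-- number of top product gates -/
  nT : ℕ
  /-- constant term of a bottom sum gate -/
  bConst : Fin nB → K
  /-- coefficients of the variables in a bottom sum gate -/
  bCoeff : Fin nB → V → K
  /-- multiplicity of a bottom gate in a lower product gate -/
  lExp : Fin nL → Fin nB → ℕ
  /-- coefficient of a lower product gate in a middle sum gate -/
  mCoeff : Fin nM → Fin nL → K
  /-- multiplicity of a middle gate in a top product gate -/
  tExp : Fin nT → Fin nM → ℕ
  /-- coefficient of a top product gate in the output gate -/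
  oCoeff : Fin nT → K

namespace Circuit

variable {K V : Type*} [Field K] [Fintype V]

/-- Number of gates (leaves are not counted, so this is at most the number of vertices). -/
def size (C : Circuit K V) : ℕ := C.nB + C.nL + C.nM + C.nT + 1

/-- Polynomial computed by a bottom gate. -/
noncomputable def bVal (C : Circuit K V) (j : Fin C.nB) : MvPolynomial V K :=
  MvPolynomial.C (C.bConst j) + ∑ v, MvPolynomial.C (C.bCoeff j v) * X v

/-- Polynomial computed by a lower product gate. -/
noncomputable def lVal (C : Circuit K V) (i : Fin C.nL) : MvPolynomial V K :=
  ∏ j, C.bVal j ^ C.lExp i j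

/-- Polynomial computed by a middle sum gate. -/
noncomputable def mVal (C : Circuit K V) (i : Fin C.nM) : MvPolynomial V K :=
  ∑ j, MvPolynomial.C (C.mCoeff i j) * C.lVal j

/-- Polynomial computed by a top product gate. -/
noncomputable def tVal (C : Circuit K V) (i : Fin C.nT) : MvPolynomial V K :=
  ∏ j, C.mVal j ^ C.tExp i j

/-- Polynomial computed by the output gate. -/
noncomputable def output (C : Circuit K V) : MvPolynomial V K :=
  ∑ i, MvPolynomial.C (C.oCoeff i) * C.tVal i

/-- Syntactic homogeneity: there are formal degrees of the gates such that a bottom gate reads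
only constants (degree `0`) or only variables (degree `1`), product gates add the degrees of their
inputs with multiplicity, and all inputs of a sum gate (those with nonzero coefficient) have the
degree of that gate. -/
def IsSynHomog (C : Circuit K V) : Prop :=
  ∃ (dB : Fin C.nB → ℕ) (dL : Fin C.nL → ℕ) (dM : Fin C.nM → ℕ) (dT : Fin C.nT → ℕ) (Δ : ℕ),
    (∀ j, (dB j = 0 ∧ ∀ v, C.bCoeff j v = 0) ∨ (dB j = 1 ∧ C.bConst j = 0)) ∧
    (∀ i, dL i = ∑ j, C.lExp i j * dB j) ∧
    (∀ i j, C.mCoeff i j ≠ 0 → dL j = dM i) ∧
    (∀ i, dT i = ∑ j, C.tExp i j * dM j) ∧
    (∀ i, C.oCoeff i ≠ 0 → dT i = Δ)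

end Circuit

end Vale.Agent.Lib.P346
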