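import Mathlib
import Vale.Agent.Lib.P346.Defs
import Vale.Agent.Lib.P346.Core

/-!
Normal form of a homogeneous circuit after a substitution of variables.
-/

namespace Vale.Agent.Lib.P346

open Finset MvPolynomial

variable {K : Type*} [Field K]
variable {V : Type*} [Fintype V]
variable {X Y : Type*} [Fintype X] [DecidableEq X]

/-- The value of a variable of the circuit after substitution: a `Y` variable, an `X` coordinate,
or a constant. -/
noncomputable def atomVal (x : X → K) : Y ⊕ X ⊕ K → MvPolynomial Y K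
  | Sum.inl y => MvPolynomial.X y
  | Sum.inr (Sum.inl e) => MvPolynomial.C (x e)
  | Sum.inr (Sum.inr c) => MvPolynomial.C c

/-- Substitution of the variables of the circuit at the point `x`. -/
noncomputable def evX (at' : V → Y ⊕ X ⊕ K) (x : X → K) : MvPolynomial V K →ₐ[K] MvPolynomial Y K :=
  aeval fun v => atomVal x (at' v)

/-- Linear part in `Y` of a variable. -/
noncomputable def lamPart (at' : V → Y ⊕ X ⊕ K) (a : K) (v : V) : MvPolynomial Y K :=
  match at' v with
  | Sum.inl y => MvPolynomial.C a * MvPolynomial.X y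
  | Sum.inr _ => 0

/-- Constant part of a variable. -/
noncomputable def cPart (at' : V → Y ⊕ X ⊕ K) (a : K) (v : V) : K :=
  match at' v with
  | Sum.inr (Sum.inr c) => a * c
  | _ => 0

open scoped Classical in
/-- Coefficients on `X` of a variable. -/
noncomputable def βPart (at' : V → Y ⊕ X ⊕ K) (a : K) (v : V) (e : X) : K :=
  match at' v with
  | Sum.inr (Sum.inl e₀) => if e = e₀ then a else 0
  | _ => 0

theorem atom_split (at' : V → Y ⊕ X ⊕ K) (a : K) (v : V) (x : X → K) :
    MvPolynomial.C a * atomVal x (at' v) =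
      lamPart at' a v + MvPolynomial.C (cPart at' a v + ∑ e, βPart at' a v e * x e) := by
  classical
  simp only [lamPart, cPart, βPart]
  cases h : at' v with
  | inl y => simp [atomVal]
  | inr z =>
    cases z with
    | inl e₀ => simp [atomVal, ite_mul, Finset.sum_ite_eq']
    | inr c => simp [atomVal]

omit [Fintype V] [Fintype X] [DecidableEq X] in
theorem lamPart_hom (at' : V → Y ⊕ X ⊕ K) (a : K) (v : V) :
    (lamPart at' a v).IsHomogeneous 1 := by
  simp only [lamPart]
  cases at' v with
  | inl y => exact isHomogeneous_C_mul_X a y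
  | inr z => exact isHomogeneous_zero _ _ _

/-- Value of a bottom gate after substitution. -/
theorem bVal_evX (C : Circuit K V) (at' : V → Y ⊕ X ⊕ K) (x : X → K) (j : Fin C.nB) :
    evX at' x (C.bVal j) = botEv (fun j => ∑ v, lamPart at' (C.bCoeff j v) v)
      (fun j => C.bConst j + ∑ v, cPart at' (C.bCoeff j v) v)
      (fun j e => ∑ v, βPart at' (C.bCoeff j v) v e) x j := by
  have h1 : evX at' x (C.bVal j) = MvPolynomial.C (C.bConst j) +
      ∑ v, MvPolynomial.C (C.bCoeff j v) * atomVal x (at' v) := by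
    simp only [Circuit.bVal, map_add, map_sum, map_mul, evX, aeval_X, aeval_C,
      MvPolynomial.algebraMap_eq]
  have hk : (C.bConst j + ∑ v, cPart at' (C.bCoeff j v) v) +
      ∑ e, (∑ v, βPart at' (C.bCoeff j v) v e) * x e =
      C.bConst j + ∑ v, (cPart at' (C.bCoeff j v) v + ∑ e, βPart at' (C.bCoeff j v) v e * x e) := by
    rw [Finset.sum_add_distrib, ← add_assoc]
    congr 1
    simp only [Finset.sum_mul]
    exact Finset.sum_comm
  rw [h1]
  show _ = (∑ v, lamPart at' (C.bCoeff j v) v) + MvPolynomial.C ((C.bConst j + ∑ v, cPart at' (C.bCoeff j v) v) +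
      ∑ e, (∑ v, βPart at' (C.bCoeff j v) v e) * x e)
  rw [hk, map_add, map_sum]
  have h2 : ∀ v, MvPolynomial.C (C.bCoeff j v) * atomVal x (at' v) =
      lamPart at' (C.bCoeff j v) v + MvPolynomial.C (cPart at' (C.bCoeff j v) v +
        ∑ e, βPart at' (C.bCoeff j v) v e * x e) := fun v => atom_split at' _ v x
  simp only [h2, Finset.sum_add_distrib]
  ring

/-- Value of a lower gate after substitution. -/
theorem lVal_evX (C : Circuit K V) (at' : V → Y ⊕ X ⊕ K) (x : X → K) (i : Fin C.nL) :
    evX at' x (C.lVal i) = gateEv (fun j => ∑ v, lamPart at' (C.bCoeff j v) v)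
      (fun j => C.bConst j + ∑ v, cPart at' (C.bCoeff j v) v)
      (fun j e => ∑ v, βPart at' (C.bCoeff j v) v e) (C.lExp i) x := by
  classical
  simp only [Circuit.lVal, gateEv, map_prod, map_pow]
  exact Finset.prod_congr rfl fun j _ => by rw [bVal_evX]

section finite

variable [Fintype K]

/-- All middle gates have low functional degree coefficients outside a small bad set. -/
theorem exists_bad (C : Circuit K V) (at' : V → Y ⊕ X ⊕ K) {q : ℕ} (hq : Fintype.card K = q) (R : ℕ) :
    ∃ Bad : Finset (X → K),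
      (Bad.card : ℝ) ≤ C.nL * (Real.exp (-(R : ℝ) / (2 * q)) * (q : ℝ) ^ Fintype.card X) ∧
      ∀ j (v : Y →₀ ℕ), AgreeIn Bad (FD K X ((q - 1) * (2 * q * v.degree + R)))
        (fun x => coeff v (evX at' x (C.mVal j))) := by
  classical
  have hlam : ∀ j, (∑ v, lamPart at' (C.bCoeff j v) v).IsHomogeneous 1 := fun j =>
    IsHomogeneous.sum _ _ _ fun v _ => lamPart_hom at' _ v
  have hgate := fun i : Fin C.nL => gate_bound (Y := Y) hq
    (fun j => ∑ v, lamPart at' (C.bCoeff j v) v) hlam
    (fun j => C.bConst j + ∑ v, cPart at' (C.bCoeff j v) v)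
    (fun j e => ∑ v, βPart at' (C.bCoeff j v) v e) (C.lExp i) R
  choose BadI hBadI hI using hgate
  refine ⟨univ.biUnion BadI, ?_, ?_⟩
  · calc ((univ.biUnion BadI).card : ℝ) ≤ ((∑ i, (BadI i).card : ℕ) : ℝ) := by
          exact_mod_cast Finset.card_biUnion_le
      _ ≤ ∑ _i : Fin C.nL, (Real.exp (-(R : ℝ) / (2 * q)) * (q : ℝ) ^ Fintype.card X) := by
          push_cast
          exact Finset.sum_le_sum fun i _ => hBadI i
      _ = _ := by simp
  · intro j v
    choose h hh hhf using fun i => hI i v
    refine ⟨∑ i, C.mCoeff j i • h i, Submodule.sum_mem _ fun i _ => Submodule.smul_mem _ _ (hh i), ?_⟩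
    intro x hx
    simp only [Circuit.mVal, map_sum, map_mul, evX, aeval_C, MvPolynomial.algebraMap_eq, coeff_sum,
      coeff_C_mul, Finset.sum_apply, Pi.smul_apply, smul_eq_mul]
    refine Finset.sum_congr rfl fun i _ => ?_
    congr 1
    have := lVal_evX C at' x i
    simp only [evX] at this
    rw [this]
    apply hhf i x
    intro hmem
    exact hx (Finset.mem_biUnion.2 ⟨i, Finset.mem_univ _, hmem⟩)

end finite

/-- Gate values are homogeneous of their formal degree. -/
theorem bVal_hom (C : Circuit K V) {dB : Fin C.nB → ℕ}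
    (hB : ∀ j, (dB j = 0 ∧ ∀ v, C.bCoeff j v = 0) ∨ (dB j = 1 ∧ C.bConst j = 0)) (j : Fin C.nB) :
    (C.bVal j).IsHomogeneous (dB j) := by
  unfold Circuit.bVal
  rcases hB j with ⟨h0, h1⟩ | ⟨h0, h1⟩
  · rw [h0]
    simp only [h1, map_zero, zero_mul, Finset.sum_const_zero, add_zero]
    exact isHomogeneous_C _ _
  · rw [h0, h1, map_zero, zero_add]
    exact IsHomogeneous.sum _ _ _ fun v _ => isHomogeneous_C_mul_X _ _

theorem lVal_hom (C : Circuit K V) {dB : Fin C.nB → ℕ} {dL : Fin C.nL → ℕ}
    (hB : ∀ j, (dB j = 0 ∧ ∀ v, C.bCoeff j v = 0) ∨ (dB j = 1 ∧ C.bConst j = 0))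
    (hL : ∀ i, dL i = ∑ j, C.lExp i j * dB j) (i : Fin C.nL) :
    (C.lVal i).IsHomogeneous (dL i) := by
  unfold Circuit.lVal
  rw [hL]
  have := IsHomogeneous.prod (univ : Finset (Fin C.nB)) (fun j => C.bVal j ^ C.lExp i j)
    (fun j => C.lExp i j * dB j) (fun j _ => by
      have := (bVal_hom C hB j).pow (C.lExp i j)
      rwa [mul_comm] at this)
  exact this

theorem mVal_hom (C : Circuit K V) {dB : Fin C.nB → ℕ} {dL : Fin C.nL → ℕ} {dM : Fin C.nM → ℕ}
    (hB : ∀ j, (dB j = 0 ∧ ∀ v, C.bCoeff j v = 0) ∨ (dB j = 1 ∧ C.bConst j = 0))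
    (hL : ∀ i, dL i = ∑ j, C.lExp i j * dB j)
    (hM : ∀ i j, C.mCoeff i j ≠ 0 → dL j = dM i) (i : Fin C.nM) :
    (C.mVal i).IsHomogeneous (dM i) := by
  unfold Circuit.mVal
  apply IsHomogeneous.sum
  intro j _
  by_cases h : C.mCoeff i j = 0
  · rw [h, map_zero, zero_mul]
    exact isHomogeneous_zero _ _ _
  · rw [← hM i j h]
    exact (lVal_hom C hB hL j).C_mul _

theorem tVal_hom (C : Circuit K V) {dB : Fin C.nB → ℕ} {dL : Fin C.nL → ℕ} {dM : Fin C.nM → ℕ}
    {dT : Fin C.nT → ℕ}
    (hB : ∀ j, (dB j = 0 ∧ ∀ v, C.bCoeff j v = 0) ∨ (dB j = 1 ∧ C.bConst j = 0))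
    (hL : ∀ i, dL i = ∑ j, C.lExp i j * dB j)
    (hM : ∀ i j, C.mCoeff i j ≠ 0 → dL j = dM i)
    (hT : ∀ i, dT i = ∑ j, C.tExp i j * dM j) (i : Fin C.nT) :
    (C.tVal i).IsHomogeneous (dT i) := by
  unfold Circuit.tVal
  rw [hT]
  have := IsHomogeneous.prod (univ : Finset (Fin C.nM)) (fun j => C.mVal j ^ C.tExp i j)
    (fun j => C.tExp i j * dM j) (fun j _ => by
      have := (mVal_hom C hB hL hM j).pow (C.tExp i j)
      rwa [mul_comm] at this)
  exact this

/-- A middle gate of formal degree zero computes a constant. -/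
theorem mVal_const (C : Circuit K V) {dB : Fin C.nB → ℕ} {dL : Fin C.nL → ℕ} {dM : Fin C.nM → ℕ}
    (hB : ∀ j, (dB j = 0 ∧ ∀ v, C.bCoeff j v = 0) ∨ (dB j = 1 ∧ C.bConst j = 0))
    (hL : ∀ i, dL i = ∑ j, C.lExp i j * dB j)
    (hM : ∀ i j, C.mCoeff i j ≠ 0 → dL j = dM i) (i : Fin C.nM) (h0 : dM i = 0) :
    ∃ c : K, C.mVal i = MvPolynomial.C c := by
  classical
  have hlow : ∀ j, C.mCoeff i j ≠ 0 → ∃ c : K, C.lVal j = MvPolynomial.C c := by
    intro j hj
    have hd : dL j = 0 := by rw [hM i j hj, h0]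
    rw [hL j] at hd
    have h1 : ∀ b, C.lExp j b ≠ 0 → dB b = 0 := by
      intro b hb
      have := (Finset.sum_eq_zero_iff.1 hd) b (Finset.mem_univ b)
      exact (Nat.mul_eq_zero.1 this).resolve_left hb
    refine ⟨∏ b, C.bConst b ^ C.lExp j b, ?_⟩
    simp only [Circuit.lVal, map_prod, map_pow]
    refine Finset.prod_congr rfl fun b _ => ?_
    by_cases hb : C.lExp j b = 0
    · simp [hb]
    · congr 1
      have hdB := h1 b hb
      rcases hB b with ⟨_, h2⟩ | ⟨h2, _⟩
      · simp [Circuit.bVal, h2]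
      · omega
  choose! cc hcc using hlow
  refine ⟨∑ j, C.mCoeff i j * cc j, ?_⟩
  simp only [Circuit.mVal, map_sum, map_mul]
  refine Finset.sum_congr rfl fun j _ => ?_
  by_cases h : C.mCoeff i j = 0
  · simp [h]
  · rw [hcc j h]

/-- Turning exponents into a list. -/
theorem list_prod_replicate {α β : Type*} [CommMonoid β] (s : Finset α) (e : α → ℕ) (g : α → β) :
    ((s.toList.flatMap fun j => List.replicate (e j) j).map g).prod = ∏ j ∈ s, g j ^ e j := by
  rw [← Finset.prod_map_toList]
  induction s.toList with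
  | nil => simp
  | cons a l ih =>
    simp only [List.flatMap_cons, List.map_append, List.prod_append, List.map_replicate,
      List.prod_replicate, List.map_cons, List.prod_cons, ih]

theorem list_length_replicate {α : Type*} (s : Finset α) (e : α → ℕ) :
    (s.toList.flatMap fun j => List.replicate (e j) j).length = ∑ j ∈ s, e j := by
  rw [← Finset.sum_map_toList]
  induction s.toList with
  | nil => simp
  | cons a l ih =>
    simp only [List.flatMap_cons, List.length_append, List.length_replicate, List.map_cons,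
      List.sum_cons, ih]

/-- Normal form of the output of a homogeneous circuit of output degree `n`. -/
theorem top_normal_form (C : Circuit K V) (hC : C.IsSynHomog) (n : ℕ)
    (hdeg : C.output.IsHomogeneous n) (hne : C.output ≠ 0) :
    ∃ (L : Fin C.nT → List (Fin C.nM)) (γ : Fin C.nT → K), (∀ i, (L i).length ≤ n) ∧
      ∀ (R : Type _) [CommRing R] [Algebra K R] (e : MvPolynomial V K →ₐ[K] R),
        e C.output = ∑ i, algebraMap K R (γ i) * ((L i).map fun j => e (C.mVal j)).prod := by
  classical
  obtain ⟨dB, dL, dM, dT, Δ, hB, hL, hM, hT, hO⟩ := hC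
  -- the output degree
  have hΔ : C.output.IsHomogeneous Δ := by
    unfold Circuit.output
    apply IsHomogeneous.sum
    intro i _
    by_cases h : C.oCoeff i = 0
    · rw [h, map_zero, zero_mul]
      exact isHomogeneous_zero _ _ _
    · rw [← hO i h]
      exact (tVal_hom C hB hL hM hT i).C_mul _
  have hΔn : Δ = n := hΔ.inj_right hdeg hne
  have hconst : ∀ j, dM j = 0 → ∃ c : K, C.mVal j = MvPolynomial.C c :=
    fun j h => mVal_const C hB hL hM j h
  choose! cc hcc using hconst
  let S : Finset (Fin C.nM) := univ.filter fun j => dM j ≠ 0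
  let L : Fin C.nT → List (Fin C.nM) := fun i =>
    if C.oCoeff i = 0 then [] else S.toList.flatMap fun j => List.replicate (C.tExp i j) j
  let γ : Fin C.nT → K := fun i =>
    C.oCoeff i * ∏ j ∈ univ.filter (fun j => dM j = 0), cc j ^ C.tExp i j
  refine ⟨L, γ, ?_, ?_⟩
  · intro i
    simp only [L]
    split_ifs with h
    · simp
    · rw [list_length_replicate]
      have h1 := hO i h
      rw [hT i, hΔn] at h1
      rw [← h1]
      calc ∑ j ∈ S, C.tExp i j ≤ ∑ j ∈ S, C.tExp i j * dM j := by
            apply Finset.sum_le_sum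
            intro j hj
            have : dM j ≠ 0 := (Finset.mem_filter.1 hj).2
            exact Nat.le_mul_of_pos_right _ (by omega)
        _ ≤ ∑ j, C.tExp i j * dM j :=
            Finset.sum_le_sum_of_subset (Finset.subset_univ _)
  · intro R _ _ e
    unfold Circuit.output
    rw [map_sum]
    refine Finset.sum_congr rfl fun i _ => ?_
    by_cases h : C.oCoeff i = 0
    · simp [γ, h]
    · have hC : ∀ c : K, e (MvPolynomial.C c) = algebraMap K R c := by
        intro c
        have := e.commutes c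
        rwa [MvPolynomial.algebraMap_eq] at this
      have h1 : e (C.tVal i) = (∏ j ∈ univ.filter (fun j => dM j = 0),
          algebraMap K R (cc j) ^ C.tExp i j) * ∏ j ∈ S, e (C.mVal j) ^ C.tExp i j := by
        unfold Circuit.tVal
        rw [map_prod]
        simp only [map_pow]
        rw [← Finset.prod_filter_mul_prod_filter_not univ (fun j => dM j = 0)]
        congr 1
        · refine Finset.prod_congr rfl fun j hj => ?_
          have : dM j = 0 := (Finset.mem_filter.1 hj).2
          rw [hcc j this, hC]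
      simp only [L, if_neg h, γ]
      rw [list_prod_replicate, map_mul, h1, hC, map_mul, map_prod]
      simp only [map_pow]
      ring

end Vale.Agent.Lib.P346
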