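import Mathlib
import Vale.Agent.Lib.P346.Normal
import Vale.Agent.Lib.P346.Cover2

/-!
Projection of `IMM_{n,n}` to the product of sums of path polynomials.
-/

namespace Vale.Agent.Lib.P346.S

open Finset MvPolynomial
open scoped Matrix

variable {K : Type*} [Field K]
variable {k g t w D : ℕ}

/-- Vertices of the projected branching program: a hub and one copy of `VV w D` for each `b`. -/
abbrev Vert (g w D : ℕ) := Option (Fin g × VV w D)

/-- The `Y` variables: a segment, a copy and a start vertex in that copy. -/
abbrev YY (k g w D : ℕ) := Fin k × (Fin g × VV w D)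

/-- Atoms of the projection. -/
abbrev Atom (K : Type*) (k g t w D : ℕ) := YY k g w D ⊕ XX k g t D (VV w D) ⊕ K

/-- The constant atom. -/
def aC (c : K) : Atom K k g t w D := Sum.inr (Sum.inr c)

/-- Layer from the hub to the start vertices. -/
def hubM (i : Fin k) : Vert g w D → Vert g w D → Atom K k g t w D
  | none, some p => Sum.inl (i, p)
  | _, _ => aC 0

/-- Layer of edges. -/
def edgeM (i : Fin k) (j : Fin t) (f₀ : F1 w D) : Vert g w D → Vert g w D → Atom K k g t w D
  | some (b, a), some (b', a') =>
    if b = b' ∧ a'.1 = f₀ a a'.2 then Sum.inr (Sum.inl ((i, b), (j, (a, a'.2)))) else aC 0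
  | _, _ => aC 0

/-- Layer from all vertices back to the hub. -/
def endM : Vert g w D → Vert g w D → Atom K k g t w D
  | some _, none => aC 1
  | _, _ => aC 0

/-- Padding layer. -/
def padM : Vert g w D → Vert g w D → Atom K k g t w D
  | none, none => aC 1
  | _, _ => aC 0

/-- The layers of one segment. -/
def segL (f : Fin t → F1 w D) (i : Fin k) :
    List (Vert g w D → Vert g w D → Atom K k g t w D) :=
  hubM i :: (List.ofFn fun j : Fin t => edgeM i j (f j)) ++ [endM]

/-- Value matrix of an atom matrix. -/
noncomputable def vm (x : XX k g t D (VV w D) → K) (A : Vert g w D → Vert g w D → Atom K k g t w D) :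
    Matrix (Vert g w D) (Vert g w D) (MvPolynomial (YY k g w D) K) :=
  Matrix.of fun v v' => atomVal x (A v v')

@[simp] theorem atomVal_aC (x : XX k g t D (VV w D) → K) (c : K) :
    atomVal (Y := YY k g w D) x (aC c : Atom K k g t w D) = MvPolynomial.C c := rfl

/-- Basis vector at the hub. -/
noncomputable def eHub : Vert g w D → MvPolynomial (YY k g w D) K
  | none => 1
  | some _ => 0

/-- The value matrix of an edge layer. -/
noncomputable def Bm (f₀ : F1 w D) (y₀ : Fin g → VV w D → Fin D → K) :
    Matrix (Vert g w D) (Vert g w D) (MvPolynomial (YY k g w D) K) :=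
  Matrix.of fun v v' =>
    match v, v' with
    | some (b, a), some (b', a') =>
      if b = b' ∧ a'.1 = f₀ a a'.2 then MvPolynomial.C (y₀ b a a'.2) else 0
    | _, _ => 0

theorem vm_edgeM (x : XX k g t D (VV w D) → K) (i : Fin k) (j : Fin t) (f₀ : F1 w D) :
    vm x (edgeM i j f₀) =
      (Bm f₀ (fun b a l => x ((i, b), (j, (a, l)))) :
        Matrix (Vert g w D) (Vert g w D) (MvPolynomial (YY k g w D) K)) := by
  ext1 v v'
  rcases v with _ | ⟨b, a⟩ <;> rcases v' with _ | ⟨b', a'⟩
  · simp [vm, edgeM, Bm]
  · simp [vm, edgeM, Bm]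
  · simp [vm, edgeM, Bm]
  · simp only [vm, edgeM, Bm, Matrix.of_apply]
    split_ifs
    · rfl
    · simp

theorem Bm_mulVec_none (f₀ : F1 w D) (y₀ : Fin g → VV w D → Fin D → K)
    (u : Vert g w D → MvPolynomial (YY k g w D) K) :
    (Bm f₀ y₀ *ᵥ u) none = 0 := by
  simp [Matrix.mulVec, dotProduct, Bm]

theorem Bm_mulVec_some [Fintype K] (f₀ : F1 w D) (y₀ : Fin g → VV w D → Fin D → K)
    (u : Vert g w D → MvPolynomial (YY k g w D) K) (b : Fin g) (a : VV w D) :
    (Bm f₀ y₀ *ᵥ u) (some (b, a)) =
      ∑ l, MvPolynomial.C (y₀ b a l) * u (some (b, (f₀ a l, l))) := by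
  classical
  simp only [Matrix.mulVec, dotProduct, Bm, Matrix.of_apply]
  rw [Fintype.sum_option]
  simp only [zero_mul, zero_add]
  rw [Fintype.sum_prod_type, Finset.sum_eq_single b]
  · rw [Fintype.sum_prod_type, Finset.sum_comm]
    refine Finset.sum_congr rfl fun l _ => ?_
    rw [Finset.sum_eq_single (f₀ a l)]
    · simp
    · intro c _ hc
      simp [hc]
    · simp
  · intro b' _ hb'
    apply Finset.sum_eq_zero
    intro a' _
    simp [Ne.symm hb']
  · simp

/-- The vector obtained after the edge layers. -/
noncomputable def wv (r : ℕ) (f : Fin r → F1 w D) (y : Fin r → Fin g → VV w D → Fin D → K) :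
    Vert g w D → MvPolynomial (YY k g w D) K
  | none => 0
  | some (b, a) => MvPolynomial.C (pathVal r (hd f) (fun j => y j b) a)

/-- The edge layers applied to the vector which is one away from the hub. -/
theorem edge_layers [Fintype K] : ∀ (r : ℕ) (f : Fin r → F1 w D)
    (y : Fin r → Fin g → VV w D → Fin D → K),
    ((List.ofFn fun j : Fin r => (Bm (f j) (y j) :
        Matrix (Vert g w D) (Vert g w D) (MvPolynomial (YY k g w D) K))).prod) *ᵥ
      (wv (k := k) 0 Fin.elim0 Fin.elim0) = wv r f y := by
  intro r
  induction r with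
  | zero =>
    intro f y
    funext v
    rcases v with _ | ⟨b, a⟩
    · simp [wv]
    · simp [wv, pathVal]
  | succ r ih =>
    intro f y
    rw [List.ofFn_succ, List.prod_cons, ← Matrix.mulVec_mulVec]
    have h := ih (Fin.tail f) (Fin.tail y)
    have e1 : (fun j : Fin r => (Bm (f j.succ) (y j.succ) :
        Matrix (Vert g w D) (Vert g w D) (MvPolynomial (YY k g w D) K))) =
        fun j : Fin r => Bm (Fin.tail f j) (Fin.tail y j) := rfl
    rw [e1, h]
    funext v
    rcases v with _ | ⟨b, a⟩
    · rw [Bm_mulVec_none]
      rfl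
    · rw [Bm_mulVec_some]
      simp only [wv, pathVal, map_sum, map_mul]
      rfl

/-- The end layer. -/
theorem endM_mulVec (x : XX k g t D (VV w D) → K) :
    vm x (endM : Vert g w D → Vert g w D → Atom K k g t w D) *ᵥ eHub =
      wv (k := k) 0 Fin.elim0 Fin.elim0 := by
  classical
  funext v
  simp only [Matrix.mulVec, dotProduct, vm, Matrix.of_apply]
  rw [Fintype.sum_option]
  rcases v with _ | ⟨b, a⟩
  · simp [endM, eHub, wv]
  · simp [endM, eHub, wv, pathVal]

/-- The hub layer. -/
theorem hubM_mulVec [Fintype K] (x : XX k g t D (VV w D) → K) (i : Fin k)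
    (u : Vert g w D → MvPolynomial (YY k g w D) K) :
    vm x (hubM i : Vert g w D → Vert g w D → Atom K k g t w D) *ᵥ u =
      fun v => match v with
        | none => ∑ p, MvPolynomial.X (i, p) * u (some p)
        | some _ => 0 := by
  classical
  funext v
  simp only [Matrix.mulVec, dotProduct, vm, Matrix.of_apply]
  rw [Fintype.sum_option]
  rcases v with _ | ⟨b, a⟩
  · simp only [hubM, atomVal_aC, map_zero, zero_mul, zero_add]
    refine Finset.sum_congr rfl fun p _ => ?_
    simp [atomVal]
  · simp [hubM]

/-- The value of one segment on the basis vector at the hub. -/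
noncomputable def Sc [Fintype K] (x : XX k g t D (VV w D) → K)
    (f : Fin t → F1 w D) (i : Fin k) : MvPolynomial (YY k g w D) K :=
  ∑ p : Fin g × VV w D, MvPolynomial.X (i, p) * MvPolynomial.C (pathVal t (hd f) (sliceX x i p.1) p.2)

theorem seg_mulVec [Fintype K] (x : XX k g t D (VV w D) → K)
    (f : Fin t → F1 w D) (i : Fin k) :
    (((segL (K := K) (g := g) f i).map (vm x)).prod) *ᵥ eHub = Sc x f i • eHub := by
  have hlist : (segL (K := K) (g := g) f i).map (vm x) =
      vm x (hubM i) :: (List.ofFn fun j : Fin t =>
        (Bm (f j) (fun b a l => x ((i, b), (j, (a, l)))) :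
          Matrix (Vert g w D) (Vert g w D) (MvPolynomial (YY k g w D) K))) ++ [vm x endM] := by
    simp only [segL, List.map_cons, List.map_append, List.map_ofFn, List.cons_append]
    congr 2
    · apply congrArg
      funext j
      exact vm_edgeM x i j (f j)
  rw [hlist]
  simp only [List.cons_append, List.prod_cons, List.prod_append, List.prod_nil, mul_one]
  rw [← Matrix.mulVec_mulVec, ← Matrix.mulVec_mulVec, endM_mulVec]
  rw [edge_layers t f (fun j b a l => x ((i, b), (j, (a, l))))]
  rw [hubM_mulVec]
  funext v
  rcases v with _ | ⟨b, a⟩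
  · simp only [eHub, wv, Pi.smul_apply, smul_eq_mul, mul_one, Sc]
    rfl
  · simp [eHub]

/-- Several segments. -/
theorem segs_mulVec [Fintype K] (x : XX k g t D (VV w D) → K)
    (f : Fin t → F1 w D) (Is : List (Fin k)) :
    (((Is.flatMap (segL (K := K) (g := g) f)).map (vm x)).prod) *ᵥ eHub =
      ((Is.map (Sc x f)).prod) • eHub := by
  induction Is with
  | nil =>
    simp
  | cons i Is ih =>
    simp only [List.flatMap_cons, List.map_append, List.prod_append, List.map_cons, List.prod_cons]
    rw [← Matrix.mulVec_mulVec, ih, Matrix.mulVec_smul, seg_mulVec, smul_smul, mul_comm]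

theorem pad_mulVec (x : XX k g t D (VV w D) → K) (p : ℕ) :
    ((List.replicate p (padM : Vert g w D → Vert g w D → Atom K k g t w D)).map (vm x)).prod *ᵥ eHub
      = (eHub : Vert g w D → MvPolynomial (YY k g w D) K) := by
  classical
  induction p with
  | zero => simp
  | succ p ih =>
    rw [List.replicate_succ, List.map_cons, List.prod_cons, ← Matrix.mulVec_mulVec, ih]
    funext v
    simp only [Matrix.mulVec, dotProduct, vm, Matrix.of_apply]
    rw [Fintype.sum_option]
    rcases v with _ | ⟨b, a⟩ <;> simp [padM, eHub]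

/-- The full list of layers. -/
def allL (f : Fin t → F1 w D) (p : ℕ) :
    List (Vert g w D → Vert g w D → Atom K k g t w D) :=
  (List.finRange k).flatMap (segL f) ++ List.replicate p padM

theorem segL_length (f : Fin t → F1 w D) (i : Fin k) :
    (segL (K := K) (g := g) f i).length = t + 2 := by
  simp [segL]

theorem flatMap_length (f : Fin t → F1 w D) (Is : List (Fin k)) :
    (Is.flatMap (segL (K := K) (g := g) f)).length = Is.length * (t + 2) := by
  induction Is with
  | nil => simp
  | cons i Is ih =>
    simp only [List.flatMap_cons, List.length_append, ih, segL_length, List.length_cons]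
    ring

theorem allL_length (f : Fin t → F1 w D) (p : ℕ) :
    (allL (K := K) (g := g) (k := k) f p).length = k * (t + 2) + p := by
  rw [allL, List.length_append, flatMap_length, List.length_replicate, List.length_finRange]

/-- The product of all layers, at the hub. -/
theorem allL_prod [Fintype K] (x : XX k g t D (VV w D) → K) (f : Fin t → F1 w D)
    (p : ℕ) :
    ((allL (K := K) (g := g) (k := k) f p).map (vm x)).prod none none =
      ∏ i, Sc x f i := by
  have h := congrFun (show (((allL (K := K) (g := g) (k := k) f p).map (vm x)).prod) *ᵥ eHub = _ by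
    simp only [allL, List.map_append, List.prod_append]
    rw [← Matrix.mulVec_mulVec, pad_mulVec, segs_mulVec]) none
  have h1 : ∀ A : Matrix (Vert g w D) (Vert g w D) (MvPolynomial (YY k g w D) K),
      (A *ᵥ eHub) none = A none none := by
    intro A
    classical
    simp only [Matrix.mulVec, dotProduct]
    rw [Fintype.sum_option]
    simp [eHub]
  rw [h1] at h
  rw [h]
  simp only [Pi.smul_apply, eHub, smul_eq_mul, mul_one]
  rw [Fin.prod_univ_def]

section extension

variable {n : ℕ}

open scoped Classical in
/-- Extension of an atom matrix along the embedding `ι` of the vertices. -/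
noncomputable def extA (ι : Vert g w D → Fin n)
    (A : Vert g w D → Vert g w D → Atom K k g t w D) (a b : Fin n) : Atom K k g t w D :=
  if h : ∃ v v', ι v = a ∧ ι v' = b then A h.choose h.choose_spec.choose else aC 0

theorem extA_apply {ι : Vert g w D → Fin n} (hι : Function.Injective ι)
    (A : Vert g w D → Vert g w D → Atom K k g t w D) (v v' : Vert g w D) :
    extA ι A (ι v) (ι v') = A v v' := by
  have h : ∃ v₁ v₂, ι v₁ = ι v ∧ ι v₂ = ι v' := ⟨v, v', rfl, rfl⟩
  rw [extA, dif_pos h]
  have h1 := h.choose_spec.choose_spec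
  exact congr (congrArg A (hι h1.1)) (hι h1.2)

theorem extA_other {ι : Vert g w D → Fin n}
    (A : Vert g w D → Vert g w D → Atom K k g t w D) (a b : Fin n)
    (h : ¬ ∃ v v', ι v = a ∧ ι v' = b) : extA ι A a b = aC 0 := by
  rw [extA, dif_neg h]

/-- Value matrix of an extended atom matrix. -/
noncomputable def extm (x : XX k g t D (VV w D) → K) (ι : Vert g w D → Fin n)
    (A : Vert g w D → Vert g w D → Atom K k g t w D) :
    Matrix (Fin n) (Fin n) (MvPolynomial (YY k g w D) K) :=
  Matrix.of fun a b => atomVal x (extA ι A a b)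

theorem extm_prod (x : XX k g t D (VV w D) → K) {ι : Vert g w D → Fin n}
    (hι : Function.Injective ι) (L : List (Vert g w D → Vert g w D → Atom K k g t w D)) :
    ∀ v v', (L.map (extm x ι)).prod (ι v) (ι v') = (L.map (vm x)).prod v v' := by
  classical
  induction L with
  | nil =>
    intro v v'
    simp only [List.map_nil, List.prod_nil, Matrix.one_apply, hι.eq_iff]
  | cons A L ih =>
    intro v v'
    simp only [List.map_cons, List.prod_cons, Matrix.mul_apply]
    symm
    apply Fintype.sum_of_injective ι hι
    · intro c hc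
      have : ¬ ∃ v₁ v₂, ι v₁ = ι v ∧ ι v₂ = c := by
        rintro ⟨_, v₂, _, h2⟩
        exact hc ⟨v₂, h2⟩
      simp [extm, extA_other A _ _ this]
    · intro u
      rw [ih]
      simp only [extm, Matrix.of_apply, extA_apply hι, vm]

theorem ofFn_get_map {α β : Type*} (Lst : List α) (n : ℕ) (hL : Lst.length = n) (G : α → β) :
    List.ofFn (fun l : Fin n => G (Lst.get (l.cast hL.symm))) = Lst.map G := by
  subst hL
  simp only [Fin.cast_eq_self]
  have e : (fun l : Fin Lst.length => G (Lst.get l)) = G ∘ Lst.get := rfl
  rw [e, ← List.map_ofFn, List.ofFn_get]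

/-- The assignment of atoms to the variables of `IMM`. -/
noncomputable def atMap (ι : Vert g w D → Fin n)
    (Lst : List (Vert g w D → Vert g w D → Atom K k g t w D)) (hL : Lst.length = n) :
    Fin n × Fin n × Fin n → Atom K k g t w D :=
  fun z => extA ι (Lst.get (z.1.cast hL.symm)) z.2.1 z.2.2

variable [NeZero n]

/-- The projection of `IMM_{n,n}`. -/
theorem imm_projection [Fintype K] (x : XX k g t D (VV w D) → K) {ι : Vert g w D → Fin n}
    (hι : Function.Injective ι) (hι0 : ι none = 0) (f : Fin t → F1 w D) (p : ℕ)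
    (hL : (allL (K := K) (g := g) (k := k) f p).length = n) :
    evX (atMap ι _ hL) x (imm K n n) = ∏ i, Sc x f i := by
  classical
  rw [← allL_prod x f p, ← extm_prod x hι, hι0, ← ofFn_get_map _ n hL]
  unfold imm
  have hφ : ∀ P : Matrix (Fin n) (Fin n) (MvPolynomial (Fin n × Fin n × Fin n) K), ∀ a b,
      evX (atMap ι _ hL) x (P a b) =
        ((evX (atMap ι _ hL) x).toRingHom.mapMatrix P) a b := fun P a b => rfl
  rw [hφ, map_list_prod, List.map_ofFn]
  have e : (⇑(evX (atMap ι _ hL) x).toRingHom.mapMatrix ∘ fun l : Fin n =>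
      (Matrix.of fun a b => X (l, a, b) :
        Matrix (Fin n) (Fin n) (MvPolynomial (Fin n × Fin n × Fin n) K))) =
      fun l => extm x ι ((allL (K := K) (g := g) (k := k) f p).get (l.cast hL.symm)) := by
    funext l
    ext1 a b
    simp [evX, atMap, extm, Function.comp]
  rw [e]

end extension

/-- The monomial exponent of a selection of copies. -/
noncomputable def uuY (bb : Fin k → Fin g × VV w D) : YY k g w D →₀ ℕ :=
  ∑ i, Finsupp.single (i, bb i) 1

theorem uuY_degree (bb : Fin k → Fin g × VV w D) : (uuY bb).degree = k := by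
  simp [uuY, map_sum]

theorem uuY_apply (bb : Fin k → Fin g × VV w D) (i : Fin k) (b : Fin g × VV w D) :
    uuY bb (i, b) = if bb i = b then 1 else 0 := by
  classical
  simp only [uuY, Finsupp.finsetSum_apply, Finsupp.single_apply, Prod.mk.injEq]
  rw [Finset.sum_eq_single i]
  · simp
  · intro i' _ hi'
    simp [hi']
  · simp

theorem uuY_injective : Function.Injective (uuY (k := k) (g := g) (w := w) (D := D)) := by
  intro bb bb' h
  funext i
  have h1 := uuY_apply bb i (bb i)
  rw [h, uuY_apply] at h1
  simp only [if_true] at h1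
  by_contra hne
  rw [if_neg (Ne.symm hne)] at h1
  exact absurd h1 (by norm_num)

theorem prod_monomial_eq {σ ι' : Type*} [DecidableEq ι'] (s : Finset ι') (d : ι' → σ →₀ ℕ) (c : ι' → K) :
    ∏ i ∈ s, monomial (d i) (c i) = monomial (∑ i ∈ s, d i) (∏ i ∈ s, c i) := by
  induction s using Finset.induction_on with
  | empty => simp
  | insert a s ha ih =>
    rw [Finset.prod_insert ha, ih, monomial_mul, Finset.sum_insert ha, Finset.prod_insert ha]

/-- Coefficient extraction from the product of the segment values. -/
theorem coeff_prod_Sc [Fintype K] (x : XX k g t D (VV w D) → K) (f : Fin t → F1 w D)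
    (bb : Fin k → Fin g × VV w D) :
    coeff (uuY bb) (∏ i, Sc x f i) = PhiB (hd f) x bb := by
  classical
  simp only [Sc]
  have h1 := Finset.prod_univ_sum (fun _ : Fin k => (univ : Finset (Fin g × VV w D)))
    (fun i p => MvPolynomial.X (i, p) * MvPolynomial.C (pathVal t (hd f) (sliceX x i p.1) p.2) :
      Fin k → Fin g × VV w D → MvPolynomial (YY k g w D) K)
  rw [Fintype.piFinset_univ] at h1
  rw [h1]
  have h2 : ∀ bb' : Fin k → Fin g × VV w D,
      ∏ i, (MvPolynomial.X (i, bb' i) *
        MvPolynomial.C (pathVal t (hd f) (sliceX x i (bb' i).1) (bb' i).2) :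
        MvPolynomial (YY k g w D) K) =
      monomial (uuY bb') (∏ i, pathVal t (hd f) (sliceX x i (bb' i).1) (bb' i).2) := by
    intro bb'
    have h3 : ∀ i, (MvPolynomial.X (i, bb' i) *
        MvPolynomial.C (pathVal t (hd f) (sliceX x i (bb' i).1) (bb' i).2) :
        MvPolynomial (YY k g w D) K) =
        monomial (Finsupp.single (i, bb' i) 1)
          (pathVal t (hd f) (sliceX x i (bb' i).1) (bb' i).2) := by
      intro i
      rw [mul_comm, MvPolynomial.X, C_mul_monomial, mul_one]
    simp only [h3]
    rw [prod_monomial_eq]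
    rfl
  simp only [h2, coeff_sum, coeff_monomial]
  rw [Finset.sum_eq_single bb]
  · simp [PhiB]
  · intro b' _ hb'
    rw [if_neg]
    intro h
    exact hb' (uuY_injective h)
  · simp

section immprops

/-- Entries of products of matrices with linear entries are homogeneous. -/
theorem list_prod_hom {n : ℕ} {σ : Type*} (L : List (Matrix (Fin n) (Fin n) (MvPolynomial σ K))) :
    (∀ M ∈ L, ∀ a b, (M a b).IsHomogeneous 1) → ∀ a b, (L.prod a b).IsHomogeneous L.length := by
  classical
  induction L with
  | nil =>
    intro _ a b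
    simp only [List.prod_nil, Matrix.one_apply, List.length_nil]
    split_ifs
    · exact isHomogeneous_one _ _
    · exact isHomogeneous_zero _ _ _
  | cons M L ih =>
    intro hL a b
    simp only [List.prod_cons, Matrix.mul_apply, List.length_cons]
    apply IsHomogeneous.sum
    intro c _
    rw [add_comm]
    exact (hL M (List.mem_cons_self) a c).mul (ih (fun M' hM' => hL M' (List.mem_cons_of_mem _ hM')) c b)

theorem imm_hom (n d : ℕ) [NeZero n] : (imm K n d).IsHomogeneous d := by
  unfold imm
  have := list_prod_hom (List.ofFn fun l : Fin d =>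
    (Matrix.of fun a b => X (l, a, b) :
      Matrix (Fin n) (Fin n) (MvPolynomial (Fin d × Fin n × Fin n) K))) (by
      intro M hM a b
      obtain ⟨l, rfl⟩ := (List.mem_ofFn' _ _).1 hM
      exact isHomogeneous_X _ _) 0 0
  simpa using this

theorem imm_ne_zero (n d : ℕ) [NeZero n] : imm K n d ≠ 0 := by
  classical
  intro h0
  let p : Fin d × Fin n × Fin n → K := fun z => if z.2.1 = 0 ∧ z.2.2 = 0 then 1 else 0
  let E : Matrix (Fin n) (Fin n) K := Matrix.of fun a b => if a = 0 ∧ b = 0 then 1 else 0
  have hrep : ∀ m : ℕ, (List.replicate m E).prod 0 0 = 1 := by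
    intro m
    induction m with
    | zero => simp
    | succ m ih =>
      rw [List.replicate_succ, List.prod_cons, Matrix.mul_apply, Finset.sum_eq_single 0]
      · simp [E, ih]
      · intro c _ hc
        simp [E, hc]
      · simp
  have h1 := congrArg (eval p) h0
  rw [map_zero] at h1
  unfold imm at h1
  have hφ : ∀ P : Matrix (Fin n) (Fin n) (MvPolynomial (Fin d × Fin n × Fin n) K), ∀ a b,
      eval p (P a b) = ((eval p).mapMatrix P) a b := fun P a b => rfl
  rw [hφ, map_list_prod, List.map_ofFn] at h1
  have h2 : ((eval p).mapMatrix ∘ fun l : Fin d =>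
      (Matrix.of fun a b => X (l, a, b) :
        Matrix (Fin n) (Fin n) (MvPolynomial (Fin d × Fin n × Fin n) K))) = fun _ => E := by
    funext l
    ext a b
    simp [p, E]
  rw [h2, List.ofFn_const, hrep] at h1
  exact one_ne_zero h1

end immprops

end Vale.Agent.Lib.P346.S
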