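import Mathlib
import Vale.Agent.Lib.P346.Embed2

/-!
Assembly: the basic inequality for a circuit computing `IMM_{n,n}`.
-/

namespace Vale.Agent.Lib.P346.S

open Finset MvPolynomial

variable {K : Type*} [Field K] [Fintype K]

/-- An embedding of the vertices into `Fin n` sending the hub to `0`. -/
theorem exists_embedding (g w D n : ℕ) [NeZero n] (hwidth : 1 + g * (w * D) ≤ n) :
    ∃ ι : Vert g w D → Fin n, Function.Injective ι ∧ ι none = 0 := by
  classical
  have hcard : Fintype.card (Fin g × VV w D) = g * (w * D) := by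
    simp
  let e : Fin g × VV w D ≃ Fin (g * (w * D)) := Fintype.equivFinOfCardEq hcard
  let ι : Vert g w D → Fin n := fun v => match v with
    | none => 0
    | some z => ⟨(e z : ℕ) + 1, by have := (e z).2; omega⟩
  refine ⟨ι, ?_, rfl⟩
  have hn : 0 < n := Nat.pos_of_ne_zero (NeZero.ne n)
  intro v v' h
  rcases v with _ | z <;> rcases v' with _ | z'
  · rfl
  · exfalso
    have := congrArg Fin.val h
    simp [ι] at this
  · exfalso
    have := congrArg Fin.val h
    simp [ι] at this
  · have := congrArg Fin.val h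
    simp only [ι] at this
    have h2 : (e z : ℕ) = e z' := by omega
    rw [e.injective (Fin.ext h2)]

open scoped Classical in
/-- The basic inequality. -/
theorem basic_ineq {q : ℕ} (hq : Fintype.card K = q) {n k g t w D : ℕ} [NeZero n] (p R κ' : ℕ)
    (hlen : k * (t + 2) + p = n) (hwidth : 1 + g * (w * D) ≤ n) (hg : 0 < g) (hD : 0 < D)
    (hκ : κ' + (q - 1) * (2 * q + R) * k = k * t)
    (C : Circuit K (Fin n × Fin n × Fin n)) (hC : C.IsSynHomog) (hout : C.output = imm K n n)
    {θ : ℝ} (hθ0 : 0 < θ) (hθ1 : θ < 1) (f : Fin t → F1 w D) (a₀ : VV w D) {ψ₀ : ℝ}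
    (hψ : ψ₀ ≤ ∑ ω : Fin t → VV w D → Fin D → Fin q, pw (pw (pw (nuθ q θ))) ω *
        (if ∃ a, ∃ π, ValidPath t (hd f) ω a π then 1 else 0)) (hψ₁ : ψ₀ ≤ 1) :
    1 - k * (1 - ψ₀) ^ g ≤ C.nL * Real.exp (-(R : ℝ) / (2 * q)) + C.nT * Bsum n k * θ ^ κ' := by
  have hq0 : 0 < q := hq ▸ Fintype.card_pos
  have hq' : (0 : ℝ) < q := by exact_mod_cast hq0
  obtain ⟨ι, hι, hι0⟩ := exists_embedding g w D n hwidth
  have hL : (allL (K := K) (g := g) (k := k) f p).length = n := by
    rw [allL_length, hlen]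
  let at' := atMap ι (allL (K := K) (g := g) (k := k) f p) hL
  obtain ⟨Bad, hBad, hmid⟩ := exists_bad C at' hq R
  have hhom : C.output.IsHomogeneous n := by
    rw [hout]
    exact imm_hom n n
  have hne : C.output ≠ 0 := by
    rw [hout]
    exact imm_ne_zero n n
  obtain ⟨L, γ, hLlen, hLeq⟩ := top_normal_form C hC n hhom hne
  -- the coefficient identity
  have hcoef : ∀ (x : XX k g t D (VV w D) → K) (bb : Fin k → Fin g × VV w D),
      coeff (uuY bb) (∑ i, MvPolynomial.C (γ i) *
        ((L i).map fun j => evX at' x (C.mVal j)).prod) = PhiB (hd f) x bb := by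
    intro x bb
    have h1 := hLeq (MvPolynomial (YY k g w D) K) (evX at' x)
    simp only [MvPolynomial.algebraMap_eq] at h1
    rw [← h1, hout, imm_projection x hι hι0 f p hL, coeff_prod_Sc]
  -- the independent family
  let A : Finset (XX k g t D (VV w D) → Fin q) := univ.filter fun T => Covered (hd f) T
  obtain ⟨M, bb, hM1, hM2, hM3⟩ := lm_family (K := K) hq hg hD (hd f) a₀ A
    (fun T hT => (Finset.mem_filter.1 hT).2)
  have hfun : ∀ T, (fun x => mon (M T) x * coeff (uuY (bb T)) (∑ i, MvPolynomial.C (γ i) *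
        ((L i).map fun j => evX at' x (C.mVal j)).prod)) =
      fun x => mon (M T) x * PhiB (hd f) x (bb T) := by
    intro T
    funext x
    rw [hcoef]
  have hcore := core_ineq hq R (fun j x => evX at' x (C.mVal j)) Bad hmid L γ n k (k * t) κ' hLlen
    (by rw [hκ]) A M (fun T => uuY (bb T)) hM1 (fun T _ => uuY_degree _)
    (fun T hT => by
      rw [hfun T]
      exact hM2 T hT)
    (by
      convert hM3 using 2 with T
      exact hfun T.1)
    hθ0 hθ1
  have hcov := covered_weight (k := k) (g := g) hq0 hθ0 (hd f) hψ hψ₁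
  have hZ : 0 < Zθ q θ := Zθ_pos hq0 hθ0
  have hZN : 0 < Zθ q θ ^ Fintype.card (XX k g t D (VV w D)) := pow_pos hZ _
  have h1 : (1 - k * (1 - ψ₀) ^ g) * Zθ q θ ^ Fintype.card (XX k g t D (VV w D)) ≤
      ((Bad.card : ℝ) / (q : ℝ) ^ Fintype.card (XX k g t D (VV w D)) + C.nT * Bsum n k * θ ^ κ') *
        Zθ q θ ^ Fintype.card (XX k g t D (VV w D)) := by
    refine le_trans hcov ?_
    exact hcore
  have h2 := le_of_mul_le_mul_right h1 hZN
  have hqN : 0 < (q : ℝ) ^ Fintype.card (XX k g t D (VV w D)) := by positivity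
  have h3 : (Bad.card : ℝ) / (q : ℝ) ^ Fintype.card (XX k g t D (VV w D)) ≤
      C.nL * Real.exp (-(R : ℝ) / (2 * q)) := by
    rw [div_le_iff₀ hqN]
    calc (Bad.card : ℝ) ≤ _ := hBad
      _ = _ := by ring
  linarith

end Vale.Agent.Lib.P346.S
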