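import Mathlib
import Vale.Agent.Lib.P346.Top

/-!
The top product gates over a finite field: a product of functions of small functional degree, with
at most `k` factors removed, equals a fixed function times a function of small functional degree,
outside a small exceptional set. This is a random subset-sum argument applied to the indicators of
the nonvanishing of the factors.
-/

namespace Vale.Agent.Lib.P346.R

open Finset MvPolynomial

variable {K : Type*} [Field K] [Fintype K]

open scoped Classical in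
/-- One linear form vanishes on exactly a `1 / q` fraction of the coefficient vectors. -/
theorem card_form_zero {q a : ℕ} (hq : Fintype.card K = q) (w : Fin a → K) (hw : w ≠ 0) :
    q * (univ.filter fun c : Fin a → K => ∑ i, c i * w i = 0).card = q ^ a := by
  classical
  let φ : (Fin a → K) →+ K :=
    { toFun := fun c => ∑ i, c i * w i
      map_zero' := by simp
      map_add' := fun c c' => by
        simp only [Pi.add_apply, add_mul, Finset.sum_add_distrib] }
  have hsurj : Function.Surjective φ := by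
    obtain ⟨i₀, hi₀⟩ : ∃ i, w i ≠ 0 := by
      by_contra h
      push Not at h
      exact hw (funext h)
    intro z
    refine ⟨fun i => if i = i₀ then z / w i₀ else 0, ?_⟩
    show ∑ i, (if i = i₀ then z / w i₀ else 0) * w i = z
    rw [Finset.sum_eq_single i₀]
    · simp [hi₀]
    · intro b _ hb
      simp [hb]
    · simp
  have hfib : ∀ z, (univ.filter fun c => φ c = z).card = (univ.filter fun c => φ c = 0).card := by
    intro z
    exact AddMonoidHom.card_fiber_eq_of_mem_range φ (hsurj z) (hsurj 0)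
  have htotal : Fintype.card (Fin a → K) = ∑ z : K, (univ.filter fun c => φ c = z).card := by
    rw [← Finset.card_univ]
    exact Finset.card_eq_sum_card_fiberwise (fun _ _ => Finset.mem_univ _)
  rw [Finset.sum_congr rfl fun z _ => hfib z] at htotal
  simp only [Finset.sum_const, Finset.card_univ, smul_eq_mul, hq] at htotal
  rw [Fintype.card_fun, Fintype.card_fin, hq] at htotal
  exact htotal.symm

open scoped Classical in
/-- One round of the subset sums. -/
theorem exists_round {q a : ℕ} (hq : Fintype.card K = q) {α : Type*} (P : Finset α)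
    (w : α → Fin a → K) (hw : ∀ p ∈ P, w p ≠ 0) :
    ∃ c : Fin a → K, q * (P.filter fun p => ∑ i, c i * w p i = 0).card ≤ P.card := by
  classical
  have hq0 : 0 < q := hq ▸ Fintype.card_pos
  by_contra hall
  push Not at hall
  have h1 : ∑ c : Fin a → K, q * (P.filter fun p => ∑ i, c i * w p i = 0).card =
      ∑ p ∈ P, q * (univ.filter fun c : Fin a → K => ∑ i, c i * w p i = 0).card := by
    simp only [← Finset.mul_sum]
    congr 1
    simp only [Finset.card_filter]
    rw [Finset.sum_comm]
  have h2 : ∑ p ∈ P, q * (univ.filter fun c : Fin a → K => ∑ i, c i * w p i = 0).card =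
      P.card * q ^ a := by
    rw [Finset.sum_congr rfl fun p hp => card_form_zero hq (w p) (hw p hp)]
    simp
  have h3 : ∑ _c : Fin a → K, P.card < ∑ c : Fin a → K, q * (P.filter fun p => ∑ i, c i * w p i = 0).card :=
    Finset.sum_lt_sum_of_nonempty Finset.univ_nonempty fun c _ => hall c
  rw [h1, h2] at h3
  simp only [Finset.sum_const, Finset.card_univ, smul_eq_mul] at h3
  rw [Fintype.card_fun, Fintype.card_fin, hq, mul_comm] at h3
  exact lt_irrefl _ h3

open scoped Classical in
/-- Many rounds of the subset sums. -/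
theorem exists_rounds {q a : ℕ} (hq : Fintype.card K = q) {α : Type*} (P : Finset α)
    (w : α → Fin a → K) (hw : ∀ p ∈ P, w p ≠ 0) (l : ℕ) :
    ∃ c : Fin l → Fin a → K,
      q ^ l * (P.filter fun p => ∀ r, ∑ i, c r i * w p i = 0).card ≤ P.card := by
  classical
  induction l with
  | zero => exact ⟨Fin.elim0, by simpa using Finset.card_le_card (Finset.filter_subset _ _)⟩
  | succ l ih =>
    obtain ⟨c, hc⟩ := ih
    obtain ⟨c₀, hc₀⟩ := exists_round hq (P.filter fun p => ∀ r, ∑ i, c r i * w p i = 0) w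
      (fun p hp => hw p (Finset.mem_filter.1 hp).1)
    refine ⟨Fin.cons c₀ c, ?_⟩
    have hsub : (P.filter fun p => ∀ r : Fin (l + 1), ∑ i, (Fin.cons c₀ c : Fin (l + 1) → Fin a → K) r i * w p i = 0) =
        ((P.filter fun p => ∀ r, ∑ i, c r i * w p i = 0).filter fun p => ∑ i, c₀ i * w p i = 0) := by
      ext p
      simp only [Finset.mem_filter, Fin.forall_fin_succ, Fin.cons_zero, Fin.cons_succ]
      tauto
    rw [hsub, pow_succ]
    calc q ^ l * q * _ = q ^ l * (q * _) := by ring
      _ ≤ q ^ l * (P.filter fun p => ∀ r, ∑ i, c r i * w p i = 0).card :=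
          Nat.mul_le_mul_left _ hc₀
      _ ≤ _ := hc

variable {X : Type*} [Fintype X] [DecidableEq X]

/-- The approximating function. -/
def rsF {q a l : ℕ} (c : Fin l → Fin a → K) (N : Fin a → (X → K) → K) (S : Finset (Fin a)) :
    (X → K) → K :=
  ∏ r : Fin l, (1 - (fun x => ∑ p, c r p * (if p ∈ S then 0 else N p x)) ^ (q - 1))

theorem rsF_mem {q a l b : ℕ} (c : Fin l → Fin a → K) (N : Fin a → (X → K) → K)
    (S : Finset (Fin a)) (hN : ∀ p, N p ∈ Vale.Agent.Lib.P346.FD K X b) :
    rsF (q := q) c N S ∈ Vale.Agent.Lib.P346.FD K X (b * (q - 1) * l) := by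
  have h1 : ∀ r : Fin l, (1 - (fun x => ∑ p, c r p * (if p ∈ S then 0 else N p x)) ^ (q - 1) :
      (X → K) → K) ∈ Vale.Agent.Lib.P346.FD K X (b * (q - 1)) := by
    intro r
    apply Submodule.sub_mem
    · exact Vale.Agent.Lib.P346.FD_mono (Nat.zero_le _) Vale.Agent.Lib.P346.FD_one
    · apply Vale.Agent.Lib.P346.FD_pow_mem
      have : (fun x => ∑ p, c r p * (if p ∈ S then 0 else N p x) : (X → K) → K) =
          ∑ p, c r p • (if p ∈ S then 0 else N p) := by
        funext x
        simp only [Finset.sum_apply, Pi.smul_apply, smul_eq_mul]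
        refine Finset.sum_congr rfl fun p _ => ?_
        by_cases hp : p ∈ S <;> simp [hp]
      rw [this]
      refine Submodule.sum_mem _ fun p _ => Submodule.smul_mem _ _ ?_
      by_cases hp : p ∈ S
      · simp only [hp, if_true]
        exact Submodule.zero_mem _
      · simp only [hp, if_false]
        exact hN p
  have h2 := Vale.Agent.Lib.P346.FD_prod_mem (X := X) (K := K) (univ : Finset (Fin l)) (a := b * (q - 1))
    (fun r => (1 - (fun x => ∑ p, c r p * (if p ∈ S then 0 else N p x)) ^ (q - 1) : (X → K) → K))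
    (fun r _ => h1 r)
  simpa [rsF, Finset.card_univ] using h2

theorem rsF_eq_one {q a l : ℕ} (hq2 : 2 ≤ q) (c : Fin l → Fin a → K) (N : Fin a → (X → K) → K)
    (S : Finset (Fin a)) (x : X → K) (h : ∀ p, p ∉ S → N p x = 0) :
    rsF (q := q) c N S x = 1 := by
  simp only [rsF, Finset.prod_apply, Pi.sub_apply, Pi.one_apply, Pi.pow_apply]
  apply Finset.prod_eq_one
  intro r _
  have h0 : ∑ p, c r p * (if p ∈ S then 0 else N p x) = 0 := by
    apply Finset.sum_eq_zero
    intro p _
    by_cases hp : p ∈ S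
    · simp [hp]
    · simp [hp, h p hp]
  rw [h0, zero_pow (by omega), sub_zero]

theorem rsF_eq_zero {q a l : ℕ} (hq : Fintype.card K = q) (c : Fin l → Fin a → K)
    (N : Fin a → (X → K) → K) (S : Finset (Fin a)) (x : X → K) (r : Fin l)
    (h : ∑ p, c r p * (if p ∈ S then 0 else N p x) ≠ 0) :
    rsF (q := q) c N S x = 0 := by
  simp only [rsF, Finset.prod_apply, Pi.sub_apply, Pi.one_apply, Pi.pow_apply]
  apply Finset.prod_eq_zero (Finset.mem_univ r)
  rw [← hq, FiniteField.pow_card_sub_one_eq_one _ h, sub_self]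

/-- The factorization of the products with few factors removed. -/
theorem exists_factor {q a k l d : ℕ} (hq : Fintype.card K = q) (g : Fin a → (X → K) → K)
    (hg : ∀ p, g p ∈ Vale.Agent.Lib.P346.FD K X d) {I : Type*} [Fintype I] (S : I → Finset (Fin a))
    (hS : ∀ i, (S i).card ≤ k) :
    ∃ (Bad : Finset (X → K)) (G : (X → K) → K) (h : I → (X → K) → K),
      q ^ l * Bad.card ≤ Fintype.card I * q ^ Fintype.card X ∧
      (∀ i, h i ∈ Vale.Agent.Lib.P346.FD K X ((l + k) * (d * (q - 1) * (q - 1)))) ∧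
      ∀ x, x ∉ Bad → ∀ i, ∏ p, (if p ∈ S i then 1 else g p x) = G x * h i x := by
  classical
  have hq2 : 2 ≤ q := hq ▸ Fintype.one_lt_card
  -- the indicators of vanishing and the nowhere vanishing modifications
  let N : Fin a → (X → K) → K := fun p => 1 - g p ^ (q - 1)
  let ĝ : Fin a → (X → K) → K := fun p => g p + N p
  have hN0 : ∀ p x, g p x ≠ 0 → N p x = 0 := by
    intro p x hx
    simp only [N, Pi.sub_apply, Pi.one_apply, Pi.pow_apply]
    rw [← hq, FiniteField.pow_card_sub_one_eq_one _ hx, sub_self]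
  have hN1 : ∀ p x, g p x = 0 → N p x = 1 := by
    intro p x hx
    simp only [N, Pi.sub_apply, Pi.one_apply, Pi.pow_apply]
    rw [hx, zero_pow (by omega), sub_zero]
  have hĝne : ∀ p x, ĝ p x ≠ 0 := by
    intro p x
    simp only [ĝ, Pi.add_apply]
    by_cases hx : g p x = 0
    · rw [hx, hN1 p x hx]
      simp
    · rw [hN0 p x hx, add_zero]
      exact hx
  have hĝinv : ∀ p x, ĝ p x * ĝ p x ^ (q - 2) = 1 := by
    intro p x
    have h1 : ĝ p x * ĝ p x ^ (q - 2) = ĝ p x ^ (q - 1) := by
      rw [← pow_succ']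
      congr 1
      omega
    rw [h1, ← hq, FiniteField.pow_card_sub_one_eq_one _ (hĝne p x)]
  have hNmem : ∀ p, N p ∈ Vale.Agent.Lib.P346.FD K X (d * (q - 1)) := by
    intro p
    apply Submodule.sub_mem
    · exact Vale.Agent.Lib.P346.FD_mono (Nat.zero_le _) Vale.Agent.Lib.P346.FD_one
    · exact Vale.Agent.Lib.P346.FD_pow_mem (hg p) _
  have hĝmem : ∀ p, ĝ p ∈ Vale.Agent.Lib.P346.FD K X (d * (q - 1)) := by
    intro p
    apply Submodule.add_mem _ _ (hNmem p)
    refine Vale.Agent.Lib.P346.FD_mono ?_ (hg p)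
    exact Nat.le_mul_of_pos_right _ (by omega)
  -- the exceptional set
  let P : Finset ((X → K) × I) := univ.filter fun z => ∃ p, p ∉ S z.2 ∧ N p z.1 ≠ 0
  let w : (X → K) × I → Fin a → K := fun z p => if p ∈ S z.2 then 0 else N p z.1
  have hw : ∀ z ∈ P, w z ≠ 0 := by
    intro z hz h0
    obtain ⟨p, hp, hNp⟩ := (Finset.mem_filter.1 hz).2
    have := congrFun h0 p
    simp only [w, hp, if_false, Pi.zero_apply] at this
    exact hNp this
  obtain ⟨c, hc⟩ := exists_rounds hq P w hw l
  let Q := P.filter fun z => ∀ r, ∑ i, c r i * w z i = 0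
  let Bad : Finset (X → K) := Q.image Prod.fst
  have hcard : P.card ≤ Fintype.card I * q ^ Fintype.card X := by
    refine le_trans (Finset.card_le_univ _) (le_of_eq ?_)
    rw [Fintype.card_prod, Fintype.card_fun, hq, mul_comm]
  refine ⟨Bad, ∏ p, ĝ p, fun i => rsF (q := q) c N (S i) * ∏ p ∈ S i, ĝ p ^ (q - 2), ?_, ?_, ?_⟩
  · calc q ^ l * Bad.card ≤ q ^ l * Q.card := Nat.mul_le_mul_left _ Finset.card_image_le
      _ ≤ P.card := hc
      _ ≤ _ := hcard
  · intro i
    have h1 := rsF_mem (q := q) c N (S i) hNmem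
    have h2 : (∏ p ∈ S i, ĝ p ^ (q - 2)) ∈ Vale.Agent.Lib.P346.FD K X ((d * (q - 1) * (q - 2)) * (S i).card) :=
      Vale.Agent.Lib.P346.FD_prod_mem _ _ fun p _ => Vale.Agent.Lib.P346.FD_pow_mem (hĝmem p) _
    refine Vale.Agent.Lib.P346.FD_mono ?_ (Vale.Agent.Lib.P346.FD_mul_mem h1 h2)
    have h3 : d * (q - 1) * (q - 2) * (S i).card ≤ d * (q - 1) * (q - 1) * k :=
      Nat.mul_le_mul (Nat.mul_le_mul_left _ (by omega)) (hS i)
    calc d * (q - 1) * (q - 1) * l + d * (q - 1) * (q - 2) * (S i).card
        ≤ d * (q - 1) * (q - 1) * l + d * (q - 1) * (q - 1) * k := Nat.add_le_add_left h3 _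
      _ = _ := by ring
  · intro x hx i
    have hG : (∏ p, ĝ p) x * ∏ p ∈ S i, ĝ p x ^ (q - 2) = ∏ p, (if p ∈ S i then 1 else ĝ p x) := by
      rw [Finset.prod_apply]
      have h1 : ∏ p, ĝ p x = (∏ p ∈ S i, ĝ p x) * ∏ p ∈ univ \ S i, ĝ p x := by
        rw [mul_comm]
        exact (Finset.prod_sdiff (Finset.subset_univ _)).symm
      have h2 : ∏ p, (if p ∈ S i then 1 else ĝ p x) =
          (∏ p ∈ S i, (if p ∈ S i then 1 else ĝ p x)) * ∏ p ∈ univ \ S i, (if p ∈ S i then 1 else ĝ p x) := by
        rw [mul_comm]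
        exact (Finset.prod_sdiff (Finset.subset_univ _)).symm
      have h3 : ∏ p ∈ S i, (if p ∈ S i then 1 else ĝ p x) = 1 := by
        apply Finset.prod_eq_one
        intro p hp
        simp [hp]
      have h4 : ∏ p ∈ univ \ S i, (if p ∈ S i then 1 else ĝ p x) = ∏ p ∈ univ \ S i, ĝ p x := by
        apply Finset.prod_congr rfl
        intro p hp
        have : p ∉ S i := by simpa using hp
        simp [this]
      rw [h1, h2, h3, h4, one_mul]
      have h5 : (∏ p ∈ S i, ĝ p x) * ∏ p ∈ S i, ĝ p x ^ (q - 2) = 1 := by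
        rw [← Finset.prod_mul_distrib]
        exact Finset.prod_eq_one fun p _ => hĝinv p x
      calc (∏ p ∈ S i, ĝ p x) * (∏ p ∈ univ \ S i, ĝ p x) * ∏ p ∈ S i, ĝ p x ^ (q - 2)
          = ((∏ p ∈ S i, ĝ p x) * ∏ p ∈ S i, ĝ p x ^ (q - 2)) * ∏ p ∈ univ \ S i, ĝ p x := by ring
        _ = _ := by rw [h5, one_mul]
    have hval : ((∏ p, ĝ p) * (rsF (q := q) c N (S i) * ∏ p ∈ S i, ĝ p ^ (q - 2))) x =
        rsF (q := q) c N (S i) x * ∏ p, (if p ∈ S i then 1 else ĝ p x) := by
      rw [← hG]
      simp only [Pi.mul_apply, Finset.prod_apply, Pi.pow_apply]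
      ring
    show _ = ((∏ p, ĝ p) * (rsF (q := q) c N (S i) * ∏ p ∈ S i, ĝ p ^ (q - 2))) x
    rw [hval]
    by_cases hz : ∀ p, p ∉ S i → N p x = 0
    · rw [rsF_eq_one hq2 c N (S i) x hz, one_mul]
      apply Finset.prod_congr rfl
      intro p _
      by_cases hp : p ∈ S i
      · simp [hp]
      · simp only [hp, if_false, ĝ, Pi.add_apply, hz p hp, add_zero]
    · push Not at hz
      obtain ⟨p₀, hp₀, hNp₀⟩ := hz
      have hg0 : g p₀ x = 0 := by
        by_contra h
        exact hNp₀ (hN0 p₀ x h)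
      have hzP : (x, i) ∈ P := Finset.mem_filter.2 ⟨Finset.mem_univ _, p₀, hp₀, hNp₀⟩
      have hnotQ : ¬ ∀ r, ∑ j, c r j * w (x, i) j = 0 := by
        intro hall
        exact hx (Finset.mem_image.2 ⟨(x, i), Finset.mem_filter.2 ⟨hzP, hall⟩, rfl⟩)
      push Not at hnotQ
      obtain ⟨r, hr⟩ := hnotQ
      have h0 : rsF (q := q) c N (S i) x = 0 := rsF_eq_zero hq c N (S i) x r hr
      rw [h0, zero_mul]
      apply Finset.prod_eq_zero (Finset.mem_univ p₀)
      simp [hp₀, hg0]

open Vale.Agent.Lib.P346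

variable {Y ι : Type*}

/-- Members of `Sel` are products over the positions with at most `c` positions removed. -/
theorem Sel_form (midEv : ι → (X → K) → MvPolynomial Y K) :
    ∀ (L : List ι) (c : ℕ) (F : (X → K) → K), F ∈ Sel midEv L c →
      ∃ S : Finset (Fin L.length), S.card ≤ c ∧
        ∀ x, F x = ∏ p : Fin L.length, (if p ∈ S then 1 else coeff 0 (midEv (L.get p) x)) := by
  intro L
  induction L with
  | nil =>
    intro c F hF
    simp only [Sel, List.mem_singleton] at hF
    subst hF
    exact ⟨∅, by simp, fun x => by simp⟩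
  | cons j L ih =>
    intro c F hF
    simp only [Sel, List.mem_append, List.mem_map] at hF
    rcases hF with ⟨F', hF', rfl⟩ | hF
    · obtain ⟨S', hS', hF'x⟩ := ih c F' hF'
      refine ⟨S'.map (Fin.succEmb _), by simpa using hS', fun x => ?_⟩
      show _ = ∏ p : Fin (L.length + 1), (if p ∈ S'.map (Fin.succEmb _) then 1 else
        coeff 0 (midEv ((j :: L).get p) x))
      rw [Fin.prod_univ_succ]
      simp only [Pi.mul_apply, hF'x x]
      congr 1
      · have : (0 : Fin (L.length + 1)) ∉ S'.map (Fin.succEmb _) := by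
          simp [Fin.succ_ne_zero]
        rw [if_neg this]
        rfl
      · refine Finset.prod_congr rfl fun p _ => ?_
        have : p.succ ∈ S'.map (Fin.succEmb _) ↔ p ∈ S' := by
          simp
        simp only [this]
        rfl
    · by_cases hc : c = 0
      · simp [hc] at hF
      · rw [if_neg hc] at hF
        obtain ⟨S', hS', hF'x⟩ := ih (c - 1) F hF
        refine ⟨insert (0 : Fin (L.length + 1)) (S'.map (Fin.succEmb _)), ?_, fun x => ?_⟩
        · refine le_trans (Finset.card_insert_le _ _) ?_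
          simp only [Finset.card_map]
          omega
        · show _ = ∏ p : Fin (L.length + 1), (if p ∈ insert (0 : Fin (L.length + 1))
            (S'.map (Fin.succEmb _)) then 1 else coeff 0 (midEv ((j :: L).get p) x))
          rw [Fin.prod_univ_succ, hF'x x]
          have h0 : (0 : Fin (L.length + 1)) ∈ insert (0 : Fin (L.length + 1))
              (S'.map (Fin.succEmb _)) := Finset.mem_insert_self _ _
          rw [if_pos h0, one_mul]
          refine Finset.prod_congr rfl fun p _ => ?_
          have : p.succ ∈ insert (0 : Fin (L.length + 1)) (S'.map (Fin.succEmb _)) ↔ p ∈ S' := by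
            simp [Fin.succ_ne_zero]
          simp only [this]
          rfl

/-- The factorization of the coefficient functions attached to a top product gate. -/
theorem sel_factor {q : ℕ} (hq : Fintype.card K = q) (R k l n : ℕ)
    (midEv : ι → (X → K) → MvPolynomial Y K) (Bad : Finset (X → K))
    (hmid : ∀ j (v : Y →₀ ℕ), AgreeIn Bad (FD K X ((q - 1) * (2 * q * v.degree + R)))
      (fun x => coeff v (midEv j x)))
    (L : List ι) (hL : L.length ≤ n) :
    ∃ (Bad' : Finset (X → K)) (G : (X → K) → K),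
      q ^ l * Bad'.card ≤ Bsum n k * q ^ Fintype.card X ∧
      ∀ (B : ℕ), ∀ w ∈ Wsp (Sel midEv L k) B,
        ∃ h ∈ FD K X (B + (l + k) * ((q - 1) * R * (q - 1) * (q - 1))),
          ∀ x, x ∉ Bad → x ∉ Bad' → w x = G x * h x := by
  classical
  have hg : ∀ j, ∃ g ∈ FD K X ((q - 1) * R), ∀ x, x ∉ Bad → coeff 0 (midEv j x) = g x := by
    intro j
    obtain ⟨g, hg, hgf⟩ := hmid j 0
    refine ⟨g, ?_, hgf⟩
    simpa using hg
  choose g hg hgf using hg
  have hSel : ∀ i : Fin (Sel midEv L k).length, ∃ S : Finset (Fin L.length), S.card ≤ k ∧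
      ∀ x, (Sel midEv L k).get i x = ∏ p : Fin L.length,
        (if p ∈ S then 1 else coeff 0 (midEv (L.get p) x)) := fun i =>
    Sel_form midEv L k _ (List.get_mem _ _)
  choose S hS hSx using hSel
  obtain ⟨Bad', G, h, hBad', hh, hfac⟩ := exists_factor (q := q) (k := k) (l := l)
    (d := (q - 1) * R) hq (fun p => g (L.get p)) (fun p => hg _) S hS
  refine ⟨Bad', G, ?_, ?_⟩
  · refine le_trans hBad' (Nat.mul_le_mul_right _ ?_)
    rw [Fintype.card_fin]
    exact (Sel_length midEv L k).trans (Bsum_mono hL k)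
  · intro B w hw
    induction hw using Submodule.span_induction with
    | mem f hf =>
      obtain ⟨F, hF, h₀, hh₀, rfl⟩ := hf
      obtain ⟨i, rfl⟩ := List.get_of_mem hF
      refine ⟨h₀ * h i, ?_, fun x hx hx' => ?_⟩
      · exact FD_mul_mem hh₀ (hh i)
      · simp only [Pi.mul_apply]
        rw [hSx i x]
        have h1 : ∏ p : Fin L.length, (if p ∈ S i then 1 else coeff 0 (midEv (L.get p) x)) =
            ∏ p : Fin L.length, (if p ∈ S i then 1 else g (L.get p) x) := by
          refine Finset.prod_congr rfl fun p _ => ?_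
          by_cases hp : p ∈ S i
          · simp [hp]
          · simp only [hp, if_false]
            exact hgf _ x hx
        rw [h1, hfac x hx' i]
        ring
    | zero =>
      refine ⟨0, Submodule.zero_mem _, fun x _ _ => by simp⟩
    | add w₁ w₂ _ _ h₁ h₂ =>
      obtain ⟨a₁, ha₁, hf₁⟩ := h₁
      obtain ⟨a₂, ha₂, hf₂⟩ := h₂
      refine ⟨a₁ + a₂, Submodule.add_mem _ ha₁ ha₂, fun x hx hx' => ?_⟩
      simp only [Pi.add_apply]
      rw [hf₁ x hx hx', hf₂ x hx hx']
      ring
    | smul c w₁ _ h₁ =>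
      obtain ⟨a₁, ha₁, hf₁⟩ := h₁
      refine ⟨c • a₁, Submodule.smul_mem _ _ ha₁, fun x hx hx' => ?_⟩
      simp only [Pi.smul_apply, smul_eq_mul]
      rw [hf₁ x hx hx']
      ring

end Vale.Agent.Lib.P346.R
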