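import Mathlib
import Vale.Agent.Lib.P346.Core
import Vale.Agent.Lib.P346.Rs

/-!
The core inequality when the order-`k` coefficients of each top product gate are a single fixed
function times a function of small functional degree.
-/

namespace Vale.Agent.Lib.P346.R

open Finset MvPolynomial

variable {K : Type*} [Field K] [Fintype K]
variable {X Y ι : Type*} [Fintype X] [DecidableEq X]

/-- Generators: fixed function times a reduced monomial of degree at most `B`. -/
noncomputable def genFam3 {q T₀ : ℕ} (G : Fin T₀ → (X → K) → K) (B : ℕ) :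
    (Σ _ : Fin T₀, {T : X → Fin q // ∑ i, (T i : ℕ) < B + 1}) → (X → K) → K :=
  fun a => G a.1 * monF a.2.1

theorem card_genFam3 {q T₀ : ℕ} (B : ℕ) :
    Fintype.card (Σ _ : Fin T₀, {T : X → Fin q // ∑ i, (T i : ℕ) < B + 1}) ≤
      T₀ * Hlt q X (B + 1) := by
  classical
  rw [Fintype.card_sigma]
  simp only [Finset.sum_const, Finset.card_univ, Fintype.card_fin, smul_eq_mul]
  apply Nat.mul_le_mul_left
  rw [Fintype.card_subtype]
  unfold Hlt
  apply le_of_eq
  congr!

theorem mul_FD_le_span {q T₀ : ℕ} (hq : Fintype.card K = q) (G : Fin T₀ → (X → K) → K) (B : ℕ)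
    (i : Fin T₀) {h : (X → K) → K} (hh : h ∈ FD K X B) :
    G i * h ∈ Submodule.span K (Set.range (genFam3 (q := q) G B)) := by
  obtain ⟨c, hc, rfl⟩ := exists_coeff_of_mem_FD hq hh
  have hexp : G i * evalC c = ∑ T : X → Fin q, c T • (G i * (monF T : (X → K) → K)) := by
    funext x
    simp only [Pi.mul_apply, evalC, Finset.sum_apply, Pi.smul_apply, smul_eq_mul, Finset.mul_sum,
      monF, mon]
    exact Finset.sum_congr rfl fun _ _ => by ring
  rw [hexp]
  refine Submodule.sum_mem _ fun T _ => ?_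
  by_cases hT : ∑ i, (T i : ℕ) < B + 1
  · apply Submodule.smul_mem
    apply Submodule.subset_span
    exact ⟨⟨i, ⟨T, hT⟩⟩, rfl⟩
  · rw [hc T (by omega), zero_smul]
    exact Submodule.zero_mem _

theorem genSpan3_mono {q T₀ : ℕ} (G : Fin T₀ → (X → K) → K) {B B' : ℕ} (h : B ≤ B') :
    Submodule.span K (Set.range (genFam3 (q := q) G B)) ≤
      Submodule.span K (Set.range (genFam3 (q := q) G B')) := by
  apply Submodule.span_mono
  rintro f ⟨⟨i, T⟩, rfl⟩
  exact ⟨⟨i, ⟨T.1, by have := T.2; omega⟩⟩, rfl⟩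

/-- Dimension count with an abstract subspace catching the family outside `Bad`. -/
theorem dim_abs {q : ℕ} (hq : Fintype.card K = q) (Bad : Finset (X → K))
    (A : Finset (X → Fin q)) (F : (X → Fin q) → (X → K) → K)
    (hFD : ∀ T ∈ A, F T ∈ FD K X (∑ i, (T i : ℕ)))
    (hind : LinearIndependent K (fun T : A => F T))
    (D N : ℕ) (V : Submodule K ((X → K) → K)) (hV : Module.finrank K V ≤ N)
    (hag : ∀ T ∈ A, ∑ i, (T i : ℕ) ≤ D → AgreeIn Bad V (F T)) :
    (q : ℝ) ^ Fintype.card X * ((A.filter fun T => ∑ i, (T i : ℕ) ≤ D).card : ℝ) ≤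
      Bad.card * Hlt q X (D + 1) + (q : ℝ) ^ Fintype.card X * N := by
  classical
  set AD := A.filter fun T => ∑ i, (T i : ℕ) ≤ D with hAD
  have hADsub : AD ⊆ A := Finset.filter_subset _ _
  let emb : AD → A := fun T => ⟨T.1, hADsub T.2⟩
  have hindD : LinearIndependent K (fun T : AD => F T) :=
    hind.comp emb (fun a b h => by
      apply Subtype.ext
      exact congrArg (fun z : A => (z : X → Fin q)) h)
  let U : Submodule K ((X → K) → K) := Submodule.span K (Set.range fun T : AD => F T)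
  have hUrank : Module.finrank K U = AD.card := by
    have := finrank_span_eq_card hindD
    simpa using this
  have hUFD : U ≤ FD K X D := by
    apply Submodule.span_le.2
    rintro f ⟨T, rfl⟩
    have hT := (Finset.mem_filter.1 T.2).2
    exact FD_mono hT (hFD T.1 (hADsub T.2))
  have hstep := finrank_le_map_add U (U ⊓ LinearMap.ker (cutOff Bad)) (cutOff Bad) le_rfl
  have hker := kernel_FD hq Bad D (U ⊓ LinearMap.ker (cutOff Bad)) (inf_le_left.trans hUFD)
    (fun f hf x hx => by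
      have h0 : cutOff Bad f = 0 := LinearMap.mem_ker.1 hf.2
      have := congrFun h0 x
      rwa [cutOff_apply_not_mem Bad f hx] at this)
  have himg : U.map (cutOff Bad) ≤ V.map (cutOff Bad) := by
    rw [Submodule.map_le_iff_le_comap]
    apply Submodule.span_le.2
    rintro f ⟨T, rfl⟩
    have hT := Finset.mem_filter.1 T.2
    obtain ⟨g, hg, hgf⟩ := hag T.1 hT.1 hT.2
    exact ⟨g, hg, (cutOff_eq_of_agree Bad hgf).symm⟩
  have himg2 : Module.finrank K (U.map (cutOff Bad)) ≤ N :=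
    calc Module.finrank K (U.map (cutOff Bad))
        ≤ Module.finrank K (V.map (cutOff Bad)) := Submodule.finrank_mono himg
      _ ≤ Module.finrank K V := Submodule.finrank_map_le _ _
      _ ≤ N := hV
  have hfin : (AD.card : ℝ) ≤ (Module.finrank K (U.map (cutOff Bad)) : ℝ) +
      Module.finrank K ↥(U ⊓ LinearMap.ker (cutOff Bad)) := by
    rw [hUrank] at hstep
    exact_mod_cast hstep
  have hker' : (q : ℝ) ^ Fintype.card X *
      (Module.finrank K ↥(U ⊓ LinearMap.ker (cutOff Bad)) : ℝ) ≤ Bad.card * Hlt q X (D + 1) := by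
    exact_mod_cast hker
  have himg' : (Module.finrank K (U.map (cutOff Bad)) : ℝ) ≤ N := by
    exact_mod_cast himg2
  have hq0 : (0 : ℝ) ≤ (q : ℝ) ^ Fintype.card X := by positivity
  nlinarith [mul_le_mul_of_nonneg_left hfin hq0, mul_le_mul_of_nonneg_left himg' hq0]

/-- The core inequality with abstract subspaces. -/
theorem core_abs {q : ℕ} (hq : Fintype.card K = q) (Bad : Finset (X → K)) (T₀ κ κ' B : ℕ)
    (hκ : κ' + B = κ) (A : Finset (X → Fin q)) (F : (X → Fin q) → (X → K) → K)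
    (hA : ∀ T ∈ A, κ ≤ ∑ i, (T i : ℕ))
    (hFD : ∀ T ∈ A, F T ∈ FD K X (∑ i, (T i : ℕ)))
    (hind : LinearIndependent K (fun T : A => F T))
    (hspan : ∀ D, κ ≤ D → ∃ V : Submodule K ((X → K) → K),
      Module.finrank K V ≤ T₀ * Hlt q X ((D - κ) + B + 1) ∧
        ∀ T ∈ A, ∑ i, (T i : ℕ) ≤ D → AgreeIn Bad V (F T))
    {θ : ℝ} (hθ0 : 0 < θ) (hθ1 : θ < 1) :
    ∑ T ∈ A, θ ^ (∑ i, (T i : ℕ)) ≤
      ((Bad.card : ℝ) / (q : ℝ) ^ Fintype.card X + T₀ * θ ^ κ') *
        (∑ j : Fin q, θ ^ (j : ℕ)) ^ Fintype.card X := by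
  classical
  have hq0 : (0 : ℝ) < q := by
    have : 0 < q := hq ▸ Fintype.card_pos
    exact_mod_cast this
  have hqN : (0 : ℝ) < (q : ℝ) ^ Fintype.card X := by positivity
  have hS1 := hasSum_layer_finset hθ0 hθ1 A (fun T => ∑ i, (T i : ℕ))
  have hS2 := hasSum_layer_finset hθ0 hθ1 (univ : Finset (X → Fin q)) (fun T => ∑ i, (T i : ℕ))
  have hS3 := hasSum_layer_finset hθ0 hθ1 (univ : Finset (X → Fin q)) (fun T => ∑ i, (T i : ℕ) + κ')
  have hS := (hS2.mul_left ((Bad.card : ℝ) / (q : ℝ) ^ Fintype.card X)).add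
    (hS3.mul_left (T₀ : ℝ))
  have hle := hasSum_le (f := _) (g := _) ?_ hS1 hS
  · rw [sum_weight_all] at hle
    have h3 : ∑ T : X → Fin q, θ ^ (∑ i, (T i : ℕ) + κ') =
        θ ^ κ' * (∑ j : Fin q, θ ^ (j : ℕ)) ^ Fintype.card X := by
      rw [← sum_weight_all, Finset.mul_sum]
      exact Finset.sum_congr rfl fun _ _ => by rw [pow_add]; ring
    rw [h3] at hle
    calc _ ≤ _ := hle
      _ = _ := by ring
  · intro D
    have h1mθ : 0 ≤ (1 - θ) * θ ^ D := mul_nonneg (by linarith) (by positivity)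
    have hmain : ((A.filter fun T => ∑ i, (T i : ℕ) ≤ D).card : ℝ) ≤
        (Bad.card : ℝ) / (q : ℝ) ^ Fintype.card X *
          ((univ.filter fun T : X → Fin q => ∑ i, (T i : ℕ) ≤ D).card : ℝ) +
        (T₀ : ℝ) * ((univ.filter fun T : X → Fin q => ∑ i, (T i : ℕ) + κ' ≤ D).card : ℝ) := by
      by_cases hD : κ ≤ D
      · obtain ⟨V, hV, hag⟩ := hspan D hD
        have h := dim_abs hq Bad A F hFD hind D _ V hV hag
        have e1 : Hlt q X (D + 1) = (univ.filter fun T : X → Fin q => ∑ i, (T i : ℕ) ≤ D).card := by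
          unfold Hlt
          congr 1
          ext T
          simp only [mem_filter, mem_univ, true_and]
          omega
        have e2 : Hlt q X ((D - κ) + B + 1) =
            (univ.filter fun T : X → Fin q => ∑ i, (T i : ℕ) + κ' ≤ D).card := by
          unfold Hlt
          congr 1
          ext T
          simp only [mem_filter, mem_univ, true_and]
          omega
        rw [e1, e2] at h
        have h5 : (q : ℝ) ^ Fintype.card X * ((A.filter fun T => ∑ i, (T i : ℕ) ≤ D).card : ℝ) ≤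
            (q : ℝ) ^ Fintype.card X * ((Bad.card : ℝ) / (q : ℝ) ^ Fintype.card X *
              ((univ.filter fun T : X → Fin q => ∑ i, (T i : ℕ) ≤ D).card : ℝ) +
            (T₀ : ℝ) *
              ((univ.filter fun T : X → Fin q => ∑ i, (T i : ℕ) + κ' ≤ D).card : ℝ)) := by
          refine le_trans h (le_of_eq ?_)
          push_cast
          field_simp
        exact le_of_mul_le_mul_left h5 hqN
      · have hempty : (A.filter fun T => ∑ i, (T i : ℕ) ≤ D) = ∅ := by
          apply Finset.filter_eq_empty_iff.2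
          intro T hT
          have := hA T hT
          omega
        rw [hempty]
        simp only [Finset.card_empty, Nat.cast_zero]
        positivity
    calc (1 - θ) * θ ^ D * ((A.filter fun T => ∑ i, (T i : ℕ) ≤ D).card : ℝ)
        ≤ (1 - θ) * θ ^ D * ((Bad.card : ℝ) / (q : ℝ) ^ Fintype.card X *
          ((univ.filter fun T : X → Fin q => ∑ i, (T i : ℕ) ≤ D).card : ℝ) +
        (T₀ : ℝ) * ((univ.filter fun T : X → Fin q => ∑ i, (T i : ℕ) + κ' ≤ D).card : ℝ)) :=
          mul_le_mul_of_nonneg_left hmain h1mθ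
      _ = _ := by ring

variable [DecidableEq Y]

/-- Shifted coefficient functions of a sum of top products agree, outside `Bad₂`, with the span of
the new generator family. -/
theorem shifted_agree3 {q : ℕ} (hq : Fintype.card K = q) (R k Δ : ℕ) {T₀ : ℕ}
    (midEv : ι → (X → K) → MvPolynomial Y K) (Bad Bad₂ : Finset (X → K))
    (hBad : Bad ⊆ Bad₂)
    (hmid : ∀ j (v : Y →₀ ℕ), AgreeIn Bad (FD K X ((q - 1) * (2 * q * v.degree + R)))
      (fun x => coeff v (midEv j x)))
    (L : Fin T₀ → List ι) (γ : Fin T₀ → K) (G : Fin T₀ → (X → K) → K)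
    (hfac : ∀ i (B : ℕ), ∀ w ∈ Wsp (Sel midEv (L i) k) B, ∃ h ∈ FD K X (B + Δ),
      ∀ x, x ∉ Bad₂ → w x = G i x * h x)
    (u : Y →₀ ℕ) (hu : u.degree = k) (M : X → ℕ) :
    AgreeIn Bad₂
      (Submodule.span K (Set.range (genFam3 (q := q) G
        (∑ i, M i + ((q - 1) * (2 * q + R) * k + Δ)))))
      (fun x => mon M x * coeff u (∑ i, C (γ i) * ((L i).map fun j => midEv j x).prod)) := by
  subst hu
  have h1 : ∀ i, AgreeIn Bad₂
      (Submodule.span K (Set.range (genFam3 (q := q) G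
        (∑ i, M i + ((q - 1) * (2 * q + R) * u.degree + Δ)))))
      (fun x => γ i * (mon M x * coeff u (((L i).map fun j => midEv j x).prod))) := by
    intro i
    obtain ⟨g, hg, hgf⟩ := sel_claim R midEv Bad hmid (L i) u
    obtain ⟨h, hh, hhf⟩ := hfac i _ g hg
    refine ⟨γ i • (G i * ((mon M : (X → K) → K) * h)), ?_, fun x hx => ?_⟩
    · apply Submodule.smul_mem
      exact mul_FD_le_span hq G _ i (FD_mul_mem (mon_mem_FD M le_rfl) hh)
    · have hx' : x ∉ Bad := fun hc => hx (hBad hc)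
      show γ i * (mon M x * coeff u (((L i).map fun j => midEv j x).prod)) =
        γ i * (G i x * (mon M x * h x))
      rw [show coeff u (((L i).map fun j => midEv j x).prod) = g x from hgf x hx', hhf x hx]
      ring
  have h2 := AgreeIn.sum (Bad := Bad₂) univ _ (fun i _ => h1 i)
  obtain ⟨g, hg, hgf⟩ := h2
  refine ⟨g, hg, fun x hx => ?_⟩
  rw [← hgf x hx]
  simp only [coeff_sum, coeff_C_mul, Finset.mul_sum]
  exact Finset.sum_congr rfl fun _ _ => by ring

/-- The core inequality. -/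
theorem core_ineq3 {q : ℕ} (hq : Fintype.card K = q) (R : ℕ) {T₀ : ℕ}
    (midEv : ι → (X → K) → MvPolynomial Y K) (Bad Bad₂ : Finset (X → K)) (hBad : Bad ⊆ Bad₂)
    (hmid : ∀ j (v : Y →₀ ℕ), AgreeIn Bad (FD K X ((q - 1) * (2 * q * v.degree + R)))
      (fun x => coeff v (midEv j x)))
    (L : Fin T₀ → List ι) (γ : Fin T₀ → K) (G : Fin T₀ → (X → K) → K) (k κ κ' Δ : ℕ)
    (hfac : ∀ i (B : ℕ), ∀ w ∈ Wsp (Sel midEv (L i) k) B, ∃ h ∈ FD K X (B + Δ),
      ∀ x, x ∉ Bad₂ → w x = G i x * h x)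
    (hκ : κ' + ((q - 1) * (2 * q + R) * k + Δ) = κ)
    (A : Finset (X → Fin q)) (M : (X → Fin q) → X → ℕ) (u : (X → Fin q) → Y →₀ ℕ)
    (hA1 : ∀ T ∈ A, ∑ i, M T i + κ = ∑ i, (T i : ℕ))
    (hu : ∀ T ∈ A, (u T).degree = k)
    (hFD : ∀ T ∈ A, (fun x => mon (M T) x *
        coeff (u T) (∑ i, C (γ i) * ((L i).map fun j => midEv j x).prod)) ∈
        FD K X (∑ i, (T i : ℕ)))
    (hind : LinearIndependent K (fun T : A => (fun x => mon (M T) x *
        coeff (u T) (∑ i, C (γ i) * ((L i).map fun j => midEv j x).prod) : (X → K) → K)))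
    {θ : ℝ} (hθ0 : 0 < θ) (hθ1 : θ < 1) :
    ∑ T ∈ A, θ ^ (∑ i, (T i : ℕ)) ≤
      ((Bad₂.card : ℝ) / (q : ℝ) ^ Fintype.card X + T₀ * θ ^ κ') *
        (∑ j : Fin q, θ ^ (j : ℕ)) ^ Fintype.card X := by
  refine core_abs hq Bad₂ T₀ κ κ' ((q - 1) * (2 * q + R) * k + Δ) hκ A
    (fun T x => mon (M T) x *
        coeff (u T) (∑ i, C (γ i) * ((L i).map fun j => midEv j x).prod)) ?_ hFD hind ?_ hθ0 hθ1
  · intro T hT
    have := hA1 T hT
    omega
  · intro D hD
    refine ⟨Submodule.span K (Set.range (genFam3 (q := q) G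
      ((D - κ) + ((q - 1) * (2 * q + R) * k + Δ)))), ?_, ?_⟩
    · refine le_trans (finrank_range_le_card _) ?_
      have := card_genFam3 (q := q) (X := X) (T₀ := T₀)
        ((D - κ) + ((q - 1) * (2 * q + R) * k + Δ))
      exact this
    · intro T hT hTD
      have h1 := hA1 T hT
      have hag := shifted_agree3 hq R k Δ midEv Bad Bad₂ hBad hmid L γ G hfac (u T) (hu T hT) (M T)
      refine hag.mono (genSpan3_mono G ?_)
      omega

end Vale.Agent.Lib.P346.R
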