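import Mathlib
import Vale.Agent.Lib.P346.Assemble2
import Vale.Agent.Lib.P346.Core3

/-!
Assembly: the basic inequality with the factorization of the top product gates.
-/

namespace Vale.Agent.Lib.P346.S

open Finset MvPolynomial Vale.Agent.Lib.P346.R

variable {K : Type*} [Field K] [Fintype K]

/-- Union bound for the exceptional sets. -/
theorem card_bad2 {α : Type*} [DecidableEq α] {q l N B T₀ : ℕ} (hq : 0 < q) (Bad : Finset α)
    (Bad' : Fin T₀ → Finset α) (h : ∀ i, q ^ l * (Bad' i).card ≤ B * q ^ N) :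
    ((Bad ∪ univ.biUnion Bad').card : ℝ) / (q : ℝ) ^ N ≤
      (Bad.card : ℝ) / (q : ℝ) ^ N + T₀ * B / (q : ℝ) ^ l := by
  have hq' : (0 : ℝ) < q := by exact_mod_cast hq
  have hqN : (0 : ℝ) < (q : ℝ) ^ N := by positivity
  have hql : (0 : ℝ) < (q : ℝ) ^ l := by positivity
  have h1 : (Bad ∪ univ.biUnion Bad').card ≤ Bad.card + ∑ i, (Bad' i).card :=
    (Finset.card_union_le _ _).trans (Nat.add_le_add_left Finset.card_biUnion_le _)
  have h1R : ((Bad ∪ univ.biUnion Bad').card : ℝ) ≤ Bad.card + ∑ i, ((Bad' i).card : ℝ) := by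
    exact_mod_cast h1
  have h2 : ∀ i, ((Bad' i).card : ℝ) / (q : ℝ) ^ N ≤ B / (q : ℝ) ^ l := by
    intro i
    have h3 : ((q : ℝ) ^ l) * ((Bad' i).card : ℝ) ≤ B * (q : ℝ) ^ N := by
      exact_mod_cast h i
    rw [div_le_div_iff₀ hqN hql]
    nlinarith
  have h3 : (∑ i, ((Bad' i).card : ℝ)) / (q : ℝ) ^ N ≤ T₀ * B / (q : ℝ) ^ l := by
    rw [Finset.sum_div]
    calc ∑ i, ((Bad' i).card : ℝ) / (q : ℝ) ^ N ≤ ∑ _i : Fin T₀, (B : ℝ) / (q : ℝ) ^ l :=
          Finset.sum_le_sum fun i _ => h2 i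
      _ = _ := by
          simp only [Finset.sum_const, Finset.card_univ, Fintype.card_fin, nsmul_eq_mul]
          ring
  calc ((Bad ∪ univ.biUnion Bad').card : ℝ) / (q : ℝ) ^ N
      ≤ (Bad.card + ∑ i, ((Bad' i).card : ℝ)) / (q : ℝ) ^ N :=
        div_le_div_of_nonneg_right h1R hqN.le
    _ = (Bad.card : ℝ) / (q : ℝ) ^ N + (∑ i, ((Bad' i).card : ℝ)) / (q : ℝ) ^ N := add_div _ _ _
    _ ≤ _ := by linarith

open scoped Classical in
/-- The basic inequality. -/
theorem basic_ineq3 {q : ℕ} (hq : Fintype.card K = q) {n k g t w D : ℕ} [NeZero n]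
    (p R κ' l : ℕ)
    (hlen : k * (t + 2) + p = n) (hwidth : 1 + g * (w * D) ≤ n) (hg : 0 < g) (hD : 0 < D)
    (hκ : κ' + ((q - 1) * (2 * q + R) * k + (l + k) * ((q - 1) * R * (q - 1) * (q - 1))) = k * t)
    (C : Circuit K (Fin n × Fin n × Fin n)) (hC : C.IsSynHomog) (hout : C.output = imm K n n)
    {θ : ℝ} (hθ0 : 0 < θ) (hθ1 : θ < 1) (f : Fin t → F1 w D) (a₀ : VV w D) {ψ₀ : ℝ}
    (hψ : ψ₀ ≤ ∑ ω : Fin t → VV w D → Fin D → Fin q, pw (pw (pw (nuθ q θ))) ω *
        (if ∃ a, ∃ π, ValidPath t (hd f) ω a π then 1 else 0)) (hψ₁ : ψ₀ ≤ 1) :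
    1 - k * (1 - ψ₀) ^ g ≤ C.nL * Real.exp (-(R : ℝ) / (2 * q)) +
      C.nT * Bsum n k / (q : ℝ) ^ l + C.nT * θ ^ κ' := by
  have hq0 : 0 < q := hq ▸ Fintype.card_pos
  have hq' : (0 : ℝ) < q := by exact_mod_cast hq0
  obtain ⟨ι, hι, hι0⟩ := exists_embedding g w D n hwidth
  have hL : (allL (K := K) (g := g) (k := k) f p).length = n := by
    rw [allL_length, hlen]
  let at' := atMap ι (allL (K := K) (g := g) (k := k) f p) hL
  obtain ⟨Bad, hBad, hmid⟩ := exists_bad C at' hq R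
  have hhom : C.output.IsHomogeneous n := by
    rw [hout]
    exact imm_hom n n
  have hne : C.output ≠ 0 := by
    rw [hout]
    exact imm_ne_zero n n
  obtain ⟨L, γ, hLlen, hLeq⟩ := top_normal_form C hC n hhom hne
  have hsel := fun i => sel_factor hq R k l n (fun j x => evX at' x (C.mVal j)) Bad hmid (L i)
    (hLlen i)
  choose Bad' G hBad' hfac using hsel
  -- the coefficient identity
  have hcoef : ∀ (x : XX k g t D (VV w D) → K) (bb : Fin k → Fin g × VV w D),
      coeff (uuY bb) (∑ i, MvPolynomial.C (γ i) *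
        ((L i).map fun j => evX at' x (C.mVal j)).prod) = PhiB (hd f) x bb := by
    intro x bb
    have h1 := hLeq (MvPolynomial (YY k g w D) K) (evX at' x)
    simp only [MvPolynomial.algebraMap_eq] at h1
    rw [← h1, hout, imm_projection x hι hι0 f p hL, coeff_prod_Sc]
  -- the independent family
  let A : Finset (XX k g t D (VV w D) → Fin q) := univ.filter fun T => Covered (hd f) T
  obtain ⟨M, bb, hM1, hM2, hM3⟩ := lm_family (K := K) hq hg hD (hd f) a₀ A
    (fun T hT => (Finset.mem_filter.1 hT).2)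
  have hfun : ∀ T, (fun x => mon (M T) x * coeff (uuY (bb T)) (∑ i, MvPolynomial.C (γ i) *
        ((L i).map fun j => evX at' x (C.mVal j)).prod)) =
      fun x => mon (M T) x * PhiB (hd f) x (bb T) := by
    intro T
    funext x
    rw [hcoef]
  have hcore := core_ineq3 hq R (fun j x => evX at' x (C.mVal j)) Bad (Bad ∪ univ.biUnion Bad')
    Finset.subset_union_left hmid L γ G k (k * t) κ' _
    (fun i B w' hw' => by
      obtain ⟨h, hh, hhf⟩ := hfac i B w' hw'
      refine ⟨h, hh, fun x hx => hhf x ?_ ?_⟩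
      · exact fun hc => hx (Finset.mem_union_left _ hc)
      · exact fun hc => hx (Finset.mem_union_right _ (Finset.mem_biUnion.2 ⟨i, Finset.mem_univ _, hc⟩)))
    hκ A M (fun T => uuY (bb T)) hM1 (fun T _ => uuY_degree _)
    (fun T hT => by
      rw [hfun T]
      exact hM2 T hT)
    (by
      convert hM3 using 2 with T
      exact hfun T.1)
    hθ0 hθ1
  have hcov := covered_weight (k := k) (g := g) hq0 hθ0 (hd f) hψ hψ₁
  have hZ : 0 < Zθ q θ := Zθ_pos hq0 hθ0
  have hZN : 0 < Zθ q θ ^ Fintype.card (XX k g t D (VV w D)) := pow_pos hZ _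
  have h1 : (1 - k * (1 - ψ₀) ^ g) * Zθ q θ ^ Fintype.card (XX k g t D (VV w D)) ≤
      (((Bad ∪ univ.biUnion Bad').card : ℝ) / (q : ℝ) ^ Fintype.card (XX k g t D (VV w D)) +
        C.nT * θ ^ κ') * Zθ q θ ^ Fintype.card (XX k g t D (VV w D)) := by
    refine le_trans hcov ?_
    exact hcore
  have h2 := le_of_mul_le_mul_right h1 hZN
  have hqN : 0 < (q : ℝ) ^ Fintype.card (XX k g t D (VV w D)) := by positivity
  have h3 : (Bad.card : ℝ) / (q : ℝ) ^ Fintype.card (XX k g t D (VV w D)) ≤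
      C.nL * Real.exp (-(R : ℝ) / (2 * q)) := by
    rw [div_le_iff₀ hqN]
    calc (Bad.card : ℝ) ≤ _ := hBad
      _ = _ := by ring
  have h4 := card_bad2 (q := q) (l := l) (N := Fintype.card (XX k g t D (VV w D)))
    (B := Bsum n k) hq0 Bad Bad' hBad'
  linarith

end Vale.Agent.Lib.P346.S
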