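import Mathlib
import Vale.Agent.Lib.P346.Cover2

/-!
The weight of the covered exponent vectors for a single copy of the graph: the events for distinct
segments are independent.
-/

namespace Vale.Agent.Lib.P346.Y

open Finset

variable {V : Type*} [Fintype V] [DecidableEq V] {k t D q : ℕ}

open scoped Classical in
/-- The exact weight of the covered vectors. -/
theorem covered_eq (ν : Fin q → ℝ) (φ : Fin t → V → Fin D → V) :
    ∑ T : XX k 1 t D V → Fin q, pw ν T * (if S.Covered φ T then 1 else 0) =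
      (∑ ω : Fin t → V → Fin D → Fin q, pw (pw (pw ν)) ω *
        (if ∃ a, ∃ π, ValidPath t φ ω a π then 1 else 0)) ^ k := by
  let C : (Fin t → V → Fin D → Fin q) → Prop := fun ω => ∃ a, ∃ π, ValidPath t φ ω a π
  have hbox := pw_box (ι := Fin k × Fin 1) (pw (pw (pw ν))) (fun _ ω => if C ω then (1 : ℝ) else 0)
  have h1 : ∀ S' : Fin k × Fin 1 → Fin t → V → Fin D → Fin q,
      ∏ p : Fin k × Fin 1, (if C (S' p) then (1 : ℝ) else 0) =
        if ∀ i, C (S' (i, 0)) then 1 else 0 := by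
    intro S'
    by_cases h : ∀ i, C (S' (i, 0))
    · rw [if_pos h]
      apply Finset.prod_eq_one
      rintro ⟨i, b⟩ _
      have hb : b = 0 := Subsingleton.elim _ _
      rw [if_pos (by rw [hb]; exact h i)]
    · rw [if_neg h]
      push Not at h
      obtain ⟨i, hi⟩ := h
      apply Finset.prod_eq_zero (Finset.mem_univ (i, (0 : Fin 1)))
      rw [if_neg hi]
  simp only [h1] at hbox
  rw [Finset.prod_const, Finset.card_univ, Fintype.card_prod, Fintype.card_fin, Fintype.card_fin,
    mul_one] at hbox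
  refine Eq.trans ?_ hbox
  apply Fintype.sum_equiv (curryEquiv k 1 t D q V)
  intro T
  rw [pw_flat]
  congr 1
  have h2 : S.Covered φ T ↔ ∀ i, C (curryEquiv k 1 t D q V T (i, 0)) := by
    constructor
    · intro h i
      obtain ⟨b, a, π, hπ⟩ := h i
      have hb : b = 0 := Subsingleton.elim _ _
      subst hb
      exact ⟨a, π, hπ⟩
    · intro h i
      obtain ⟨a, π, hπ⟩ := h i
      exact ⟨0, a, π, hπ⟩
  simp only [h2]

open scoped Classical in
/-- The weight of the covered vectors in terms of `θ`. -/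
theorem covered_weight_one {θ : ℝ} (hq : 0 < q) (h0 : 0 < θ)
    (φ : Fin t → V → Fin D → V) {ψ₀ : ℝ} (hψ0 : 0 ≤ ψ₀)
    (hψ : ψ₀ ≤ ∑ ω : Fin t → V → Fin D → Fin q, pw (pw (pw (nuθ q θ))) ω *
        (if ∃ a, ∃ π, ValidPath t φ ω a π then 1 else 0)) :
    ψ₀ ^ k * Zθ q θ ^ Fintype.card (XX k 1 t D V) ≤
      ∑ T ∈ (univ.filter fun T : XX k 1 t D V → Fin q => S.Covered φ T),
        θ ^ (∑ z, (T z : ℕ)) := by
  have hZ := Zθ_pos hq h0
  have hZN : 0 < Zθ q θ ^ Fintype.card (XX k 1 t D V) := pow_pos hZ _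
  have hpw : ∀ T : XX k 1 t D V → Fin q, pw (nuθ q θ) T =
      θ ^ (∑ z, (T z : ℕ)) / Zθ q θ ^ Fintype.card (XX k 1 t D V) := by
    intro T
    simp only [pw, nuθ]
    rw [Finset.prod_div_distrib, Finset.prod_pow_eq_pow_sum, Finset.prod_const, Finset.card_univ]
  have hcov : ∑ T ∈ (univ.filter fun T : XX k 1 t D V → Fin q => S.Covered φ T),
      θ ^ (∑ z, (T z : ℕ)) = Zθ q θ ^ Fintype.card (XX k 1 t D V) *
        ∑ T : XX k 1 t D V → Fin q, pw (nuθ q θ) T * (if S.Covered φ T then 1 else 0) := by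
    rw [Finset.sum_filter, Finset.mul_sum]
    refine Finset.sum_congr rfl fun T _ => ?_
    rw [hpw T]
    split_ifs
    · field_simp
    · simp
  rw [hcov, covered_eq, mul_comm]
  exact mul_le_mul_of_nonneg_left (pow_le_pow_left₀ hψ0 hψ k) hZN.le

end Vale.Agent.Lib.P346.Y
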