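import Mathlib
import Vale.Agent.Lib.P346.Normal

/-!
Refined normal form: formal degrees of the middle gates, which bound the functional degree of the
constant coefficient after substitution.
-/

namespace Vale.Agent.Lib.P346

open Finset MvPolynomial

variable {K : Type*} [Field K]
variable {V : Type*} [Fintype V]
variable {X Y : Type*} [Fintype X] [DecidableEq X]

section coeff0

variable [Fintype K]

/-- The constant coefficient of a bottom gate after substitution. -/
theorem bVal_const (C : Circuit K V) (at' : V → Y ⊕ X ⊕ K) {dB : Fin C.nB → ℕ}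
    (hB : ∀ j, (dB j = 0 ∧ ∀ v, C.bCoeff j v = 0) ∨ (dB j = 1 ∧ C.bConst j = 0)) (j : Fin C.nB) :
    (fun x => constantCoeff (evX at' x (C.bVal j))) ∈ FD K X (dB j) := by
  classical
  have h1 : ∀ x : X → K, constantCoeff (evX at' x (C.bVal j)) =
      (C.bConst j + ∑ v, cPart at' (C.bCoeff j v) v) +
        ∑ e, (∑ v, βPart at' (C.bCoeff j v) v e) * x e := by
    intro x
    rw [bVal_evX]
    simp only [botEv, map_add, constantCoeff_C]
    have h2 : constantCoeff (∑ v, lamPart at' (C.bCoeff j v) v) = 0 := by
      rw [map_sum]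
      apply Finset.sum_eq_zero
      intro v _
      simp only [lamPart]
      cases at' v with
      | inl y => simp
      | inr z => simp
    rw [h2, zero_add]
  have hfun : (fun x => constantCoeff (evX at' x (C.bVal j))) = fun x : X → K =>
      (C.bConst j + ∑ v, cPart at' (C.bCoeff j v) v) +
        ∑ e, (∑ v, βPart at' (C.bCoeff j v) v e) * x e := funext h1
  rw [hfun]
  rcases hB j with ⟨h0, h2⟩ | ⟨h0, _⟩
  · rw [h0]
    have h3 : ∀ v, cPart at' (C.bCoeff j v) v = 0 := by
      intro v
      rw [h2 v]
      simp only [cPart]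
      cases at' v with
      | inl y => rfl
      | inr z =>
        cases z with
        | inl e => rfl
        | inr c => simp
    have h4 : ∀ v e, βPart at' (C.bCoeff j v) v e = 0 := by
      intro v e
      rw [h2 v]
      simp only [βPart]
      cases at' v with
      | inl y => rfl
      | inr z =>
        cases z with
        | inl e₀ => simp
        | inr c => rfl
    simp only [h3, h4, Finset.sum_const_zero, add_zero, zero_mul]
    exact FD_const _ _
  · rw [h0]
    exact FD_affine _ _

/-- The functional degree of the constant coefficient of a lower gate. -/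
theorem lVal_const (C : Circuit K V) (at' : V → Y ⊕ X ⊕ K) {dB : Fin C.nB → ℕ} {dL : Fin C.nL → ℕ}
    (hB : ∀ j, (dB j = 0 ∧ ∀ v, C.bCoeff j v = 0) ∨ (dB j = 1 ∧ C.bConst j = 0))
    (hL : ∀ i, dL i = ∑ j, C.lExp i j * dB j) (i : Fin C.nL) :
    (fun x => constantCoeff (evX at' x (C.lVal i))) ∈ FD K X (dL i) := by
  classical
  have h1 : (fun x => constantCoeff (evX at' x (C.lVal i))) =
      ∏ j, (fun x => constantCoeff (evX at' x (C.bVal j))) ^ C.lExp i j := by
    funext x
    simp only [Circuit.lVal, map_prod, map_pow, Finset.prod_apply, Pi.pow_apply]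
  rw [h1, hL]
  have h2 : ∀ (s : Finset (Fin C.nB)), (∏ j ∈ s, (fun x => constantCoeff (evX at' x (C.bVal j))) ^
      C.lExp i j) ∈ FD K X (∑ j ∈ s, C.lExp i j * dB j) := by
    intro s
    induction s using Finset.induction_on with
    | empty => simpa using FD_one
    | insert a s ha ih =>
      rw [Finset.prod_insert ha, Finset.sum_insert ha]
      refine FD_mul_mem ?_ ih
      have := FD_pow_mem (bVal_const C at' hB a) (C.lExp i a)
      rwa [mul_comm] at this
  exact h2 univ

/-- The functional degree of the constant coefficient of a middle gate. -/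
theorem mVal_const_FD (C : Circuit K V) (at' : V → Y ⊕ X ⊕ K) {dB : Fin C.nB → ℕ}
    {dL : Fin C.nL → ℕ} {dM : Fin C.nM → ℕ}
    (hB : ∀ j, (dB j = 0 ∧ ∀ v, C.bCoeff j v = 0) ∨ (dB j = 1 ∧ C.bConst j = 0))
    (hL : ∀ i, dL i = ∑ j, C.lExp i j * dB j)
    (hM : ∀ i j, C.mCoeff i j ≠ 0 → dL j = dM i) (i : Fin C.nM) :
    (fun x => coeff 0 (evX at' x (C.mVal i))) ∈ FD K X (dM i) := by
  classical
  have h1 : (fun x => coeff 0 (evX at' x (C.mVal i))) =
      ∑ j, C.mCoeff i j • (fun x => constantCoeff (evX at' x (C.lVal j))) := by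
    funext x
    simp only [Circuit.mVal, map_sum, map_mul, evX, aeval_C, MvPolynomial.algebraMap_eq,
      coeff_sum, coeff_C_mul, Finset.sum_apply, Pi.smul_apply, smul_eq_mul, constantCoeff_eq]
  rw [h1]
  refine Submodule.sum_mem _ fun j _ => ?_
  by_cases hj : C.mCoeff i j = 0
  · rw [hj, zero_smul]
    exact Submodule.zero_mem _
  · apply Submodule.smul_mem
    rw [← hM i j hj]
    exact lVal_const C at' hB hL j

end coeff0

theorem list_sum_replicate {α : Type*} (s : Finset α) (e d : α → ℕ) :
    ((s.toList.flatMap fun j => List.replicate (e j) j).map d).sum = ∑ j ∈ s, e j * d j := by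
  rw [← Finset.sum_map_toList]
  induction s.toList with
  | nil => simp
  | cons a l ih =>
    simp only [List.flatMap_cons, List.map_append, List.sum_append, List.map_replicate,
      List.sum_replicate, List.map_cons, List.sum_cons, ih, smul_eq_mul]

/-- Normal form of the output of a homogeneous circuit of output degree `n`, with degrees. -/
theorem top_normal_form3 (C : Circuit K V) (hC : C.IsSynHomog) (n : ℕ) [Fintype K]
    (hdeg : C.output.IsHomogeneous n) (hne : C.output ≠ 0) (X Y : Type*) [Fintype X]
    [DecidableEq X] :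
    ∃ (dM : Fin C.nM → ℕ) (L : Fin C.nT → List (Fin C.nM)) (γ : Fin C.nT → K),
      (∀ i, ((L i).map dM).sum ≤ n) ∧ (∀ i, ∀ j ∈ L i, 1 ≤ dM j) ∧
      (∀ (at' : V → Y ⊕ X ⊕ K) j, (fun x => coeff 0 (evX at' x (C.mVal j))) ∈ FD K X (dM j)) ∧
      ∀ (R : Type _) [CommRing R] [Algebra K R] (e : MvPolynomial V K →ₐ[K] R),
        e C.output = ∑ i, algebraMap K R (γ i) * ((L i).map fun j => e (C.mVal j)).prod := by
  classical
  obtain ⟨dB, dL, dM, dT, Δ, hB, hL, hM, hT, hO⟩ := hC
  -- the output degree
  have hΔ : C.output.IsHomogeneous Δ := by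
    unfold Circuit.output
    apply IsHomogeneous.sum
    intro i _
    by_cases h : C.oCoeff i = 0
    · rw [h, map_zero, zero_mul]
      exact isHomogeneous_zero _ _ _
    · rw [← hO i h]
      exact (tVal_hom C hB hL hM hT i).C_mul _
  have hΔn : Δ = n := hΔ.inj_right hdeg hne
  have hconst : ∀ j, dM j = 0 → ∃ c : K, C.mVal j = MvPolynomial.C c :=
    fun j h => mVal_const C hB hL hM j h
  choose! cc hcc using hconst
  let S : Finset (Fin C.nM) := univ.filter fun j => dM j ≠ 0
  let L : Fin C.nT → List (Fin C.nM) := fun i =>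
    if C.oCoeff i = 0 then [] else S.toList.flatMap fun j => List.replicate (C.tExp i j) j
  let γ : Fin C.nT → K := fun i =>
    C.oCoeff i * ∏ j ∈ univ.filter (fun j => dM j = 0), cc j ^ C.tExp i j
  refine ⟨dM, L, γ, ?_, ?_, ?_, ?_⟩
  · intro i
    simp only [L]
    split_ifs with h
    · simp
    · rw [list_sum_replicate]
      have h1 := hO i h
      rw [hT i, hΔn] at h1
      rw [← h1]
      exact Finset.sum_le_sum_of_subset (Finset.subset_univ _)
  · intro i j hj
    simp only [L] at hj
    split_ifs at hj with h
    · simp at hj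
    · obtain ⟨j', hj', hj2⟩ := List.mem_flatMap.1 hj
      have h3 : j = j' := List.eq_of_mem_replicate hj2
      have h4 : dM j' ≠ 0 := (Finset.mem_filter.1 (Finset.mem_toList.1 hj')).2
      rw [h3]
      omega
  · intro at' j
    exact mVal_const_FD C at' hB hL hM j
  · intro R _ _ e
    unfold Circuit.output
    rw [map_sum]
    refine Finset.sum_congr rfl fun i _ => ?_
    by_cases h : C.oCoeff i = 0
    · simp [γ, h]
    · have hC : ∀ c : K, e (MvPolynomial.C c) = algebraMap K R c := by
        intro c
        have := e.commutes c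
        rwa [MvPolynomial.algebraMap_eq] at this
      have h1 : e (C.tVal i) = (∏ j ∈ univ.filter (fun j => dM j = 0),
          algebraMap K R (cc j) ^ C.tExp i j) * ∏ j ∈ S, e (C.mVal j) ^ C.tExp i j := by
        unfold Circuit.tVal
        rw [map_prod]
        simp only [map_pow]
        rw [← Finset.prod_filter_mul_prod_filter_not univ (fun j => dM j = 0)]
        congr 1
        · refine Finset.prod_congr rfl fun j hj => ?_
          have : dM j = 0 := (Finset.mem_filter.1 hj).2
          rw [hcc j this, hC]
      simp only [L, if_neg h, γ]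
      rw [list_prod_replicate, map_mul, h1, hC, map_mul, map_prod]
      simp only [map_pow]
      ring

end Vale.Agent.Lib.P346
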