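import Mathlib
import Vale.Agent.Lib.P346.Rs
import Vale.Agent.Lib.P346.Normal3

/-!
The top product gates, with the factors sorted by functional degree: the subset sums for the
factors of a given degree use a number of rounds adapted to the number of such factors.
-/

namespace Vale.Agent.Lib.P346.R

open Finset MvPolynomial

variable {K : Type*} [Field K] [Fintype K]
variable {X : Type*} [Fintype X] [DecidableEq X]

/-- Products with varying degrees. -/
theorem FD_prod_var {ι : Type*} (s : Finset ι) (f : ι → (X → K) → K) (d : ι → ℕ)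
    (hf : ∀ i ∈ s, f i ∈ FD K X (d i)) : (∏ i ∈ s, f i) ∈ FD K X (∑ i ∈ s, d i) := by
  classical
  induction s using Finset.induction_on with
  | empty => simpa using FD_one
  | insert a s ha ih =>
    rw [Finset.prod_insert ha, Finset.sum_insert ha]
    exact FD_mul_mem (hf a (Finset.mem_insert_self _ _))
      (ih fun i hi => hf i (Finset.mem_insert_of_mem hi))

/-- The subsets of size at most `k` of a given set. -/
def Tset {a : ℕ} (C : Finset (Fin a)) (k : ℕ) : Finset (Finset (Fin a)) :=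
  C.powerset.filter fun T => T.card ≤ k

theorem card_Tset {a : ℕ} (C : Finset (Fin a)) (k : ℕ) : (Tset C k).card ≤ Bsum C.card k := by
  classical
  have h1 : Tset C k ⊆ (Finset.range (k + 1)).biUnion fun i => Finset.powersetCard i C := by
    intro T hT
    have hT' := Finset.mem_filter.1 hT
    refine Finset.mem_biUnion.2 ⟨T.card, Finset.mem_range.2 (by omega), ?_⟩
    exact Finset.mem_powersetCard.2 ⟨Finset.mem_powerset.1 hT'.1, rfl⟩
  refine le_trans (Finset.card_le_card h1) (le_trans Finset.card_biUnion_le ?_)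
  unfold Bsum
  apply le_of_eq
  exact Finset.sum_congr rfl fun i _ => by rw [Finset.card_powersetCard]

open scoped Classical in
/-- Rounds of subset sums for one class. -/
theorem class_round {q a : ℕ} (hq : Fintype.card K = q) (N : Fin a → (X → K) → K)
    (T : Finset (Finset (Fin a))) (l : ℕ) :
    ∃ (c : Fin l → Fin a → K) (Bad : Finset (X → K)),
      q ^ l * Bad.card ≤ T.card * q ^ Fintype.card X ∧
      ∀ x, x ∉ Bad → ∀ S ∈ T, (∃ p, p ∉ S ∧ N p x ≠ 0) → rsF (q := q) c N S x = 0 := by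
  classical
  let P : Finset ((X → K) × Finset (Fin a)) :=
    (univ ×ˢ T).filter fun z => ∃ p, p ∉ z.2 ∧ N p z.1 ≠ 0
  let w : (X → K) × Finset (Fin a) → Fin a → K := fun z p => if p ∈ z.2 then 0 else N p z.1
  have hw : ∀ z ∈ P, w z ≠ 0 := by
    intro z hz h0
    obtain ⟨p, hp, hNp⟩ := (Finset.mem_filter.1 hz).2
    have := congrFun h0 p
    simp only [w, hp, if_false, Pi.zero_apply] at this
    exact hNp this
  obtain ⟨c, hc⟩ := exists_rounds hq P w hw l
  let Q := P.filter fun z => ∀ r, ∑ i, c r i * w z i = 0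
  refine ⟨c, Q.image Prod.fst, ?_, ?_⟩
  · have hcard : P.card ≤ T.card * q ^ Fintype.card X := by
      refine le_trans (Finset.card_filter_le _ _) ?_
      rw [Finset.card_product, Finset.card_univ, Fintype.card_fun, hq, mul_comm]
    calc q ^ l * (Q.image Prod.fst).card ≤ q ^ l * Q.card :=
          Nat.mul_le_mul_left _ Finset.card_image_le
      _ ≤ P.card := hc
      _ ≤ _ := hcard
  · intro x hx S hS hex
    have hzP : (x, S) ∈ P := Finset.mem_filter.2 ⟨Finset.mem_product.2 ⟨Finset.mem_univ _, hS⟩, hex⟩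
    have hnotQ : ¬ ∀ r, ∑ j, c r j * w (x, S) j = 0 := by
      intro hall
      exact hx (Finset.mem_image.2 ⟨(x, S), Finset.mem_filter.2 ⟨hzP, hall⟩, rfl⟩)
    push Not at hnotQ
    obtain ⟨r, hr⟩ := hnotQ
    exact rsF_eq_zero hq c N S x r hr

/-- Algebra of the inverse factor. -/
theorem prod_inv_factor {a : ℕ} (ĝ : Fin a → K) (e : ℕ) (hinv : ∀ p, ĝ p * ĝ p ^ e = 1)
    (S : Finset (Fin a)) :
    (∏ p, ĝ p) * ∏ p ∈ S, ĝ p ^ e = ∏ p, (if p ∈ S then 1 else ĝ p) := by
  classical
  have h1 : ∏ p, ĝ p = (∏ p ∈ S, ĝ p) * ∏ p ∈ univ \ S, ĝ p := by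
    rw [mul_comm]
    exact (Finset.prod_sdiff (Finset.subset_univ _)).symm
  have h2 : ∏ p, (if p ∈ S then 1 else ĝ p) =
      (∏ p ∈ S, (if p ∈ S then 1 else ĝ p)) * ∏ p ∈ univ \ S, (if p ∈ S then 1 else ĝ p) := by
    rw [mul_comm]
    exact (Finset.prod_sdiff (Finset.subset_univ _)).symm
  have h3 : ∏ p ∈ S, (if p ∈ S then 1 else ĝ p) = 1 := by
    apply Finset.prod_eq_one
    intro p hp
    simp [hp]
  have h4 : ∏ p ∈ univ \ S, (if p ∈ S then 1 else ĝ p) = ∏ p ∈ univ \ S, ĝ p := by
    apply Finset.prod_congr rfl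
    intro p hp
    have : p ∉ S := by simpa using hp
    simp [this]
  rw [h1, h2, h3, h4, one_mul]
  have h5 : (∏ p ∈ S, ĝ p) * ∏ p ∈ S, ĝ p ^ e = 1 := by
    rw [← Finset.prod_mul_distrib]
    exact Finset.prod_eq_one fun p _ => hinv p
  calc (∏ p ∈ S, ĝ p) * (∏ p ∈ univ \ S, ĝ p) * ∏ p ∈ S, ĝ p ^ e
      = ((∏ p ∈ S, ĝ p) * ∏ p ∈ S, ĝ p ^ e) * ∏ p ∈ univ \ S, ĝ p := by ring
    _ = _ := by rw [h5, one_mul]

open scoped Classical in
/-- The factorization of the products with few factors removed, for factors sorted in classes. -/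
theorem exists_factor2 {q a k I dmax : ℕ} (hq : Fintype.card K = q) (g : Fin a → (X → K) → K)
    (cl : Fin a → ℕ) (deg l : ℕ → ℕ) (hcl : ∀ p, cl p < I)
    (hg : ∀ p, g p ∈ FD K X (deg (cl p))) (hd : ∀ i, i < I → deg i ≤ dmax) :
    ∃ (Bad : ℕ → Finset (X → K)) (G : (X → K) → K),
      (∀ i, q ^ l i * (Bad i).card ≤
        Bsum (univ.filter fun p => cl p = i).card k * q ^ Fintype.card X) ∧
      ∀ S : Finset (Fin a), S.card ≤ k →
        ∃ h ∈ FD K X (∑ i ∈ range I, l i * (deg i * (q - 1) * (q - 1)) +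
            k * (dmax * (q - 1) * (q - 1))),
          ∀ x, (∀ i ∈ range I, x ∉ Bad i) → ∏ p, (if p ∈ S then 1 else g p x) = G x * h x := by
  classical
  have hq2 : 2 ≤ q := hq ▸ Fintype.one_lt_card
  let N : Fin a → (X → K) → K := fun p => 1 - g p ^ (q - 1)
  let ĝ : Fin a → (X → K) → K := fun p => g p + N p
  have hN0 : ∀ p x, g p x ≠ 0 → N p x = 0 := by
    intro p x hx
    simp only [N, Pi.sub_apply, Pi.one_apply, Pi.pow_apply]
    rw [← hq, FiniteField.pow_card_sub_one_eq_one _ hx, sub_self]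
  have hN1 : ∀ p x, g p x = 0 → N p x = 1 := by
    intro p x hx
    simp only [N, Pi.sub_apply, Pi.one_apply, Pi.pow_apply]
    rw [hx, zero_pow (by omega), sub_zero]
  have hĝne : ∀ p x, ĝ p x ≠ 0 := by
    intro p x
    simp only [ĝ, Pi.add_apply]
    by_cases hx : g p x = 0
    · rw [hx, hN1 p x hx]
      simp
    · rw [hN0 p x hx, add_zero]
      exact hx
  have hĝinv : ∀ p x, ĝ p x * ĝ p x ^ (q - 2) = 1 := by
    intro p x
    have h1 : ĝ p x * ĝ p x ^ (q - 2) = ĝ p x ^ (q - 1) := by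
      rw [← pow_succ']
      congr 1
      omega
    rw [h1, ← hq, FiniteField.pow_card_sub_one_eq_one _ (hĝne p x)]
  have hNmem : ∀ p, N p ∈ FD K X (deg (cl p) * (q - 1)) := by
    intro p
    apply Submodule.sub_mem
    · exact FD_mono (Nat.zero_le _) FD_one
    · exact FD_pow_mem (hg p) _
  have hĝmem : ∀ p, ĝ p ∈ FD K X (deg (cl p) * (q - 1)) := by
    intro p
    apply Submodule.add_mem _ _ (hNmem p)
    refine FD_mono ?_ (hg p)
    exact Nat.le_mul_of_pos_right _ (by omega)
  -- the classes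
  let C : ℕ → Finset (Fin a) := fun i => univ.filter fun p => cl p = i
  let Ni : ℕ → Fin a → (X → K) → K := fun i p => if cl p = i then N p else 0
  have hNi : ∀ i p, Ni i p ∈ FD K X (deg i * (q - 1)) := by
    intro i p
    by_cases h : cl p = i
    · simp only [Ni, h, if_true]
      rw [← h]
      exact hNmem p
    · simp only [Ni, h, if_false]
      exact Submodule.zero_mem _
  have hround := fun i => class_round (X := X) hq (Ni i) (Tset (C i) k) (l i)
  choose c Bad hBad hzero using hround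
  let R : Finset (Fin a) → ℕ → (X → K) → K := fun S i => rsF (q := q) (c i) (Ni i) (S ∩ C i)
  refine ⟨Bad, ∏ p, ĝ p, ?_, ?_⟩
  · intro i
    refine le_trans (hBad i) (Nat.mul_le_mul_right _ ?_)
    exact card_Tset _ _
  · intro S hS
    refine ⟨(∏ i ∈ range I, R S i) * ∏ p ∈ S, ĝ p ^ (q - 2), ?_, ?_⟩
    · have h1 : (∏ i ∈ range I, R S i) ∈ FD K X
          (∑ i ∈ range I, l i * (deg i * (q - 1) * (q - 1))) := by
        apply FD_prod_var
        intro i _
        have := rsF_mem (q := q) (c i) (Ni i) (S ∩ C i) (hNi i)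
        convert this using 2
        ring
      have h2 : (∏ p ∈ S, ĝ p ^ (q - 2)) ∈ FD K X (k * (dmax * (q - 1) * (q - 1))) := by
        have h3 : ∀ p ∈ S, ĝ p ^ (q - 2) ∈ FD K X (dmax * (q - 1) * (q - 1)) := by
          intro p _
          refine FD_mono ?_ (FD_pow_mem (hĝmem p) _)
          exact Nat.mul_le_mul (Nat.mul_le_mul_right _ (hd _ (hcl p))) (by omega)
        have h4 := FD_prod_mem S _ h3
        refine FD_mono ?_ h4
        rw [mul_comm]
        exact Nat.mul_le_mul_right _ hS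
      exact FD_mul_mem h1 h2
    · intro x hx
      have hval : (∏ p, ĝ p) x * ((∏ i ∈ range I, R S i) * ∏ p ∈ S, ĝ p ^ (q - 2)) x =
          (∏ i ∈ range I, R S i x) * ∏ p, (if p ∈ S then 1 else ĝ p x) := by
        rw [← prod_inv_factor (fun p => ĝ p x) (q - 2) (fun p => hĝinv p x) S]
        simp only [Pi.mul_apply, Finset.prod_apply, Pi.pow_apply]
        ring
      rw [hval]
      by_cases hz : ∀ p, p ∉ S → N p x = 0
      · have h1 : ∀ i ∈ range I, R S i x = 1 := by
          intro i _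
          apply rsF_eq_one hq2
          intro p hp
          simp only [Ni]
          by_cases hcp : cl p = i
          · simp only [hcp, if_true]
            apply hz
            intro hpS
            apply hp
            exact Finset.mem_inter.2 ⟨hpS, Finset.mem_filter.2 ⟨Finset.mem_univ _, hcp⟩⟩
          · simp [hcp]
        rw [Finset.prod_eq_one h1, one_mul]
        apply Finset.prod_congr rfl
        intro p _
        by_cases hp : p ∈ S
        · simp [hp]
        · simp only [hp, if_false, ĝ, Pi.add_apply, hz p hp, add_zero]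
      · push Not at hz
        obtain ⟨p₀, hp₀, hNp₀⟩ := hz
        have hg0 : g p₀ x = 0 := by
          by_contra h
          exact hNp₀ (hN0 p₀ x h)
        have hi := hcl p₀
        have hmem : S ∩ C (cl p₀) ∈ Tset (C (cl p₀)) k := by
          refine Finset.mem_filter.2 ⟨Finset.mem_powerset.2 Finset.inter_subset_right, ?_⟩
          exact le_trans (Finset.card_le_card Finset.inter_subset_left) hS
        have h0 : R S (cl p₀) x = 0 := by
          apply hzero (cl p₀) x (hx _ (Finset.mem_range.2 hi)) _ hmem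
          refine ⟨p₀, ?_, ?_⟩
          · intro h
            exact hp₀ (Finset.mem_inter.1 h).1
          · simp only [Ni, if_true]
            exact hNp₀
        rw [Finset.prod_eq_zero (Finset.mem_range.2 hi) h0, zero_mul]
        apply Finset.prod_eq_zero (Finset.mem_univ p₀)
        simp [hp₀, hg0]

open Vale.Agent.Lib.P346

variable {Y ι : Type*}

theorem sum_get (d : ι → ℕ) : ∀ L : List ι, (L.map d).sum = ∑ p : Fin L.length, d (L.get p) := by
  intro L
  induction L with
  | nil => simp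
  | cons j L ih =>
    simp only [List.map_cons, List.sum_cons, List.length_cons]
    rw [Fin.sum_univ_succ, ih]
    rfl

/-- The factorization of the coefficient functions attached to a top product gate. -/
theorem sel_factor2 {q : ℕ} (hq : Fintype.card K = q) (R k n : ℕ) (l : ℕ → ℕ)
    (hR : 1 ≤ (q - 1) * R)
    (midEv : ι → (X → K) → MvPolynomial Y K) (Bad : Finset (X → K))
    (hmid : ∀ j (v : Y →₀ ℕ), AgreeIn Bad (FD K X ((q - 1) * (2 * q * v.degree + R)))
      (fun x => coeff v (midEv j x)))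
    (dM : ι → ℕ) (hFD0 : ∀ j, (fun x => coeff 0 (midEv j x)) ∈ FD K X (dM j))
    (L : List ι) (hsum : (L.map dM).sum ≤ n) (hpos : ∀ j ∈ L, 1 ≤ dM j) :
    ∃ (Bad' : Finset (X → K)) (G : (X → K) → K),
      (Bad'.card : ℝ) ≤ (∑ j ∈ range (Nat.log 2 ((q - 1) * R) + 1),
          (Bsum (n / 2 ^ (Nat.log 2 ((q - 1) * R) - j)) k : ℝ) / (q : ℝ) ^ l j) *
        (q : ℝ) ^ Fintype.card X ∧
      ∀ (B : ℕ), ∀ w ∈ Wsp (Sel midEv L k) B,
        ∃ h ∈ FD K X (B + (∑ j ∈ range (Nat.log 2 ((q - 1) * R) + 1),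
              l j * (2 ^ (Nat.log 2 ((q - 1) * R) + 1 - j) * (q - 1) * (q - 1)) +
            k * (2 ^ (Nat.log 2 ((q - 1) * R) + 1) * (q - 1) * (q - 1)))),
          ∀ x, x ∉ Bad → x ∉ Bad' → w x = G x * h x := by
  classical
  have hq0 : 0 < q := hq ▸ Fintype.card_pos
  obtain ⟨R', hR'⟩ : ∃ R', R' = (q - 1) * R := ⟨_, rfl⟩
  rw [← hR'] at hR ⊢
  obtain ⟨I₀, hI₀⟩ : ∃ I₀, I₀ = Nat.log 2 R' := ⟨_, rfl⟩
  rw [← hI₀]
  -- the approximants
  have hg : ∀ p : Fin L.length, ∃ g ∈ FD K X (min (dM (L.get p)) R'),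
      ∀ x, x ∉ Bad → coeff 0 (midEv (L.get p) x) = g x := by
    intro p
    by_cases h : dM (L.get p) ≤ R'
    · rw [min_eq_left h]
      exact ⟨_, hFD0 _, fun _ _ => rfl⟩
    · rw [min_eq_right (by omega)]
      obtain ⟨g, hg, hgf⟩ := hmid (L.get p) 0
      refine ⟨g, ?_, hgf⟩
      simpa [hR'] using hg
  choose g hg hgf using hg
  -- the classes
  let δ : Fin L.length → ℕ := fun p => min (dM (L.get p)) R'
  have hδ1 : ∀ p, 1 ≤ δ p := fun p => le_min (hpos _ (List.get_mem _ _)) hR
  have hδR : ∀ p, δ p ≤ R' := fun p => min_le_right _ _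
  have hlog : ∀ p, Nat.log 2 (δ p) ≤ I₀ := fun p => by
    rw [hI₀]
    exact Nat.log_mono_right (hδR p)
  let cl : Fin L.length → ℕ := fun p => I₀ - Nat.log 2 (δ p)
  have hcl : ∀ p, cl p < I₀ + 1 := fun p => by
    simp only [cl]
    omega
  have hgdeg : ∀ p, g p ∈ FD K X ((fun j => 2 ^ (I₀ + 1 - j)) (cl p)) := by
    intro p
    refine FD_mono ?_ (hg p)
    have h1 : δ p < 2 ^ (Nat.log 2 (δ p) + 1) := Nat.lt_pow_succ_log_self (by norm_num) _
    have h2 : I₀ + 1 - cl p = Nat.log 2 (δ p) + 1 := by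
      have := hlog p
      simp only [cl]
      omega
    simp only [h2]
    exact h1.le
  obtain ⟨BadI, G, hBadI, hfac⟩ := exists_factor2 (q := q) (k := k) (I := I₀ + 1)
    (dmax := 2 ^ (I₀ + 1)) hq g cl (fun j => 2 ^ (I₀ + 1 - j)) l hcl hgdeg
    (fun i _ => Nat.pow_le_pow_right (by norm_num) (Nat.sub_le _ _))
  -- the size of the classes
  have hclass : ∀ j, j ∈ range (I₀ + 1) →
      (univ.filter fun p => cl p = j).card ≤ n / 2 ^ (I₀ - j) := by
    intro j hj
    have hj' : j ≤ I₀ := by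
      have := Finset.mem_range.1 hj
      omega
    rw [Nat.le_div_iff_mul_le (by positivity)]
    have h1 : ∀ p ∈ (univ.filter fun p => cl p = j), 2 ^ (I₀ - j) ≤ dM (L.get p) := by
      intro p hp
      have hp' : cl p = j := (Finset.mem_filter.1 hp).2
      have h2 : Nat.log 2 (δ p) = I₀ - j := by
        have := hlog p
        simp only [cl] at hp'
        omega
      rw [← h2]
      exact le_trans (Nat.pow_log_le_self 2 (by have := hδ1 p; omega)) (min_le_left _ _)
    calc (univ.filter fun p => cl p = j).card * 2 ^ (I₀ - j)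
        = ∑ _p ∈ (univ.filter fun p => cl p = j), 2 ^ (I₀ - j) := by simp
      _ ≤ ∑ p ∈ (univ.filter fun p => cl p = j), dM (L.get p) := Finset.sum_le_sum h1
      _ ≤ ∑ p, dM (L.get p) := Finset.sum_le_sum_of_subset (Finset.subset_univ _)
      _ = (L.map dM).sum := (sum_get dM L).symm
      _ ≤ n := hsum
  refine ⟨(range (I₀ + 1)).biUnion BadI, G, ?_, ?_⟩
  · have hqR : (0 : ℝ) < q := by exact_mod_cast hq0
    calc (((range (I₀ + 1)).biUnion BadI).card : ℝ) ≤ ((∑ j ∈ range (I₀ + 1), (BadI j).card : ℕ) : ℝ) := by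
          exact_mod_cast Finset.card_biUnion_le
      _ = ∑ j ∈ range (I₀ + 1), ((BadI j).card : ℝ) := by push_cast; rfl
      _ ≤ ∑ j ∈ range (I₀ + 1), (Bsum (n / 2 ^ (I₀ - j)) k : ℝ) / (q : ℝ) ^ l j *
            (q : ℝ) ^ Fintype.card X := by
          apply Finset.sum_le_sum
          intro j hj
          have h1 := hBadI j
          have h2 : Bsum (univ.filter fun p => cl p = j).card k ≤ Bsum (n / 2 ^ (I₀ - j)) k :=
            Bsum_mono (hclass j hj) k
          have h3 : q ^ l j * (BadI j).card ≤ Bsum (n / 2 ^ (I₀ - j)) k * q ^ Fintype.card X :=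
            le_trans h1 (Nat.mul_le_mul_right _ h2)
          have h4 : (q : ℝ) ^ l j * ((BadI j).card : ℝ) ≤
              (Bsum (n / 2 ^ (I₀ - j)) k : ℝ) * (q : ℝ) ^ Fintype.card X := by
            exact_mod_cast h3
          have hql : (0 : ℝ) < (q : ℝ) ^ l j := by positivity
          rw [div_mul_eq_mul_div, le_div_iff₀ hql]
          linarith
      _ = _ := by rw [Finset.sum_mul]
  · have hSel : ∀ i : Fin (Sel midEv L k).length, ∃ S : Finset (Fin L.length), S.card ≤ k ∧
        ∀ x, (Sel midEv L k).get i x = ∏ p : Fin L.length,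
          (if p ∈ S then 1 else coeff 0 (midEv (L.get p) x)) := fun i =>
      Sel_form midEv L k _ (List.get_mem _ _)
    choose S hS hSx using hSel
    have hfac' := fun i => hfac (S i) (hS i)
    choose h hh hhf using hfac'
    intro B w hw
    induction hw using Submodule.span_induction with
    | mem f hf =>
      obtain ⟨F, hF, h₀, hh₀, rfl⟩ := hf
      obtain ⟨i, rfl⟩ := List.get_of_mem hF
      refine ⟨h₀ * h i, FD_mul_mem hh₀ (hh i), fun x hx hx' => ?_⟩
      simp only [Pi.mul_apply]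
      rw [hSx i x]
      have h1 : ∏ p : Fin L.length, (if p ∈ S i then 1 else coeff 0 (midEv (L.get p) x)) =
          ∏ p : Fin L.length, (if p ∈ S i then 1 else g p x) := by
        refine Finset.prod_congr rfl fun p _ => ?_
        by_cases hp : p ∈ S i
        · simp [hp]
        · simp only [hp, if_false]
          exact hgf p x hx
      have h2 : ∀ j ∈ range (I₀ + 1), x ∉ BadI j := fun j hj hc =>
        hx' (Finset.mem_biUnion.2 ⟨j, hj, hc⟩)
      rw [h1, hhf i x h2]
      ring
    | zero =>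
      refine ⟨0, Submodule.zero_mem _, fun x _ _ => by simp⟩
    | add w₁ w₂ _ _ h₁ h₂ =>
      obtain ⟨a₁, ha₁, hf₁⟩ := h₁
      obtain ⟨a₂, ha₂, hf₂⟩ := h₂
      refine ⟨a₁ + a₂, Submodule.add_mem _ ha₁ ha₂, fun x hx hx' => ?_⟩
      simp only [Pi.add_apply]
      rw [hf₁ x hx hx', hf₂ x hx hx']
      ring
    | smul c w₁ _ h₁ =>
      obtain ⟨a₁, ha₁, hf₁⟩ := h₁
      refine ⟨c • a₁, Submodule.smul_mem _ _ ha₁, fun x hx hx' => ?_⟩
      simp only [Pi.smul_apply, smul_eq_mul]
      rw [hf₁ x hx hx']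
      ring

end Vale.Agent.Lib.P346.R
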