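import Mathlib
import Vale.Agent.Lib.P346.Embed3
import Vale.Agent.Lib.P346.Cover3
import Vale.Agent.Lib.P346.Core3
import Vale.Agent.Lib.P346.Rs2

/-!
Assembly: the basic inequality for a single copy of a graph with arbitrary heads, and with the
factors of the top gates sorted by functional degree.
-/

namespace Vale.Agent.Lib.P346.Y

open Finset MvPolynomial Vale.Agent.Lib.P346.R

variable {K : Type*} [Field K] [Fintype K]

/-- An embedding of the vertices into `Fin n` sending the hub to `0`. -/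
theorem exists_embedding {V : Type*} [Fintype V] (g n : ℕ) [NeZero n]
    (hwidth : 1 + g * Fintype.card V ≤ n) :
    ∃ ι : Vert g V → Fin n, Function.Injective ι ∧ ι none = 0 := by
  classical
  have hcard : Fintype.card (Fin g × V) = g * Fintype.card V := by
    simp
  let e : Fin g × V ≃ Fin (g * Fintype.card V) := Fintype.equivFinOfCardEq hcard
  let ι : Vert g V → Fin n := fun v => match v with
    | none => 0
    | some z => ⟨(e z : ℕ) + 1, by have := (e z).2; omega⟩
  refine ⟨ι, ?_, rfl⟩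
  have hn : 0 < n := Nat.pos_of_ne_zero (NeZero.ne n)
  intro v v' h
  rcases v with _ | z <;> rcases v' with _ | z'
  · rfl
  · exfalso
    have := congrArg Fin.val h
    simp [ι] at this
  · exfalso
    have := congrArg Fin.val h
    simp [ι] at this
  · have := congrArg Fin.val h
    simp only [ι] at this
    have h2 : (e z : ℕ) = e z' := by omega
    rw [e.injective (Fin.ext h2)]

/-- Union bound for the exceptional sets. -/
theorem card_bad4 {α : Type*} [DecidableEq α] {q N T₀ : ℕ} {E : ℝ} (hq : 0 < q) (Bad : Finset α)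
    (Bad' : Fin T₀ → Finset α) (h : ∀ i, ((Bad' i).card : ℝ) ≤ E * (q : ℝ) ^ N) :
    ((Bad ∪ univ.biUnion Bad').card : ℝ) / (q : ℝ) ^ N ≤
      (Bad.card : ℝ) / (q : ℝ) ^ N + T₀ * E := by
  have hq' : (0 : ℝ) < q := by exact_mod_cast hq
  have hqN : (0 : ℝ) < (q : ℝ) ^ N := by positivity
  have h1 : (Bad ∪ univ.biUnion Bad').card ≤ Bad.card + ∑ i, (Bad' i).card :=
    (Finset.card_union_le _ _).trans (Nat.add_le_add_left Finset.card_biUnion_le _)
  have h1R : ((Bad ∪ univ.biUnion Bad').card : ℝ) ≤ Bad.card + ∑ i, ((Bad' i).card : ℝ) := by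
    exact_mod_cast h1
  have h3 : (∑ i, ((Bad' i).card : ℝ)) / (q : ℝ) ^ N ≤ T₀ * E := by
    rw [div_le_iff₀ hqN]
    calc ∑ i, ((Bad' i).card : ℝ) ≤ ∑ _i : Fin T₀, (E * (q : ℝ) ^ N) :=
          Finset.sum_le_sum fun i _ => h i
      _ = _ := by
          simp only [Finset.sum_const, Finset.card_univ, Fintype.card_fin, nsmul_eq_mul]
          ring
  calc ((Bad ∪ univ.biUnion Bad').card : ℝ) / (q : ℝ) ^ N
      ≤ (Bad.card + ∑ i, ((Bad' i).card : ℝ)) / (q : ℝ) ^ N :=
        div_le_div_of_nonneg_right h1R hqN.le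
    _ = (Bad.card : ℝ) / (q : ℝ) ^ N + (∑ i, ((Bad' i).card : ℝ)) / (q : ℝ) ^ N := add_div _ _ _
    _ ≤ _ := by linarith

variable {V : Type*} [Fintype V] [DecidableEq V]

open scoped Classical in
/-- The basic inequality. -/
theorem basic_ineq4 {q : ℕ} (hq : Fintype.card K = q) {n k t D : ℕ} [NeZero n]
    (p R κ' : ℕ) (l : ℕ → ℕ)
    (hlen : k * (t + 2) + p = n) (hwidth : 1 + Fintype.card V ≤ n) (hD : 0 < D)
    (hR : 1 ≤ (q - 1) * R)
    (hκ : κ' + ((q - 1) * (2 * q + R) * k +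
      (∑ j ∈ range (Nat.log 2 ((q - 1) * R) + 1),
          l j * (2 ^ (Nat.log 2 ((q - 1) * R) + 1 - j) * (q - 1) * (q - 1)) +
        k * (2 ^ (Nat.log 2 ((q - 1) * R) + 1) * (q - 1) * (q - 1)))) = k * t)
    (C : Circuit K (Fin n × Fin n × Fin n)) (hC : C.IsSynHomog) (hout : C.output = imm K n n)
    {θ : ℝ} (hθ0 : 0 < θ) (hθ1 : θ < 1) (φ : Fin t → V → Fin D → V)
    (hφ : ∀ j a, Function.Injective (φ j a)) (a₀ : V) {ψ₀ : ℝ} (hψ0 : 0 ≤ ψ₀)
    (hψ : ψ₀ ≤ ∑ ω : Fin t → V → Fin D → Fin q, pw (pw (pw (nuθ q θ))) ω *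
        (if ∃ a, ∃ π, ValidPath t φ ω a π then 1 else 0)) :
    ψ₀ ^ k ≤ C.nL * Real.exp (-(R : ℝ) / (2 * q)) +
      C.nT * (∑ j ∈ range (Nat.log 2 ((q - 1) * R) + 1),
          (Bsum (n / 2 ^ (Nat.log 2 ((q - 1) * R) - j)) k : ℝ) / (q : ℝ) ^ l j) +
      C.nT * θ ^ κ' := by
  have hq0 : 0 < q := hq ▸ Fintype.card_pos
  have hq' : (0 : ℝ) < q := by exact_mod_cast hq0
  obtain ⟨ι, hι, hι0⟩ := exists_embedding (V := V) 1 n (by simpa using hwidth)
  have hL : (allL (K := K) (g := 1) (k := k) φ p).length = n := by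
    rw [allL_length, hlen]
  let at' := atMap ι (allL (K := K) (g := 1) (k := k) φ p) hL
  obtain ⟨Bad, hBad, hmid⟩ := exists_bad C at' hq R
  have hhom : C.output.IsHomogeneous n := by
    rw [hout]
    exact imm_hom n n
  have hne : C.output ≠ 0 := by
    rw [hout]
    exact imm_ne_zero n n
  obtain ⟨dM, L, γ, hLsum, hLpos, hdM, hLeq⟩ := top_normal_form3 C hC n hhom hne
    (XX k 1 t D V) (YY k 1 V)
  have hsel := fun i => sel_factor2 hq R k n l hR (fun j x => evX at' x (C.mVal j)) Bad hmid dM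
    (hdM at') (L i) (hLsum i) (hLpos i)
  choose Bad' G hBad' hfac using hsel
  -- the coefficient identity
  have hcoef : ∀ (x : XX k 1 t D V → K) (bb : Fin k → Fin 1 × V),
      coeff (uuY bb) (∑ i, MvPolynomial.C (γ i) *
        ((L i).map fun j => evX at' x (C.mVal j)).prod) = S.PhiB φ x bb := by
    intro x bb
    have h1 := hLeq (MvPolynomial (YY k 1 V) K) (evX at' x)
    simp only [MvPolynomial.algebraMap_eq] at h1
    rw [← h1, hout, imm_projection x hι hι0 φ hφ p hL, coeff_prod_Sc]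
  -- the independent family
  let A : Finset (XX k 1 t D V → Fin q) := univ.filter fun T => S.Covered φ T
  obtain ⟨M, bb, hM1, hM2, hM3⟩ := S.lm_family (K := K) hq (by norm_num) hD φ a₀ A
    (fun T hT => (Finset.mem_filter.1 hT).2)
  have hfun : ∀ T, (fun x => mon (M T) x * coeff (uuY (bb T)) (∑ i, MvPolynomial.C (γ i) *
        ((L i).map fun j => evX at' x (C.mVal j)).prod)) =
      fun x => mon (M T) x * S.PhiB φ x (bb T) := by
    intro T
    funext x
    rw [hcoef]
  have hcore := core_ineq3 hq R (fun j x => evX at' x (C.mVal j)) Bad (Bad ∪ univ.biUnion Bad')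
    Finset.subset_union_left hmid L γ G k (k * t) κ' _
    (fun i B w' hw' => by
      obtain ⟨h, hh, hhf⟩ := hfac i B w' hw'
      refine ⟨h, hh, fun x hx => hhf x ?_ ?_⟩
      · exact fun hc => hx (Finset.mem_union_left _ hc)
      · exact fun hc => hx (Finset.mem_union_right _ (Finset.mem_biUnion.2 ⟨i, Finset.mem_univ _, hc⟩)))
    hκ A M (fun T => uuY (bb T)) hM1 (fun T _ => uuY_degree _)
    (fun T hT => by
      rw [hfun T]
      exact hM2 T hT)
    (by
      convert hM3 using 2 with T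
      exact hfun T.1)
    hθ0 hθ1
  have hcov := covered_weight_one (k := k) hq0 hθ0 φ hψ0 hψ
  have hZ : 0 < Zθ q θ := Zθ_pos hq0 hθ0
  have hZN : 0 < Zθ q θ ^ Fintype.card (XX k 1 t D V) := pow_pos hZ _
  have h1 : ψ₀ ^ k * Zθ q θ ^ Fintype.card (XX k 1 t D V) ≤
      (((Bad ∪ univ.biUnion Bad').card : ℝ) / (q : ℝ) ^ Fintype.card (XX k 1 t D V) +
        C.nT * θ ^ κ') * Zθ q θ ^ Fintype.card (XX k 1 t D V) := by
    refine le_trans hcov ?_
    exact hcore
  have h2 := le_of_mul_le_mul_right h1 hZN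
  have hqN : 0 < (q : ℝ) ^ Fintype.card (XX k 1 t D V) := by positivity
  have h3 : (Bad.card : ℝ) / (q : ℝ) ^ Fintype.card (XX k 1 t D V) ≤
      C.nL * Real.exp (-(R : ℝ) / (2 * q)) := by
    rw [div_le_iff₀ hqN]
    calc (Bad.card : ℝ) ≤ _ := hBad
      _ = _ := by ring
  have h4 := card_bad4 (q := q) (N := Fintype.card (XX k 1 t D V)) hq0 Bad Bad' hBad'
  linarith

end Vale.Agent.Lib.P346.Y
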