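import Mathlib
import Vale.Agent.Lib.P346.Dag

/-!
A sharper bound for the averaged second moments, and a labelled layered graph such that with
probability at least `1 / 3` some vertex starts a valid path.
-/

namespace Vale.Agent.Lib.P346.S

open Finset

variable {q D w : ℕ}

section bounds

variable (ν : Fin q → ℝ)

/-- The bound for the recursion, with geometric sums in place of crude linear bounds. -/
theorem sd_bound2 (hw : 0 < w) (hwl : ∀ l : Fin D, 0 ≤ wl ν l) (hm14 : 1 / 4 ≤ mm ν D)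
    (hsig : sig ν D ≤ 16) (t : ℕ) (lam : ℝ)
    (hG : ∑ i ∈ range t, mm ν D ^ i ≤ lam)
    (hH : (1 + 128 * lam) * ∑ i ∈ range t, (mm ν D)⁻¹ ^ i ≤ w) :
    ∀ r, r ≤ t → (sd ν w D r).1 ≤ (1 + 128 * ∑ i ∈ range r, mm ν D ^ i) * mm ν D ^ r ∧
      (sd ν w D r).2 ≤ (1 + (1 + 128 * lam) / w * ∑ i ∈ range r, (mm ν D)⁻¹ ^ i) * mm ν D ^ (2 * r) ∧
      0 ≤ (sd ν w D r).1 ∧ 0 ≤ (sd ν w D r).2 := by
  obtain ⟨m, hm⟩ : ∃ m, m = mm ν D := ⟨_, rfl⟩
  rw [← hm] at hm14 hG hH ⊢
  have hm0 : 0 < m := by linarith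
  have hw1 : (1 : ℝ) ≤ w := by exact_mod_cast hw
  have hw0 : (0 : ℝ) < w := by linarith
  have hGr : ∀ r, r ≤ t → ∑ i ∈ range r, m ^ i ≤ lam := fun r hr => le_trans
    (Finset.sum_le_sum_of_subset_of_nonneg (Finset.range_mono hr) fun _ _ _ => by positivity) hG
  have hHr : ∀ r, r ≤ t → ∑ i ∈ range r, m⁻¹ ^ i ≤ ∑ i ∈ range t, m⁻¹ ^ i := fun r hr =>
    Finset.sum_le_sum_of_subset_of_nonneg (Finset.range_mono hr) fun _ _ _ => by positivity
  have hlam : 0 ≤ lam := le_trans (Finset.sum_nonneg fun _ _ => by positivity) hG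
  obtain ⟨A, hA⟩ : ∃ A, A = 1 + 128 * lam := ⟨_, rfl⟩
  rw [← hA] at hH ⊢
  have hA0 : 0 < A := by rw [hA]; positivity
  have hκ1 : kap ν D ≤ m ^ 2 := by
    rw [hm]
    exact kap_le ν hwl
  have hκ0 := kap_nonneg ν (D := D)
  have hσ0 := sig_nonneg ν hwl
  have hone : A / w * ∑ i ∈ range t, m⁻¹ ^ i ≤ 1 := by
    rw [div_mul_eq_mul_div, div_le_one hw0]
    exact hH
  intro r
  induction r with
  | zero =>
    intro _
    simp [sd]
  | succ r ih =>
    intro hr
    obtain ⟨h1, h2, h3, h4⟩ := ih (by omega)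
    have hGr' := hGr r (by omega)
    have hHr' := hHr r (by omega)
    have hmr : 0 < m ^ r := pow_pos hm0 r
    have hm2r : 0 < m ^ (2 * r) := pow_pos hm0 _
    have hB : A / w * ∑ i ∈ range r, m⁻¹ ^ i ≤ 1 :=
      le_trans (mul_le_mul_of_nonneg_left hHr' (by positivity)) hone
    have hdle : (sd ν w D r).2 ≤ 2 * m ^ (2 * r) := by
      refine le_trans h2 ?_
      exact mul_le_mul_of_nonneg_right (by linarith) hm2r.le
    have hsle : (sd ν w D r).1 ≤ A * m ^ r := by
      refine le_trans h1 ?_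
      apply mul_le_mul_of_nonneg_right _ hmr.le
      rw [hA]
      linarith
    refine ⟨?_, ?_, ?_, ?_⟩
    · rw [sd_succ_fst, ← hm, Finset.sum_range_succ]
      have h5 : m * (sd ν w D r).1 ≤ m * ((1 + 128 * ∑ i ∈ range r, m ^ i) * m ^ r) :=
        mul_le_mul_of_nonneg_left h1 hm0.le
      have h6 : sig ν D * (sd ν w D r).2 ≤ 16 * (2 * m ^ (2 * r)) :=
        mul_le_mul hsig hdle h4 (by norm_num)
      have h7 : 32 * m ^ (2 * r) ≤ 128 * (m ^ r * m ^ (r + 1)) := by
        have e : m ^ r * m ^ (r + 1) = m * m ^ (2 * r) := by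
          rw [two_mul, pow_add, pow_succ]
          ring
        rw [e]
        nlinarith
      have h10 : m * ((1 + 128 * ∑ i ∈ range r, m ^ i) * m ^ r) =
          (1 + 128 * ∑ i ∈ range r, m ^ i) * m ^ (r + 1) := by
        rw [pow_succ]
        ring
      nlinarith
    · rw [sd_succ_snd ν hw, ← hm, Finset.sum_range_succ]
      have h5 : kap ν D * ((sd ν w D r).1 - (sd ν w D r).2) / w ≤ m ^ 2 * (A * m ^ r) / w := by
        apply div_le_div_of_nonneg_right _ hw0.le
        have h6 : kap ν D * ((sd ν w D r).1 - (sd ν w D r).2) ≤ kap ν D * (A * m ^ r) :=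
          mul_le_mul_of_nonneg_left (by linarith) hκ0
        have h7 : kap ν D * (A * m ^ r) ≤ m ^ 2 * (A * m ^ r) :=
          mul_le_mul_of_nonneg_right hκ1 (by positivity)
        linarith
      have e2 : m ^ (2 * (r + 1)) = m ^ 2 * m ^ (2 * r) := by
        rw [Nat.mul_succ, pow_add]
        ring
      have h8 : m ^ 2 * (A * m ^ r) / w = A / w * m⁻¹ ^ r * m ^ (2 * (r + 1)) := by
        rw [e2, two_mul, pow_add, inv_pow]
        field_simp
      have h13 : m ^ 2 * (sd ν w D r).2 ≤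
          (1 + A / w * ∑ i ∈ range r, m⁻¹ ^ i) * m ^ (2 * (r + 1)) := by
        rw [e2]
        calc m ^ 2 * (sd ν w D r).2
            ≤ m ^ 2 * ((1 + A / w * ∑ i ∈ range r, m⁻¹ ^ i) * m ^ (2 * r)) :=
              mul_le_mul_of_nonneg_left h2 (by positivity)
          _ = _ := by ring
      rw [h8] at h5
      have e3 : (1 + A / w * (∑ i ∈ range r, m⁻¹ ^ i + m⁻¹ ^ r)) * m ^ (2 * (r + 1)) =
          (1 + A / w * ∑ i ∈ range r, m⁻¹ ^ i) * m ^ (2 * (r + 1)) +
            A / w * m⁻¹ ^ r * m ^ (2 * (r + 1)) := by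
        ring
      rw [e3]
      linarith
    · rw [sd_succ_fst, ← hm]
      positivity
    · rw [sd_succ_snd ν hw, ← hm]
      have h5 : kap ν D * (sd ν w D r).2 / w ≤ m ^ 2 * (sd ν w D r).2 := by
        rw [div_le_iff₀ hw0]
        have h6 : kap ν D * (sd ν w D r).2 ≤ m ^ 2 * (sd ν w D r).2 :=
          mul_le_mul_of_nonneg_right hκ1 h4
        have h7 : 0 ≤ m ^ 2 * (sd ν w D r).2 := by positivity
        nlinarith
      have h8 : 0 ≤ kap ν D * (sd ν w D r).1 / w := by positivity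
      have e : kap ν D * ((sd ν w D r).1 - (sd ν w D r).2) / w =
          kap ν D * (sd ν w D r).1 / w - kap ν D * (sd ν w D r).2 / w := by ring
      rw [e]
      linarith

end bounds

open scoped Classical in
/-- Existence of a labelled layered graph such that with probability at least `1 / 3` some vertex
starts a valid path. -/
theorem exists_dag_all (hq2 : 2 ≤ q) (hw : 0 < w) (hD : 0 < D) (ν : Fin q → ℝ) (hν : ∑ j, ν j = 1)
    (hν0 : ∀ j, 0 ≤ ν j) (hp : pp ν ≤ 1 / 2) (hm14 : 1 / 4 ≤ mm ν D) (t : ℕ) (lam : ℝ)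
    (hG : ∑ i ∈ range t, mm ν D ^ i ≤ lam)
    (hH : (1 + 128 * lam) * ∑ i ∈ range t, (mm ν D)⁻¹ ^ i ≤ w)
    (hlarge' : 1 + 128 * lam ≤ w * mm ν D ^ t) :
    ∃ f : Fin t → F1 w D, 1 / 3 ≤
      ∑ T : Fin t → VV w D → Fin D → Fin q, pw (pw (pw ν)) T *
        (if ∃ a, ∃ π, ValidPath t (hd f) T a π then 1 else 0) := by
  classical
  have hm0 : 0 < mm ν D := by linarith
  have hmt : 0 < mm ν D ^ t := pow_pos hm0 t
  have hbd := sd_bound2 ν hw (wl_nonneg ν hν0) hm14 (sig_le ν hν hν0 hp) t lam hG hH t le_rfl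
  obtain ⟨hs', hd', hs0, hd0⟩ := hbd
  have hw0 : (0 : ℝ) < w := by exact_mod_cast hw
  have hs : (sd ν w D t).1 ≤ (1 + 128 * lam) * mm ν D ^ t :=
    le_trans hs' (mul_le_mul_of_nonneg_right (by linarith) hmt.le)
  have hdle : (sd ν w D t).2 ≤ 2 * mm ν D ^ (2 * t) := by
    have h1 : (1 + 128 * lam) / w * ∑ i ∈ range t, (mm ν D)⁻¹ ^ i ≤ 1 := by
      rw [div_mul_eq_mul_div, div_le_one hw0]
      exact hH
    have h2 : 0 < mm ν D ^ (2 * t) := pow_pos hm0 _
    refine le_trans hd' ?_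
    exact mul_le_mul_of_nonneg_right (by linarith) h2.le
  -- the number of vertices
  obtain ⟨Nv, hNv⟩ : ∃ Nv : ℝ, Nv = ((Fintype.card (VV w D) : ℕ) : ℝ) := ⟨_, rfl⟩
  have hNv2 : Nv = (w : ℝ) * D := by
    rw [hNv]
    simp
  have hD1 : (1 : ℝ) ≤ D := by exact_mod_cast hD
  have hNvw : (w : ℝ) ≤ Nv := by
    rw [hNv2]
    nlinarith
  have hNv0 : 0 < Nv := by linarith
  have hlarge : (1 + 128 * lam) ≤ Nv * mm ν D ^ t :=
    le_trans hlarge' (mul_le_mul_of_nonneg_right hNvw hmt.le)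
  -- the averaged second moment of the total number of valid paths
  let Z2 : (Fin t → F1 w D) → ℝ := fun f => ∑ a : VV w D, ∑ a' : VV w D, KK ν t (hd f) a a'
  have havg : ∑ f : Fin t → F1 w D, pw (pw (pw (unif w))) f * Z2 f ≤
      3 * Nv ^ 2 * mm ν D ^ (2 * t) := by
    have h1 : ∑ f : Fin t → F1 w D, pw (pw (pw (unif w))) f * Z2 f =
        ∑ a : VV w D, ∑ a' : VV w D, if a = a' then (sd ν w D t).1 else (sd ν w D t).2 := by
      simp only [Z2, Finset.mul_sum]
      rw [Finset.sum_comm]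
      refine Finset.sum_congr rfl fun a _ => ?_
      rw [Finset.sum_comm]
      refine Finset.sum_congr rfl fun a' _ => ?_
      exact avg_KK (D := D) hq2 hw ν hν t a a'
    rw [h1]
    have h2 : ∀ a : VV w D, ∑ a' : VV w D, (if a = a' then (sd ν w D t).1 else (sd ν w D t).2) ≤
        (sd ν w D t).1 + Nv * (sd ν w D t).2 := by
      intro a
      have h3 : ∀ a' : VV w D, (if a = a' then (sd ν w D t).1 else (sd ν w D t).2) ≤
          (if a = a' then (sd ν w D t).1 else 0) + (sd ν w D t).2 := by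
        intro a'
        split_ifs <;> linarith
      refine le_trans (Finset.sum_le_sum fun a' _ => h3 a') ?_
      rw [Finset.sum_add_distrib, Finset.sum_ite_eq]
      simp only [Finset.mem_univ, if_true, Finset.sum_const, Finset.card_univ, nsmul_eq_mul]
      rw [← hNv]
    refine le_trans (Finset.sum_le_sum fun a _ => h2 a) ?_
    simp only [Finset.sum_const, Finset.card_univ, nsmul_eq_mul]
    rw [← hNv]
    have h3 : (sd ν w D t).1 ≤ Nv * mm ν D ^ (2 * t) := by
      have h4 : (1 + 128 * lam) * mm ν D ^ t ≤ Nv * mm ν D ^ t * mm ν D ^ t :=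
        mul_le_mul_of_nonneg_right hlarge hmt.le
      have h5 : Nv * mm ν D ^ t * mm ν D ^ t = Nv * mm ν D ^ (2 * t) := by
        rw [two_mul, pow_add]
        ring
      linarith
    have h4 : Nv * (sd ν w D t).2 ≤ Nv * (2 * mm ν D ^ (2 * t)) :=
      mul_le_mul_of_nonneg_left hdle hNv0.le
    have h5 : Nv * ((sd ν w D t).1 + Nv * (sd ν w D t).2) ≤
        Nv * (Nv * mm ν D ^ (2 * t) + Nv * (2 * mm ν D ^ (2 * t))) :=
      mul_le_mul_of_nonneg_left (by linarith) hNv0.le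
    calc Nv * ((sd ν w D t).1 + Nv * (sd ν w D t).2) ≤ _ := h5
      _ = _ := by ring
  have hunif : ∀ x : Fin w, 0 < unif w x := fun _ => by
    simp only [unif]
    positivity
  have hμpos : ∀ f : Fin t → F1 w D, 0 < pw (pw (pw (unif w))) f :=
    pw_pos _ (pw_pos _ (pw_pos _ hunif))
  have hμsum : ∑ f : Fin t → F1 w D, pw (pw (pw (unif w))) f = 1 :=
    pw_sum_one _ (pw_sum_one _ (pw_sum_one _ (unif_sum hw)))
  have hS0 : 0 < 3 * Nv ^ 2 * mm ν D ^ (2 * t) := by positivity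
  -- pick a good graph
  have hex : ∃ f : Fin t → F1 w D, Z2 f ≤ 3 * Nv ^ 2 * mm ν D ^ (2 * t) := by
    by_contra hall
    push Not at hall
    have : Nonempty (Fin t → F1 w D) := by
      have : Nonempty (Fin w) := ⟨⟨0, hw⟩⟩
      infer_instance
    have h1 : ∑ f : Fin t → F1 w D, pw (pw (pw (unif w))) f * (3 * Nv ^ 2 * mm ν D ^ (2 * t)) <
        ∑ f : Fin t → F1 w D, pw (pw (pw (unif w))) f * Z2 f := by
      apply Finset.sum_lt_sum_of_nonempty Finset.univ_nonempty
      intro f _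
      exact mul_lt_mul_of_pos_left (hall f) (hμpos f)
    rw [← Finset.sum_mul, hμsum, one_mul] at h1
    linarith
  obtain ⟨f, hf⟩ := hex
  refine ⟨f, ?_⟩
  -- first moment
  have hfirst : ∑ T : Fin t → VV w D → Fin D → Fin q, pw (pw (pw ν)) T *
      (∑ a, cnt t (hd f) T a) = Nv * mm ν D ^ t := by
    simp only [Finset.mul_sum]
    rw [Finset.sum_comm]
    have h1 : ∀ a : VV w D, ∑ T : Fin t → VV w D → Fin D → Fin q, pw (pw (pw ν)) T *
        cnt t (hd f) T a = mm ν D ^ t := fun a => first_moment ν hν t (hd f) a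
    simp only [h1, Finset.sum_const, Finset.card_univ, nsmul_eq_mul]
    rw [← hNv]
  -- second moment
  have hsecond : ∑ T : Fin t → VV w D → Fin D → Fin q, pw (pw (pw ν)) T *
      ((∑ a, cnt t (hd f) T a) * (∑ a, cnt t (hd f) T a)) ≤ 3 * Nv ^ 2 * mm ν D ^ (2 * t) := by
    refine le_trans (le_of_eq ?_) hf
    simp only [Z2, KK]
    have e : ∀ T : Fin t → VV w D → Fin D → Fin q, pw (pw (pw ν)) T *
        ((∑ a, cnt t (hd f) T a) * (∑ a, cnt t (hd f) T a)) =
        ∑ a, ∑ a', pw (pw (pw ν)) T * (cnt t (hd f) T a * cnt t (hd f) T a') := by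
      intro T
      rw [Finset.sum_mul_sum, Finset.mul_sum]
      exact Finset.sum_congr rfl fun a _ => Finset.mul_sum _ _ _
    simp only [e]
    rw [Finset.sum_comm]
    refine Finset.sum_congr rfl fun a _ => ?_
    rw [Finset.sum_comm]
  have hpz := paley_zygmund (Ω := Fin t → VV w D → Fin D → Fin q) (pw (pw (pw ν)))
    (pw_nonneg _ (pw_nonneg _ (pw_nonneg _ hν0)))
    (fun T => ∑ a, cnt t (hd f) T a) (fun T => Finset.sum_nonneg fun _ _ => cnt_nonneg _ _ _ _)
    hfirst hsecond hS0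
  have h2 : (Nv * mm ν D ^ t) ^ 2 / (3 * Nv ^ 2 * mm ν D ^ (2 * t)) = 1 / 3 := by
    have e : mm ν D ^ (2 * t) = mm ν D ^ t * mm ν D ^ t := by
      rw [two_mul, pow_add]
    rw [e]
    field_simp
  rw [h2] at hpz
  refine le_trans hpz ?_
  apply Finset.sum_le_sum
  intro T _
  apply mul_le_mul_of_nonneg_left _ (pw_nonneg _ (pw_nonneg _ (pw_nonneg _ hν0)) T)
  by_cases h : 0 < ∑ a, cnt t (hd f) T a
  · rw [if_pos h]
    obtain ⟨a, _, ha⟩ := Finset.exists_lt_of_sum_lt (s := univ)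
      (f := fun _ : VV w D => (0 : ℝ)) (by simpa using h)
    rw [if_pos ⟨a, exists_validPath_of_cnt_pos _ _ _ _ ha⟩]
  · rw [if_neg h]
    split_ifs <;> norm_num

end Vale.Agent.Lib.P346.S
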