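import Mathlib
import Vale.Agent.Lib.P346.Dag2

/-!
A random labelled layered graph on the cyclic group: the heads of the edges at a vertex are a
random shift of the fixed offsets given by the labels. Second moment of the number of valid paths.
-/

namespace Vale.Agent.Lib.P346.S

open Finset

variable {q D W : ℕ} [NeZero W]

/-- Uniform weights on the cyclic group. -/
noncomputable def uz (W : ℕ) : ZMod W → ℝ := fun _ => 1 / (W : ℝ)

theorem W_pos_real : (0 : ℝ) < W := by
  have : 0 < W := Nat.pos_of_ne_zero (NeZero.ne W)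
  exact_mod_cast this

omit [NeZero W] in
theorem uz_sum [NeZero W] : ∑ j, uz W j = 1 := by
  have h : (W : ℝ) ≠ 0 := W_pos_real.ne'
  simp [uz, ZMod.card, h]

/-- Heads of edges in the shift graph. -/
def hz {r : ℕ} (f : Fin r → ZMod W → ZMod W) : Fin r → ZMod W → Fin D → ZMod W :=
  fun j a l => f j a + ((l : ℕ) : ZMod W)

/-- Expectation of the indicator of a fixed value after a shift. -/
theorem uz_shift (c u : ZMod W) :
    ∑ x, uz W x * (if x + c = u then (1 : ℝ) else 0) = 1 / (W : ℝ) := by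
  rw [Finset.sum_eq_single (u - c)]
  · simp [uz]
  · intro b _ hb
    rw [if_neg, mul_zero]
    intro h
    exact hb (by rw [← h]; ring)
  · simp

/-- Probability of a collision of the heads at two distinct vertices. -/
theorem coll_shift {a a' : ZMod W} (hne : a ≠ a') (c c' : ZMod W) :
    ∑ f : ZMod W → ZMod W, pw (uz W) f * (if f a + c = f a' + c' then (1 : ℝ) else 0) =
      1 / (W : ℝ) := by
  classical
  have hW : (W : ℝ) ≠ 0 := W_pos_real.ne'
  have h1 : ∀ f : ZMod W → ZMod W, (if f a + c = f a' + c' then (1 : ℝ) else 0) =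
      ∑ u : ZMod W, (if f a + c = u then 1 else 0) * (if f a' + c' = u then 1 else 0) := by
    intro f
    rw [Finset.sum_eq_single (f a + c)]
    · by_cases h : f a + c = f a' + c'
      · simp [h]
      · simp [h, Ne.symm h]
    · intro b _ hb
      simp [Ne.symm hb]
    · simp
  simp only [h1, Finset.mul_sum]
  rw [Finset.sum_comm]
  have h2 : ∀ u : ZMod W, ∑ f : ZMod W → ZMod W, pw (uz W) f *
      ((if f a + c = u then 1 else 0) * (if f a' + c' = u then (1 : ℝ) else 0)) =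
      (1 / (W : ℝ)) ^ 2 := by
    intro u
    have h3 := pw_two (ι := ZMod W) (uz W) uz_sum hne
      (fun x => if x + c = u then (1 : ℝ) else 0) (fun x => if x + c' = u then (1 : ℝ) else 0)
    rw [h3, uz_shift, uz_shift]
    ring
  simp only [h2]
  simp only [Finset.sum_const, Finset.card_univ, ZMod.card, nsmul_eq_mul]
  field_simp

/-- The expectation over one layer of the function comparing heads. -/
theorem head_avg_z (a a' : ZMod W) (c c' : ZMod W) (s d : ℝ) :
    ∑ f : ZMod W → ZMod W, pw (uz W) f * (if f a + c = f a' + c' then s else d) =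
    if a = a' then (if c = c' then s else d) else s / W + (1 - 1 / (W : ℝ)) * d := by
  classical
  have hone : ∑ f : ZMod W → ZMod W, pw (uz W) f = 1 := pw_sum_one _ uz_sum
  by_cases ha : a = a'
  · subst ha
    rw [if_pos rfl]
    by_cases hc : c = c'
    · subst hc
      simp [hone, ← Finset.sum_mul]
    · rw [if_neg hc]
      have h1 : ∀ f : ZMod W → ZMod W, (if f a + c = f a + c' then s else d) = d := by
        intro f
        rw [if_neg]
        intro h
        exact hc (add_left_cancel h)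
      simp only [h1]
      rw [← Finset.sum_mul, hone, one_mul]
  · rw [if_neg ha]
    have h1 : ∀ f : ZMod W → ZMod W, pw (uz W) f * (if f a + c = f a' + c' then s else d) =
        pw (uz W) f * d + (s - d) * (pw (uz W) f * (if f a + c = f a' + c' then 1 else 0)) := by
      intro f
      by_cases h : f a + c = f a' + c'
      · simp [h]
        ring
      · simp [h]
    simp only [h1]
    rw [Finset.sum_add_distrib, ← Finset.sum_mul, hone, ← Finset.mul_sum, coll_shift ha]
    ring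

/-- The recursion for the averaged second moments. -/
noncomputable def sz (ν : Fin q → ℝ) (W D : ℕ) : ℕ → ℝ × ℝ
  | 0 => (1, 1)
  | r + 1 =>
    (∑ l : Fin D, ∑ l' : Fin D, wl ν (max l l') * (if l = l' then (sz ν W D r).1 else (sz ν W D r).2),
     ∑ l : Fin D, ∑ l' : Fin D, wl ν l * wl ν l' *
        ((sz ν W D r).1 / W + (1 - 1 / (W : ℝ)) * (sz ν W D r).2))

/-- The averaged second moment is given by the recursion. -/
theorem avg_KK_z (hq2 : 2 ≤ q) (hDW : D ≤ W) (ν : Fin q → ℝ) (hν : ∑ j, ν j = 1) :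
    ∀ (r : ℕ) (a a' : ZMod W), ∑ f : Fin r → ZMod W → ZMod W, pw (pw (uz W)) f *
      KK ν r (hz (D := D) f) a a' = if a = a' then (sz ν W D r).1 else (sz ν W D r).2 := by
  classical
  have hone : ∑ f : ZMod W → ZMod W, pw (uz W) f = 1 := pw_sum_one _ uz_sum
  have hcast : ∀ l l' : Fin D, (((l : ℕ) : ZMod W) = ((l' : ℕ) : ZMod W)) ↔ l = l' := by
    intro l l'
    rw [ZMod.natCast_eq_natCast_iff']
    rw [Nat.mod_eq_of_lt (lt_of_lt_of_le l.2 hDW), Nat.mod_eq_of_lt (lt_of_lt_of_le l'.2 hDW)]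
    exact Fin.val_inj
  intro r
  induction r with
  | zero =>
    intro a a'
    have h0 : ∀ (φ : Fin 0 → ZMod W → Fin D → ZMod W) (a a' : ZMod W),
        KK ν 0 φ a a' = 1 := by
      intro φ a a'
      simp [KK, cnt, pw]
    simp only [h0, mul_one, sz]
    simp [pw]
  | succ r ih =>
    intro a a'
    rw [pw_sum_cons]
    have h1 : ∀ f₀ : ZMod W → ZMod W, ∑ f' : Fin r → ZMod W → ZMod W, pw (pw (uz W)) f' *
        KK ν (r + 1) (hz (D := D) (Fin.cons f₀ f')) a a' =
        ∑ l : Fin D, ∑ l' : Fin D, JJ ν a a' l l' *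
          (if f₀ a + ((l : ℕ) : ZMod W) = f₀ a' + ((l' : ℕ) : ZMod W) then
            (sz ν W D r).1 else (sz ν W D r).2) := by
      intro f₀
      have h2 : ∀ f' : Fin r → ZMod W → ZMod W, KK ν (r + 1) (hz (D := D) (Fin.cons f₀ f')) a a' =
          ∑ l : Fin D, ∑ l' : Fin D, JJ ν a a' l l' * KK ν r (hz (D := D) f')
            (f₀ a + ((l : ℕ) : ZMod W)) (f₀ a' + ((l' : ℕ) : ZMod W)) := by
        intro f'
        rw [KK_succ]
        rfl
      simp only [h2, Finset.mul_sum]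
      rw [Finset.sum_comm]
      refine Finset.sum_congr rfl fun l _ => ?_
      rw [Finset.sum_comm]
      refine Finset.sum_congr rfl fun l' _ => ?_
      rw [← ih (f₀ a + ((l : ℕ) : ZMod W)) (f₀ a' + ((l' : ℕ) : ZMod W)), Finset.mul_sum]
      exact Finset.sum_congr rfl fun _ _ => by ring
    simp only [h1, Finset.mul_sum]
    rw [Finset.sum_comm]
    have h3 : ∀ l l' : Fin D, ∑ f₀ : ZMod W → ZMod W, pw (uz W) f₀ * (JJ ν a a' l l' *
        (if f₀ a + ((l : ℕ) : ZMod W) = f₀ a' + ((l' : ℕ) : ZMod W) then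
          (sz ν W D r).1 else (sz ν W D r).2)) =
        JJ ν a a' l l' * (if a = a' then (if l = l' then (sz ν W D r).1 else (sz ν W D r).2) else
          (sz ν W D r).1 / W + (1 - 1 / (W : ℝ)) * (sz ν W D r).2) := by
      intro l l'
      have h4 := head_avg_z a a' ((l : ℕ) : ZMod W) ((l' : ℕ) : ZMod W) (sz ν W D r).1 (sz ν W D r).2
      simp only [hcast] at h4
      rw [← h4, Finset.mul_sum]
      exact Finset.sum_congr rfl fun _ _ => by ring
    have h4 : ∀ l : Fin D, ∑ f₀ : ZMod W → ZMod W, ∑ l' : Fin D, pw (uz W) f₀ * (JJ ν a a' l l' *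
        (if f₀ a + ((l : ℕ) : ZMod W) = f₀ a' + ((l' : ℕ) : ZMod W) then
          (sz ν W D r).1 else (sz ν W D r).2)) =
        ∑ l' : Fin D, JJ ν a a' l l' * (if a = a' then
          (if l = l' then (sz ν W D r).1 else (sz ν W D r).2) else
          (sz ν W D r).1 / W + (1 - 1 / (W : ℝ)) * (sz ν W D r).2) := by
      intro l
      rw [Finset.sum_comm]
      exact Finset.sum_congr rfl fun l' _ => h3 l l'
    simp only [h4]
    by_cases ha : a = a'
    · subst ha
      simp only [if_true, JJ_eq hq2 ν hν, sz]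
    · simp only [if_neg ha, JJ_ne ν hν ha, sz]

section bounds

variable (ν : Fin q → ℝ)

theorem sz_succ_fst (r : ℕ) : (sz ν W D (r + 1)).1 =
    mm ν D * (sz ν W D r).1 + sig ν D * (sz ν W D r).2 := by
  classical
  have h1 : ∀ l l' : Fin D, wl ν (max l l') * (if l = l' then (sz ν W D r).1 else (sz ν W D r).2) =
      (if l = l' then wl ν l else 0) * (sz ν W D r).1 +
        (if l = l' then 0 else wl ν (max l l')) * (sz ν W D r).2 := by
    intro l l'
    by_cases h : l = l'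
    · subst h
      simp
    · simp [h]
  simp only [sz, h1, Finset.sum_add_distrib, ← Finset.sum_mul]
  simp [mm, sig]

theorem sz_succ_snd (r : ℕ) : (sz ν W D (r + 1)).2 =
    mm ν D ^ 2 * (sz ν W D r).2 + mm ν D ^ 2 * ((sz ν W D r).1 - (sz ν W D r).2) / W := by
  classical
  have hW : (W : ℝ) ≠ 0 := W_pos_real.ne'
  have h1 : ∀ E : ℝ, ∑ l : Fin D, ∑ l' : Fin D, wl ν l * wl ν l' * E = mm ν D ^ 2 * E := by
    intro E
    rw [sq, mm, Finset.sum_mul_sum, Finset.sum_mul]
    exact Finset.sum_congr rfl fun l _ => by rw [Finset.sum_mul]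
  simp only [sz]
  rw [h1]
  field_simp
  ring

/-- The bound for the recursion. -/
theorem sz_bound (hwl : ∀ l : Fin D, 0 ≤ wl ν l) (hm14 : 1 / 4 ≤ mm ν D)
    (hsig : sig ν D ≤ 16) (t : ℕ) (lam : ℝ)
    (hG : ∑ i ∈ range t, mm ν D ^ i ≤ lam)
    (hH : (1 + 128 * lam) * ∑ i ∈ range t, (mm ν D)⁻¹ ^ i ≤ W) :
    ∀ r, r ≤ t → (sz ν W D r).1 ≤ (1 + 128 * ∑ i ∈ range r, mm ν D ^ i) * mm ν D ^ r ∧
      (sz ν W D r).2 ≤ (1 + (1 + 128 * lam) / W * ∑ i ∈ range r, (mm ν D)⁻¹ ^ i) * mm ν D ^ (2 * r) ∧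
      0 ≤ (sz ν W D r).1 ∧ 0 ≤ (sz ν W D r).2 := by
  obtain ⟨m, hm⟩ : ∃ m, m = mm ν D := ⟨_, rfl⟩
  rw [← hm] at hm14 hG hH ⊢
  have hm0 : 0 < m := by linarith
  have hw0 : (0 : ℝ) < W := W_pos_real
  have hw1 : (1 : ℝ) ≤ W := by
    have : 0 < W := Nat.pos_of_ne_zero (NeZero.ne W)
    exact_mod_cast this
  have hGr : ∀ r, r ≤ t → ∑ i ∈ range r, m ^ i ≤ lam := fun r hr => le_trans
    (Finset.sum_le_sum_of_subset_of_nonneg (Finset.range_mono hr) fun _ _ _ => by positivity) hG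
  have hHr : ∀ r, r ≤ t → ∑ i ∈ range r, m⁻¹ ^ i ≤ ∑ i ∈ range t, m⁻¹ ^ i := fun r hr =>
    Finset.sum_le_sum_of_subset_of_nonneg (Finset.range_mono hr) fun _ _ _ => by positivity
  have hlam : 0 ≤ lam := le_trans (Finset.sum_nonneg fun _ _ => by positivity) hG
  obtain ⟨A, hA⟩ : ∃ A, A = 1 + 128 * lam := ⟨_, rfl⟩
  rw [← hA] at hH ⊢
  have hA0 : 0 < A := by rw [hA]; positivity
  have hσ0 := sig_nonneg ν hwl
  have hone : A / W * ∑ i ∈ range t, m⁻¹ ^ i ≤ 1 := by
    rw [div_mul_eq_mul_div, div_le_one hw0]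
    exact hH
  intro r
  induction r with
  | zero =>
    intro _
    simp [sz]
  | succ r ih =>
    intro hr
    obtain ⟨h1, h2, h3, h4⟩ := ih (by omega)
    have hGr' := hGr r (by omega)
    have hHr' := hHr r (by omega)
    have hmr : 0 < m ^ r := pow_pos hm0 r
    have hm2r : 0 < m ^ (2 * r) := pow_pos hm0 _
    have hB : A / W * ∑ i ∈ range r, m⁻¹ ^ i ≤ 1 :=
      le_trans (mul_le_mul_of_nonneg_left hHr' (by positivity)) hone
    have hdle : (sz ν W D r).2 ≤ 2 * m ^ (2 * r) := by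
      refine le_trans h2 ?_
      exact mul_le_mul_of_nonneg_right (by linarith) hm2r.le
    have hsle : (sz ν W D r).1 ≤ A * m ^ r := by
      refine le_trans h1 ?_
      apply mul_le_mul_of_nonneg_right _ hmr.le
      rw [hA]
      linarith
    refine ⟨?_, ?_, ?_, ?_⟩
    · rw [sz_succ_fst, ← hm, Finset.sum_range_succ]
      have h5 : m * (sz ν W D r).1 ≤ m * ((1 + 128 * ∑ i ∈ range r, m ^ i) * m ^ r) :=
        mul_le_mul_of_nonneg_left h1 hm0.le
      have h6 : sig ν D * (sz ν W D r).2 ≤ 16 * (2 * m ^ (2 * r)) :=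
        mul_le_mul hsig hdle h4 (by norm_num)
      have h7 : 32 * m ^ (2 * r) ≤ 128 * (m ^ r * m ^ (r + 1)) := by
        have e : m ^ r * m ^ (r + 1) = m * m ^ (2 * r) := by
          rw [two_mul, pow_add, pow_succ]
          ring
        rw [e]
        nlinarith
      have h10 : m * ((1 + 128 * ∑ i ∈ range r, m ^ i) * m ^ r) =
          (1 + 128 * ∑ i ∈ range r, m ^ i) * m ^ (r + 1) := by
        rw [pow_succ]
        ring
      nlinarith
    · rw [sz_succ_snd ν, ← hm, Finset.sum_range_succ]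
      have h5 : m ^ 2 * ((sz ν W D r).1 - (sz ν W D r).2) / W ≤ m ^ 2 * (A * m ^ r) / W := by
        apply div_le_div_of_nonneg_right _ hw0.le
        exact mul_le_mul_of_nonneg_left (by linarith) (by positivity)
      have e2 : m ^ (2 * (r + 1)) = m ^ 2 * m ^ (2 * r) := by
        rw [Nat.mul_succ, pow_add]
        ring
      have h8 : m ^ 2 * (A * m ^ r) / W = A / W * m⁻¹ ^ r * m ^ (2 * (r + 1)) := by
        rw [e2, two_mul, pow_add, inv_pow]
        field_simp
      have h13 : m ^ 2 * (sz ν W D r).2 ≤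
          (1 + A / W * ∑ i ∈ range r, m⁻¹ ^ i) * m ^ (2 * (r + 1)) := by
        rw [e2]
        calc m ^ 2 * (sz ν W D r).2
            ≤ m ^ 2 * ((1 + A / W * ∑ i ∈ range r, m⁻¹ ^ i) * m ^ (2 * r)) :=
              mul_le_mul_of_nonneg_left h2 (by positivity)
          _ = _ := by ring
      rw [h8] at h5
      have e3 : (1 + A / W * (∑ i ∈ range r, m⁻¹ ^ i + m⁻¹ ^ r)) * m ^ (2 * (r + 1)) =
          (1 + A / W * ∑ i ∈ range r, m⁻¹ ^ i) * m ^ (2 * (r + 1)) +
            A / W * m⁻¹ ^ r * m ^ (2 * (r + 1)) := by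
        ring
      rw [e3]
      linarith
    · rw [sz_succ_fst, ← hm]
      positivity
    · rw [sz_succ_snd ν, ← hm]
      have h5 : m ^ 2 * (sz ν W D r).2 / W ≤ m ^ 2 * (sz ν W D r).2 := by
        rw [div_le_iff₀ hw0]
        have h7 : 0 ≤ m ^ 2 * (sz ν W D r).2 := by positivity
        nlinarith
      have h8 : 0 ≤ m ^ 2 * (sz ν W D r).1 / W := by positivity
      have e : m ^ 2 * ((sz ν W D r).1 - (sz ν W D r).2) / W =
          m ^ 2 * (sz ν W D r).1 / W - m ^ 2 * (sz ν W D r).2 / W := by ring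
      rw [e]
      linarith

end bounds

open scoped Classical in
/-- Existence of a graph such that with probability at least `1 / 3` some vertex starts a valid
path. -/
theorem exists_dag_z (hq2 : 2 ≤ q) (hDW : D ≤ W) (ν : Fin q → ℝ) (hν : ∑ j, ν j = 1)
    (hν0 : ∀ j, 0 ≤ ν j) (hp : pp ν ≤ 1 / 2) (hm14 : 1 / 4 ≤ mm ν D) (t : ℕ) (lam : ℝ)
    (hG : ∑ i ∈ range t, mm ν D ^ i ≤ lam)
    (hH : (1 + 128 * lam) * ∑ i ∈ range t, (mm ν D)⁻¹ ^ i ≤ W)
    (hlarge : 1 + 128 * lam ≤ W * mm ν D ^ t) :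
    ∃ f : Fin t → ZMod W → ZMod W, 1 / 3 ≤
      ∑ T : Fin t → ZMod W → Fin D → Fin q, pw (pw (pw ν)) T *
        (if ∃ a, ∃ π, ValidPath t (hz f) T a π then 1 else 0) := by
  classical
  have hm0 : 0 < mm ν D := by linarith
  have hmt : 0 < mm ν D ^ t := pow_pos hm0 t
  have hbd := sz_bound (W := W) ν (wl_nonneg ν hν0) hm14 (sig_le ν hν hν0 hp) t lam hG hH t le_rfl
  obtain ⟨hs', hd', hs0, hd0⟩ := hbd
  have hw0 : (0 : ℝ) < W := W_pos_real
  have hs : (sz ν W D t).1 ≤ (1 + 128 * lam) * mm ν D ^ t :=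
    le_trans hs' (mul_le_mul_of_nonneg_right (by linarith) hmt.le)
  have hdle : (sz ν W D t).2 ≤ 2 * mm ν D ^ (2 * t) := by
    have h1 : (1 + 128 * lam) / W * ∑ i ∈ range t, (mm ν D)⁻¹ ^ i ≤ 1 := by
      rw [div_mul_eq_mul_div, div_le_one hw0]
      exact hH
    have h2 : 0 < mm ν D ^ (2 * t) := pow_pos hm0 _
    refine le_trans hd' ?_
    exact mul_le_mul_of_nonneg_right (by linarith) h2.le
  obtain ⟨Nv, hNv⟩ : ∃ Nv : ℝ, Nv = (W : ℝ) := ⟨_, rfl⟩
  rw [← hNv] at hw0 hlarge
  -- the averaged second moment of the total number of valid paths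
  let Z2 : (Fin t → ZMod W → ZMod W) → ℝ := fun f =>
    ∑ a : ZMod W, ∑ a' : ZMod W, KK ν t (hz (D := D) f) a a'
  have havg : ∑ f : Fin t → ZMod W → ZMod W, pw (pw (uz W)) f * Z2 f ≤
      3 * Nv ^ 2 * mm ν D ^ (2 * t) := by
    have h1 : ∑ f : Fin t → ZMod W → ZMod W, pw (pw (uz W)) f * Z2 f =
        ∑ a : ZMod W, ∑ a' : ZMod W, if a = a' then (sz ν W D t).1 else (sz ν W D t).2 := by
      simp only [Z2, Finset.mul_sum]
      rw [Finset.sum_comm]
      refine Finset.sum_congr rfl fun a _ => ?_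
      rw [Finset.sum_comm]
      refine Finset.sum_congr rfl fun a' _ => ?_
      exact avg_KK_z (D := D) hq2 hDW ν hν t a a'
    rw [h1]
    have h2 : ∀ a : ZMod W, ∑ a' : ZMod W, (if a = a' then (sz ν W D t).1 else (sz ν W D t).2) ≤
        (sz ν W D t).1 + Nv * (sz ν W D t).2 := by
      intro a
      have h3 : ∀ a' : ZMod W, (if a = a' then (sz ν W D t).1 else (sz ν W D t).2) ≤
          (if a = a' then (sz ν W D t).1 else 0) + (sz ν W D t).2 := by
        intro a'
        split_ifs <;> linarith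
      refine le_trans (Finset.sum_le_sum fun a' _ => h3 a') ?_
      rw [Finset.sum_add_distrib, Finset.sum_ite_eq]
      simp only [Finset.mem_univ, if_true, Finset.sum_const, Finset.card_univ, nsmul_eq_mul,
        ZMod.card]
      rw [← hNv]
    refine le_trans (Finset.sum_le_sum fun a _ => h2 a) ?_
    simp only [Finset.sum_const, Finset.card_univ, nsmul_eq_mul, ZMod.card]
    rw [← hNv]
    have h3 : (sz ν W D t).1 ≤ Nv * mm ν D ^ (2 * t) := by
      have h4 : (1 + 128 * lam) * mm ν D ^ t ≤ Nv * mm ν D ^ t * mm ν D ^ t :=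
        mul_le_mul_of_nonneg_right hlarge hmt.le
      have h5 : Nv * mm ν D ^ t * mm ν D ^ t = Nv * mm ν D ^ (2 * t) := by
        rw [two_mul, pow_add]
        ring
      linarith
    have h4 : Nv * (sz ν W D t).2 ≤ Nv * (2 * mm ν D ^ (2 * t)) :=
      mul_le_mul_of_nonneg_left hdle hw0.le
    have h5 : Nv * ((sz ν W D t).1 + Nv * (sz ν W D t).2) ≤
        Nv * (Nv * mm ν D ^ (2 * t) + Nv * (2 * mm ν D ^ (2 * t))) :=
      mul_le_mul_of_nonneg_left (by linarith) hw0.le
    calc Nv * ((sz ν W D t).1 + Nv * (sz ν W D t).2) ≤ _ := h5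
      _ = _ := by ring
  have hunif : ∀ x : ZMod W, 0 < uz W x := fun _ => by
    simp only [uz]
    have := W_pos_real (W := W)
    positivity
  have hμpos : ∀ f : Fin t → ZMod W → ZMod W, 0 < pw (pw (uz W)) f :=
    pw_pos _ (pw_pos _ hunif)
  have hμsum : ∑ f : Fin t → ZMod W → ZMod W, pw (pw (uz W)) f = 1 :=
    pw_sum_one _ (pw_sum_one _ uz_sum)
  have hS0 : 0 < 3 * Nv ^ 2 * mm ν D ^ (2 * t) := by positivity
  -- pick a good graph
  have hex : ∃ f : Fin t → ZMod W → ZMod W, Z2 f ≤ 3 * Nv ^ 2 * mm ν D ^ (2 * t) := by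
    by_contra hall
    push Not at hall
    have h1 : ∑ f : Fin t → ZMod W → ZMod W, pw (pw (uz W)) f * (3 * Nv ^ 2 * mm ν D ^ (2 * t)) <
        ∑ f : Fin t → ZMod W → ZMod W, pw (pw (uz W)) f * Z2 f := by
      apply Finset.sum_lt_sum_of_nonempty Finset.univ_nonempty
      intro f _
      exact mul_lt_mul_of_pos_left (hall f) (hμpos f)
    rw [← Finset.sum_mul, hμsum, one_mul] at h1
    linarith
  obtain ⟨f, hf⟩ := hex
  refine ⟨f, ?_⟩
  -- first moment
  have hfirst : ∑ T : Fin t → ZMod W → Fin D → Fin q, pw (pw (pw ν)) T *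
      (∑ a, cnt t (hz f) T a) = Nv * mm ν D ^ t := by
    simp only [Finset.mul_sum]
    rw [Finset.sum_comm]
    have h1 : ∀ a : ZMod W, ∑ T : Fin t → ZMod W → Fin D → Fin q, pw (pw (pw ν)) T *
        cnt t (hz f) T a = mm ν D ^ t := fun a => first_moment ν hν t (hz f) a
    simp only [h1, Finset.sum_const, Finset.card_univ, nsmul_eq_mul, ZMod.card]
    rw [← hNv]
  -- second moment
  have hsecond : ∑ T : Fin t → ZMod W → Fin D → Fin q, pw (pw (pw ν)) T *
      ((∑ a, cnt t (hz f) T a) * (∑ a, cnt t (hz f) T a)) ≤ 3 * Nv ^ 2 * mm ν D ^ (2 * t) := by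
    refine le_trans (le_of_eq ?_) hf
    simp only [Z2, KK]
    have e : ∀ T : Fin t → ZMod W → Fin D → Fin q, pw (pw (pw ν)) T *
        ((∑ a, cnt t (hz f) T a) * (∑ a, cnt t (hz f) T a)) =
        ∑ a, ∑ a', pw (pw (pw ν)) T * (cnt t (hz f) T a * cnt t (hz f) T a') := by
      intro T
      rw [Finset.sum_mul_sum, Finset.mul_sum]
      exact Finset.sum_congr rfl fun a _ => Finset.mul_sum _ _ _
    simp only [e]
    rw [Finset.sum_comm]
    refine Finset.sum_congr rfl fun a _ => ?_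
    rw [Finset.sum_comm]
  have hpz := paley_zygmund (Ω := Fin t → ZMod W → Fin D → Fin q) (pw (pw (pw ν)))
    (pw_nonneg _ (pw_nonneg _ (pw_nonneg _ hν0)))
    (fun T => ∑ a, cnt t (hz f) T a) (fun T => Finset.sum_nonneg fun _ _ => cnt_nonneg _ _ _ _)
    hfirst hsecond hS0
  have h2 : (Nv * mm ν D ^ t) ^ 2 / (3 * Nv ^ 2 * mm ν D ^ (2 * t)) = 1 / 3 := by
    have e : mm ν D ^ (2 * t) = mm ν D ^ t * mm ν D ^ t := by
      rw [two_mul, pow_add]
    rw [e]
    field_simp
  rw [h2] at hpz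
  refine le_trans hpz ?_
  apply Finset.sum_le_sum
  intro T _
  apply mul_le_mul_of_nonneg_left _ (pw_nonneg _ (pw_nonneg _ (pw_nonneg _ hν0)) T)
  by_cases h : 0 < ∑ a, cnt t (hz f) T a
  · rw [if_pos h]
    obtain ⟨a, _, ha⟩ := Finset.exists_lt_of_sum_lt (s := univ)
      (f := fun _ : ZMod W => (0 : ℝ)) (by simpa using h)
    rw [if_pos ⟨a, exists_validPath_of_cnt_pos _ _ _ _ ha⟩]
  · rw [if_neg h]
    split_ifs <;> norm_num

end Vale.Agent.Lib.P346.S
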