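import Mathlib
import Vale.Agent.Lib.P346.Assemble

/-!
Choice of the parameters and the final lower bound.
-/

namespace Vale.Agent.Lib.P346

open Finset

/-- Partial binomial sums. -/
theorem bsum_bound (n k : ℕ) (hk : 1 ≤ k) (hkn : k ≤ n) : (Bsum n k : ℝ) ≤ (3 * n / k) ^ k := by
  have hk' : (0 : ℝ) < k := by exact_mod_cast hk
  have hn' : (0 : ℝ) < n := by
    have : 0 < n := by omega
    exact_mod_cast this
  set x : ℝ := (k : ℝ) / n with hx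
  have hx0 : 0 < x := div_pos hk' hn'
  have hx1 : x ≤ 1 := by
    rw [hx, div_le_one hn']
    exact_mod_cast hkn
  have hbin : (x + 1) ^ n = ∑ m ∈ Finset.range (n + 1), x ^ m * 1 ^ (n - m) * (n.choose m) :=
    add_pow x 1 n
  have h1 : x ^ k * (Bsum n k : ℝ) ≤ (x + 1) ^ n := by
    rw [hbin]
    unfold Bsum
    push_cast
    rw [Finset.mul_sum]
    calc ∑ i ∈ Finset.range (k + 1), x ^ k * (n.choose i : ℝ)
        ≤ ∑ i ∈ Finset.range (k + 1), x ^ i * 1 ^ (n - i) * (n.choose i : ℝ) := by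
          apply Finset.sum_le_sum
          intro i hi
          have hi' : i ≤ k := Nat.lt_succ_iff.1 (Finset.mem_range.1 hi)
          rw [one_pow, mul_one]
          exact mul_le_mul_of_nonneg_right (pow_le_pow_of_le_one hx0.le hx1 hi') (by positivity)
      _ ≤ _ := by
          apply Finset.sum_le_sum_of_subset_of_nonneg
          · intro i hi
            simp only [Finset.mem_range] at hi ⊢
            omega
          · intro i _ _
            positivity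
  have h2 : (x + 1) ^ n ≤ (3 : ℝ) ^ k := by
    have h3 : x + 1 ≤ Real.exp x := Real.add_one_le_exp x
    have h4 : (x + 1) ^ n ≤ Real.exp x ^ n := pow_le_pow_left₀ (by positivity) h3 n
    have h5 : Real.exp x ^ n = Real.exp k := by
      rw [← Real.exp_nat_mul, hx]
      congr 1
      field_simp
    rw [h5] at h4
    refine le_trans h4 ?_
    have h6 : Real.exp (k : ℝ) = Real.exp 1 ^ k := by
      rw [← Real.exp_nat_mul]
      simp
    rw [h6]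
    exact pow_le_pow_left₀ (Real.exp_pos _).le (by
      have := Real.exp_one_lt_d9
      linarith) k
  have h7 : x ^ k * (Bsum n k : ℝ) ≤ 3 ^ k := h1.trans h2
  have h8 : (3 * (n : ℝ) / k) = 3 / x := by
    rw [hx]
    field_simp
  rw [h8, div_pow, le_div_iff₀ (by positivity)]
  linarith

/-- A crude growth lemma. -/
theorem linear_le_two_pow (s : ℕ) (hs : 8 ≤ s) : 22 * s + 24 ≤ 2 ^ s := by
  induction s, hs using Nat.le_induction with
  | base => norm_num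
  | succ s _ ih =>
    rw [pow_succ]
    omega

/-- A crude growth lemma. -/
theorem poly_le_two_pow (x : ℕ) (hx : 88 ≤ x) : 2 * (2 * x + 2) ^ 10 ≤ 2 ^ x := by
  set s := x / 11 with hs
  have h1 : 11 * s ≤ x := Nat.mul_div_le x 11
  have h2 : x < 11 * s + 11 := by
    have := Nat.div_add_mod x 11
    have h3 := Nat.mod_lt x (show 11 > 0 by norm_num)
    omega
  have h3 : 8 ≤ s := by omega
  have h4 : 2 * x + 2 ≤ 2 ^ s := by
    have := linear_le_two_pow s h3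
    omega
  calc 2 * (2 * x + 2) ^ 10 ≤ 2 * (2 ^ s) ^ 10 := Nat.mul_le_mul_left _ (Nat.pow_le_pow_left h4 10)
    _ = 2 ^ (10 * s + 1) := by rw [← pow_mul, pow_succ]; ring_nf
    _ ≤ 2 ^ x := Nat.pow_le_pow_right (by norm_num) (by omega)

/-- The quotient of `n` by `t + 2`. -/
theorem scale_facts {n t k p : ℕ} (hlen : k * (t + 2) + p = n) (hp : p < t + 2) (hk : 1 ≤ k) :
    ((t : ℝ) + 2) * k ≤ n ∧ (n : ℝ) ≤ 2 * ((t : ℝ) + 2) * k := by
  constructor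
  · have : (t + 2) * k ≤ n := by
      rw [Nat.mul_comm]
      omega
    exact_mod_cast this
  · have h1 : n ≤ 2 * (t + 2) * k := by
      have h3 : 2 * (t + 2) * k = k * (t + 2) + k * (t + 2) := by ring
      have h4 : 1 * (t + 2) ≤ k * (t + 2) := Nat.mul_le_mul_right _ hk
      omega
    exact_mod_cast h1

/-- The ratio `6 n / k`. -/
theorem gamma_facts {n t k : ℕ} (hk : 1 ≤ k) (h1 : ((t : ℝ) + 2) * k ≤ n)
    (h2 : (n : ℝ) ≤ 2 * ((t : ℝ) + 2) * k) :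
    6 * ((t : ℝ) + 2) ≤ 6 * n / k ∧ 6 * (n : ℝ) / k ≤ 12 * ((t : ℝ) + 2) := by
  have hkR : (0 : ℝ) < k := by exact_mod_cast hk
  constructor
  · rw [le_div_iff₀ hkR]
    nlinarith
  · rw [div_le_iff₀ hkR]
    nlinarith

/-- The base of the weights. -/
theorem exists_theta {Γ : ℝ} {t' : ℕ} (ht' : t' ≠ 0) (hΓ1 : 1 < Γ) (hΓ2 : Γ ≤ 2 ^ t') :
    ∃ θ : ℝ, θ ^ t' = 1 / Γ ∧ 0 < θ ∧ θ < 1 ∧ 1 / 2 ≤ θ := by
  have hΓpos : 0 < Γ := by linarith
  have hθt' : ((1 / Γ) ^ ((t' : ℝ)⁻¹)) ^ t' = 1 / Γ :=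
    Real.rpow_inv_natCast_pow (by positivity) ht'
  have hθ0 : 0 < (1 / Γ) ^ ((t' : ℝ)⁻¹) := Real.rpow_pos_of_pos (by positivity) _
  obtain ⟨θ, hθ⟩ : ∃ θ, θ = (1 / Γ) ^ ((t' : ℝ)⁻¹) := ⟨_, rfl⟩
  rw [← hθ] at hθt' hθ0
  refine ⟨θ, hθt', hθ0, ?_, ?_⟩
  · by_contra h
    push Not at h
    have h1 : (1 : ℝ) ≤ θ ^ t' := one_le_pow₀ h
    rw [hθt', le_div_iff₀ hΓpos] at h1
    linarith
  · by_contra h
    push Not at h
    have h1 : θ ^ t' < (1 / 2 : ℝ) ^ t' := pow_lt_pow_left₀ h hθ0.le ht'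
    rw [hθt'] at h1
    have h2 : (1 / 2 : ℝ) ^ t' ≤ 1 / Γ := by
      rw [one_div_pow]
      exact one_div_le_one_div_of_le hΓpos hΓ2
    linarith

/-- The ratio is small compared with `2 ^ t'`. -/
theorem gamma_le_two_pow {Γ : ℝ} {t' : ℕ} (ht' : 88 ≤ t')
    (hΓ2 : Γ ≤ 12 * (2 * (t' : ℝ) + 2)) : Γ ≤ 2 ^ t' := by
  have h2pow : 2 * (2 * t' + 2) ^ 10 ≤ 2 ^ t' := poly_le_two_pow t' ht'
  have h2powR : 2 * ((2 * (t' : ℝ) + 2)) ^ 10 ≤ 2 ^ t' := by exact_mod_cast h2pow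
  refine le_trans hΓ2 (le_trans ?_ h2powR)
  have ht'R : (88 : ℝ) ≤ t' := by exact_mod_cast ht'
  obtain ⟨x, hx⟩ : ∃ x : ℝ, x = 2 * (t' : ℝ) + 2 := ⟨_, rfl⟩
  rw [← hx]
  have hx1 : (6 : ℝ) ≤ x := by linarith
  have hx2 : (1 : ℝ) ≤ x := by linarith
  have h3 : x ^ 1 ≤ x ^ 9 := pow_le_pow_right₀ hx2 (by norm_num)
  have h4 : x * 6 ≤ x * x ^ 9 := by
    apply mul_le_mul_of_nonneg_left _ (by linarith)
    rw [pow_one] at h3
    linarith
  have h5 : x * x ^ 9 = x ^ 10 := by ring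
  nlinarith

/-- Properties of the measure for the base `θ`. -/
theorem measure_facts {q t' t : ℕ} (hq2 : 2 ≤ q) (ht : t = 2 * t') (ht4 : 4 ≤ t) {Γ θ : ℝ}
    (hΓ : 0 < Γ) (hθt' : θ ^ t' = 1 / Γ) (hθ0 : 0 < θ) (hθ1 : θ < 1) (hθhalf : 1 / 2 ≤ θ) :
    1 / 4 ≤ mm (nuθ q θ) t ∧ mm (nuθ q θ) t ≤ 1 ∧ 1 / (2 * Γ ^ 2) ≤ mm (nuθ q θ) t ^ t := by
  have hq0 : 0 < q := by omega
  have hp12 : pp (nuθ q θ) ≤ 1 / 2 := pp_le hq2 hθ0 hθ1.le
  have hp0 : 0 ≤ pp (nuθ q θ) := by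
    rw [show pp (nuθ q θ) = θ ^ (q - 1) / Zθ q θ from pp_nuθ hq0 θ]
    have := Zθ_pos hq0 hθ0
    positivity
  have hmm : mm (nuθ q θ) t = θ * (1 - pp (nuθ q θ) ^ t) := mm_eq hq0 hθ0
  obtain ⟨P, hP⟩ : ∃ P, P = pp (nuθ q θ) ^ t := ⟨_, rfl⟩
  rw [← hP] at hmm
  have htR : (4 : ℝ) ≤ t := by exact_mod_cast ht4
  have hpD : P ≤ 1 / (2 * (t : ℝ)) := by
    have h1 : P ≤ (1 / 2 : ℝ) ^ t := by
      rw [hP]
      exact pow_le_pow_left₀ hp0 hp12 t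
    refine le_trans h1 ?_
    rw [one_div_pow]
    apply one_div_le_one_div_of_le (by positivity)
    have h2 : 2 * t ≤ 2 ^ t := by
      have := Nat.lt_two_pow_self (n := t - 1)
      obtain ⟨s, hs⟩ : ∃ s, t = s + 1 := ⟨t - 1, by omega⟩
      rw [hs, pow_succ]
      simp only [hs, Nat.add_sub_cancel] at this
      omega
    exact_mod_cast h2
  have hpD2 : P ≤ 1 / 2 := by
    refine le_trans hpD ?_
    apply one_div_le_one_div_of_le (by norm_num)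
    linarith
  have hpD0 : 0 ≤ P := by
    rw [hP]
    positivity
  rw [hmm]
  refine ⟨by nlinarith, by nlinarith, ?_⟩
  rw [mul_pow]
  have h1 : θ ^ t = 1 / Γ ^ 2 := by
    rw [ht, mul_comm, pow_mul, hθt']
    field_simp
  have h2 : 1 / 2 ≤ (1 - P) ^ t := by
    have h3 := one_add_mul_le_pow (a := -P) (by linarith) t
    have h4 : (t : ℝ) * P ≤ 1 / 2 := by
      calc (t : ℝ) * P ≤ t * (1 / (2 * (t : ℝ))) :=
            mul_le_mul_of_nonneg_left hpD (by positivity)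
        _ = 1 / 2 := by
            have : (t : ℝ) ≠ 0 := by linarith
            field_simp
    have h5 : 1 + (t : ℝ) * -P ≤ (1 - P) ^ t := by
      simpa [sub_eq_add_neg] using h3
    nlinarith
  rw [h1]
  have h6 : 1 / (2 * Γ ^ 2) = 1 / Γ ^ 2 * (1 / 2) := by
    field_simp
  rw [h6]
  exact mul_le_mul_of_nonneg_left h2 (by positivity)

/-- The tail of the product of independent trials. -/
theorem pow_tail_bound {ψ₀ : ℝ} {g t' : ℕ} (hψ : ψ₀ ≤ 1) (hg : (t' : ℝ) ≤ g * ψ₀) :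
    (1 - ψ₀) ^ g ≤ (1 / 2) ^ t' := by
  have h1 : 1 - ψ₀ ≤ Real.exp (-ψ₀) := by
    have := Real.add_one_le_exp (-ψ₀)
    linarith
  have h2 : (1 - ψ₀) ^ g ≤ Real.exp (-ψ₀) ^ g := pow_le_pow_left₀ (by linarith) h1 g
  rw [← Real.exp_nat_mul] at h2
  have h3 : Real.exp ((g : ℝ) * -ψ₀) ≤ Real.exp (-(t' : ℝ)) := by
    apply Real.exp_le_exp.2
    linarith
  have h4 : Real.exp (-(t' : ℝ)) = Real.exp (-1) ^ t' := by
    rw [← Real.exp_nat_mul]
    simp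
  have h5 : Real.exp (-1) ≤ 1 / 2 := by
    rw [Real.exp_neg, inv_eq_one_div]
    apply one_div_le_one_div_of_le (by norm_num)
    have := Real.add_one_le_exp (1 : ℝ)
    linarith
  calc (1 - ψ₀) ^ g ≤ _ := h2
    _ ≤ _ := h3
    _ = _ := h4
    _ ≤ _ := pow_le_pow_left₀ (Real.exp_pos _).le h5 t'

/-- The number of vertices needed. -/
theorem width_bound {t t' : ℕ} (ht : 40000000000 ≤ t) (ht' : t' ≤ t) :
    1 + (288 * (t + 2) ^ 2 * (1 + 128 * t) * t') * ((288 * t * (1 + 128 * t) * (t + 2) ^ 2) * t)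
      ≤ t ^ 10 := by
  have ht1 : t + 2 ≤ 2 * t := by omega
  have ht2 : 1 + 128 * t ≤ 129 * t := by omega
  have hprod : (288 * (t + 2) ^ 2 * (1 + 128 * t) * t') *
      ((288 * t * (1 + 128 * t) * (t + 2) ^ 2) * t) ≤
      (288 * (2 * t) ^ 2 * (129 * t) * t) * ((288 * t * (129 * t) * (2 * t) ^ 2) * t) := by
    gcongr
  have hval : (288 * (2 * t) ^ 2 * (129 * t) * t) * ((288 * t * (129 * t) * (2 * t) ^ 2) * t) =
      22084337664 * t ^ 9 := by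
    ring
  rw [hval] at hprod
  have h2 : 1 ≤ t ^ 9 := Nat.one_le_pow _ _ (by omega)
  have h3 : t ^ 10 = t * t ^ 9 := by ring
  have h4 : 40000000000 * t ^ 9 ≤ t * t ^ 9 := Nat.mul_le_mul_right _ ht
  omega

/-- A growth estimate with the exponential function. -/
theorem two_pow_mul_exp_le (τ : ℕ) : (2 : ℝ) ^ τ * (Real.exp (-(τ : ℝ)) * Real.exp (-2)) ≤ 1 / 4 := by
  have he2 : (2 : ℝ) ≤ Real.exp 1 := by
    have := Real.add_one_le_exp (1 : ℝ)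
    linarith
  have h2exp : (2 : ℝ) ^ τ * Real.exp (-(τ : ℝ)) ≤ 1 := by
    rw [Real.exp_neg, ← div_eq_mul_inv, div_le_one (Real.exp_pos _)]
    calc (2 : ℝ) ^ τ ≤ Real.exp 1 ^ τ := pow_le_pow_left₀ (by norm_num) he2 τ
      _ = Real.exp (τ : ℝ) := by rw [← Real.exp_nat_mul]; simp
  have hexp2 : Real.exp (-2) ≤ 1 / 4 := by
    rw [Real.exp_neg, inv_eq_one_div]
    apply one_div_le_one_div_of_le (by norm_num)
    have h1 : Real.exp 2 = Real.exp 1 ^ 2 := by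
      rw [← Real.exp_nat_mul]
      norm_num
    rw [h1]
    nlinarith
  have h2 : (2 : ℝ) ^ τ * (Real.exp (-(τ : ℝ)) * Real.exp (-2)) =
      ((2 : ℝ) ^ τ * Real.exp (-(τ : ℝ))) * Real.exp (-2) := by ring
  have h3 : ((2 : ℝ) ^ τ * Real.exp (-(τ : ℝ))) * Real.exp (-2) ≤ 1 * Real.exp (-2) :=
    mul_le_mul_of_nonneg_right h2exp (Real.exp_pos _).le
  linarith

/-- The first error term is small. -/
theorem term_one {q τ nL R : ℕ} (hq0 : 0 < q) (hR : R = 2 * q * (τ + 2)) (hnL : nL ≤ 2 ^ τ) :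
    (nL : ℝ) * Real.exp (-(R : ℝ) / (2 * q)) ≤ 1 / 4 := by
  have hq' : (0 : ℝ) < q := by exact_mod_cast hq0
  have hnLR : (nL : ℝ) ≤ 2 ^ τ := by exact_mod_cast hnL
  have hexp : Real.exp (-(R : ℝ) / (2 * q)) = Real.exp (-(τ : ℝ)) * Real.exp (-2) := by
    rw [← Real.exp_add]
    congr 1
    rw [hR]
    push_cast
    field_simp
    ring
  rw [hexp]
  have h1 : (nL : ℝ) * (Real.exp (-(τ : ℝ)) * Real.exp (-2)) ≤
      (2 : ℝ) ^ τ * (Real.exp (-(τ : ℝ)) * Real.exp (-2)) :=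
    mul_le_mul_of_nonneg_right hnLR (by positivity)
  have := two_pow_mul_exp_le τ
  linarith

/-- The second error term is small. -/
theorem term_two {n k t' κ τ nT : ℕ} {θ Γ : ℝ} (hk : 1 ≤ k) (hkn : k ≤ n)
    (hΓ : Γ = 6 * n / k) (hθt' : θ ^ t' = 1 / Γ) (hθ0 : 0 < θ) (hθ1 : θ < 1)
    (hκ : k * t' ≤ κ) (hτk : τ + 3 ≤ k) (hnT : nT ≤ 2 ^ τ) :
    (nT : ℝ) * Bsum n k * θ ^ κ ≤ 1 / 8 := by
  have hkR : (0 : ℝ) < k := by exact_mod_cast hk
  have hnR : (0 : ℝ) < n := by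
    have : 0 < n := by omega
    exact_mod_cast this
  have hnTR : (nT : ℝ) ≤ 2 ^ τ := by exact_mod_cast hnT
  have hθκ : θ ^ κ ≤ (k / (6 * n) : ℝ) ^ k := by
    have h1 : θ ^ κ ≤ θ ^ (k * t') := pow_le_pow_of_le_one hθ0.le hθ1.le hκ
    have h2 : θ ^ (k * t') = (k / (6 * n) : ℝ) ^ k := by
      rw [mul_comm, pow_mul, hθt', hΓ]
      congr 1
      field_simp
    rw [← h2]
    exact h1
  have hBs : (Bsum n k : ℝ) * θ ^ κ ≤ (1 / 2) ^ k := by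
    have h1 := bsum_bound n k hk hkn
    calc (Bsum n k : ℝ) * θ ^ κ ≤ (3 * n / k) ^ k * (k / (6 * n) : ℝ) ^ k :=
          mul_le_mul h1 hθκ (by positivity) (by positivity)
      _ = ((3 * n / k) * (k / (6 * n) : ℝ)) ^ k := (mul_pow _ _ _).symm
      _ = (1 / 2) ^ k := by
          congr 1
          field_simp
          norm_num
  have h1 : (nT : ℝ) * Bsum n k * θ ^ κ = (nT : ℝ) * ((Bsum n k : ℝ) * θ ^ κ) := by ring
  rw [h1]
  have h2 : (nT : ℝ) * ((Bsum n k : ℝ) * θ ^ κ) ≤ 2 ^ τ * (1 / 2) ^ k :=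
    mul_le_mul hnTR hBs (by positivity) (by positivity)
  have h3 : (2 : ℝ) ^ τ * (1 / 2) ^ k ≤ 1 / 8 := by
    have h4 : (1 / 2 : ℝ) ^ k ≤ (1 / 2) ^ (τ + 3) :=
      pow_le_pow_of_le_one (by norm_num) (by norm_num) hτk
    have h5 : (2 : ℝ) ^ τ * (1 / 2) ^ (τ + 3) = 1 / 8 := by
      rw [pow_add, ← mul_assoc, ← mul_pow]
      norm_num
    calc (2 : ℝ) ^ τ * (1 / 2) ^ k ≤ 2 ^ τ * (1 / 2) ^ (τ + 3) :=
          mul_le_mul_of_nonneg_left h4 (by positivity)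
      _ = 1 / 8 := h5
  linarith

/-- Arithmetic of the exponents. -/
theorem exponent_facts {q t t' τ k R τ₁ : ℕ} (ht : t = 2 * t') (hτ : 2 * q ^ 2 * (τ + 3) ≤ t')
    (hkt : t ≤ k) (hR : R = 2 * q * (τ + 2)) (hτ₁ : τ₁ = (q - 1) * (2 * q + R)) (hq : 0 < q) :
    (k * t - τ₁ * k) + τ₁ * k = k * t ∧ k * t' ≤ k * t - τ₁ * k ∧ τ + 3 ≤ k := by
  have hτ1 : τ₁ ≤ t' := by
    refine le_trans ?_ hτ
    rw [hτ₁, hR]
    have h1 : q - 1 ≤ q := Nat.sub_le _ _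
    calc (q - 1) * (2 * q + 2 * q * (τ + 2)) ≤ q * (2 * q + 2 * q * (τ + 2)) :=
          Nat.mul_le_mul_right _ h1
      _ = 2 * q ^ 2 * (τ + 3) := by ring
  have h2 : τ₁ * k ≤ t' * k := Nat.mul_le_mul_right _ hτ1
  have h3 : k * t = k * t' + t' * k := by
    rw [ht]; ring
  have h4 : τ + 3 ≤ 2 * q ^ 2 * (τ + 3) := Nat.le_mul_of_pos_left _ (by positivity)
  refine ⟨?_, by omega, by omega⟩
  apply Nat.sub_add_cancel
  omega

variable {K : Type*} [Field K] [Fintype K]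

open scoped Classical in
/-- The final contradiction, all parameters being in place. -/
theorem final_contra {q n k t t' τ g w D p : ℕ} [NeZero n] (hq : Fintype.card K = q)
    (hlen : k * (t + 2) + p = n) (hwidth : 1 + g * (w * D) ≤ n) (hg : 0 < g) (hD : 0 < D)
    (ht : t = 2 * t') (hτ : 2 * q ^ 2 * (τ + 3) ≤ t') (hkt : t ≤ k) (hk : 1 ≤ k) (hkn : k ≤ n)
    (C : Circuit K (Fin n × Fin n × Fin n)) (hC : C.IsSynHomog) (hout : C.output = imm K n n)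
    (hsize : C.size < 2 ^ τ) {θ Γ : ℝ} (hΓ : Γ = 6 * n / k) (hθt' : θ ^ t' = 1 / Γ)
    (hθ0 : 0 < θ) (hθ1 : θ < 1) (f : Fin t → F1 w D) (a₀ : VV w D) {ψ₀ : ℝ}
    (hψ : ψ₀ ≤ ∑ ω : Fin t → VV w D → Fin D → Fin q, pw (pw (pw (nuθ q θ))) ω *
        (if ∃ π, ValidPath t (hd f) ω a₀ π then 1 else 0)) (hψ₁ : ψ₀ ≤ 1)
    (hkb : (k : ℝ) * (1 - ψ₀) ^ g ≤ 1 / 2) : False := by
  have hq2 : 2 ≤ q := hq ▸ Fintype.one_lt_card
  have hq0 : 0 < q := by omega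
  obtain ⟨R, hR⟩ : ∃ R, R = 2 * q * (τ + 2) := ⟨_, rfl⟩
  obtain ⟨τ₁, hτ₁⟩ : ∃ τ₁, τ₁ = (q - 1) * (2 * q + R) := ⟨_, rfl⟩
  obtain ⟨hκ1, hκ2, hτk⟩ := exponent_facts ht hτ hkt hR hτ₁ hq0
  have hbasic := basic_ineq hq p R (k * t - τ₁ * k) hlen hwidth hg hD
    (by rw [← hτ₁]; exact hκ1) C hC hout hθ0 hθ1 f a₀ hψ hψ₁
  have hnL : C.nL ≤ 2 ^ τ := by
    unfold Circuit.size at hsize
    omega
  have hnT : C.nT ≤ 2 ^ τ := by
    unfold Circuit.size at hsize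
    omega
  have h1 := term_one (nL := C.nL) hq0 hR hnL
  have h2 := term_two (nT := C.nT) hk hkn hΓ hθt' hθ0 hθ1 hκ2 hτk hnT
  linarith

/-- The numerical choices for the random graph. -/
theorem copies_facts {t t' : ℕ} (ht' : 1 ≤ t') (m : ℝ) (hm0 : 0 < m) (hm1 : m ≤ 1) (htR : (1 : ℝ) ≤ t)
    (hmt2 : 1 / (288 * ((t : ℝ) + 2) ^ 2) ≤ m ^ t) :
    ((t : ℝ) * (1 + 128 * t) ≤ ((288 * t * (1 + 128 * t) * (t + 2) ^ 2 : ℕ) : ℝ) * m ^ t) ∧
    m ^ t / (1 + 128 * t) ≤ 1 ∧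
    (t' : ℝ) ≤ ((288 * (t + 2) ^ 2 * (1 + 128 * t) * t' : ℕ) : ℝ) * (m ^ t / (1 + 128 * t)) := by
  have h0 : (0 : ℝ) < 288 * ((t : ℝ) + 2) ^ 2 := by positivity
  have h01 : (0 : ℝ) < 1 + 128 * (t : ℝ) := by positivity
  refine ⟨?_, ?_, ?_⟩
  · have h1 : (t : ℝ) * (1 + 128 * t) =
        ((288 * t * (1 + 128 * t) * (t + 2) ^ 2 : ℕ) : ℝ) * (1 / (288 * ((t : ℝ) + 2) ^ 2)) := by
      push_cast
      field_simp
    rw [h1]
    exact mul_le_mul_of_nonneg_left hmt2 (by positivity)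
  · rw [div_le_one h01]
    have h1 : m ^ t ≤ 1 := pow_le_one₀ hm0.le hm1
    nlinarith
  · have h1 : ((288 * (t + 2) ^ 2 * (1 + 128 * t) * t' : ℕ) : ℝ) *
        (m ^ t / (1 + 128 * t)) = (288 * ((t : ℝ) + 2) ^ 2) * (m ^ t) * t' := by
      push_cast
      field_simp
    rw [h1]
    have h2 : 1 ≤ (288 * ((t : ℝ) + 2) ^ 2) * (m ^ t) := by
      rw [div_le_iff₀ h0] at hmt2
      linarith
    have h3 : (0 : ℝ) ≤ t' := by positivity
    nlinarith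

/-- The bound with all parameters in place. -/
theorem param_main {q : ℕ} (hq : Fintype.card K = q) (t' n τ : ℕ) [NeZero n]
    (ht' : 20000000000 ≤ t') (hn1 : (2 * t') ^ 10 ≤ n) (hn2 : n ≤ (2 * t' + 2) ^ 10)
    (hτ : 2 * q ^ 2 * (τ + 3) ≤ t')
    (C : Circuit K (Fin n × Fin n × Fin n)) (hC : C.IsSynHomog) (hout : C.output = imm K n n) :
    2 ^ τ ≤ C.size := by
  classical
  by_contra hsize
  push Not at hsize
  have hq2 : 2 ≤ q := hq ▸ Fintype.one_lt_card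
  have hq0 : 0 < q := by omega
  obtain ⟨t, ht⟩ : ∃ t, t = 2 * t' := ⟨_, rfl⟩
  have htpos : 40000000000 ≤ t := by omega
  have ht'1 : 88 ≤ t' := by omega
  rw [← ht] at hn1
  have hn1' : t ^ 10 ≤ n := hn1
  have hn2' : n ≤ (t + 2) ^ 10 := by rw [ht]; exact hn2
  obtain ⟨k, p, hlen, hp⟩ : ∃ k p, k * (t + 2) + p = n ∧ p < t + 2 :=
    ⟨n / (t + 2), n % (t + 2), by rw [Nat.mul_comm]; exact Nat.div_add_mod n (t + 2),
      Nat.mod_lt _ (by omega)⟩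
  have hnt : t * (t + 2) ≤ n := by
    refine le_trans ?_ hn1'
    have h1 : t + 2 ≤ t ^ 2 := by nlinarith
    calc t * (t + 2) ≤ t * t ^ 2 := Nat.mul_le_mul_left _ h1
      _ = t ^ 3 := by ring
      _ ≤ t ^ 10 := Nat.pow_le_pow_right (by omega) (by norm_num)
  have hkt : t ≤ k := by
    by_contra hlt
    push Not at hlt
    have h1 : (k + 1) * (t + 2) ≤ t * (t + 2) := Nat.mul_le_mul_right _ hlt
    have h2 : (k + 1) * (t + 2) = k * (t + 2) + (t + 2) := by ring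
    omega
  have hk1 : 1 ≤ k := by omega
  have hkn : k ≤ n := by
    have h1 : 1 * k ≤ (t + 2) * k := Nat.mul_le_mul_right _ (by omega)
    have h2 : (t + 2) * k = k * (t + 2) := Nat.mul_comm _ _
    omega
  obtain ⟨hn3, hn4⟩ := scale_facts hlen hp hk1
  obtain ⟨hΓ1, hΓ2⟩ := gamma_facts hk1 hn3 hn4
  obtain ⟨Γ, hΓ⟩ : ∃ Γ : ℝ, Γ = 6 * n / k := ⟨_, rfl⟩
  rw [← hΓ] at hΓ1 hΓ2
  have htR : (40000000000 : ℝ) ≤ t := by exact_mod_cast htpos
  have hΓpos : 0 < Γ := by linarith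
  have hΓgt : 1 < Γ := by linarith
  have htt' : (t : ℝ) = 2 * t' := by
    rw [ht]; push_cast; ring
  have hΓ2pow : Γ ≤ 2 ^ t' := gamma_le_two_pow ht'1 (by rw [← htt']; exact hΓ2)
  obtain ⟨θ, hθt', hθ0, hθ1, hθhalf⟩ := exists_theta (by omega) hΓgt hΓ2pow
  obtain ⟨hm14, hm1, hmt⟩ := measure_facts (q := q) hq2 ht (by omega) hΓpos hθt' hθ0 hθ1 hθhalf
  obtain ⟨m, hm⟩ : ∃ m, m = mm (nuθ q θ) t := ⟨_, rfl⟩
  rw [← hm] at hm14 hm1 hmt
  have hΓsq : Γ ^ 2 ≤ 144 * ((t : ℝ) + 2) ^ 2 := by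
    have h1 : (12 * ((t : ℝ) + 2)) ^ 2 = 144 * ((t : ℝ) + 2) ^ 2 := by ring
    rw [← h1]
    exact pow_le_pow_left₀ hΓpos.le hΓ2 2
  have hmt2 : 1 / (288 * ((t : ℝ) + 2) ^ 2) ≤ m ^ t := by
    refine le_trans ?_ hmt
    apply one_div_le_one_div_of_le (by positivity)
    linarith
  have hm0 : 0 < m := by linarith
  obtain ⟨hb1, hb2, hb3⟩ := copies_facts (t := t) (t' := t') (by omega) m hm0 hm1 (by linarith) hmt2
  obtain ⟨w, hw⟩ : ∃ w, w = 288 * t * (1 + 128 * t) * (t + 2) ^ 2 := ⟨_, rfl⟩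
  obtain ⟨g, hg⟩ : ∃ g, g = 288 * (t + 2) ^ 2 * (1 + 128 * t) * t' := ⟨_, rfl⟩
  rw [← hw] at hb1
  rw [← hg] at hb3
  have hwpos : 0 < w := by
    rw [hw]
    have : 0 < t := by omega
    positivity
  have hgpos : 0 < g := by
    rw [hg]
    have : 0 < t' := by omega
    positivity
  have hwidth : 1 + g * (w * t) ≤ n := by
    refine le_trans ?_ hn1'
    rw [hg, hw]
    exact width_bound htpos (by omega)
  have htD : 0 < t := by omega
  have a₀ : VV w t := (⟨0, hwpos⟩, ⟨0, htD⟩)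
  rw [hm] at hb1
  have hν : ∑ j, nuθ q θ j = 1 := nuθ_sum hq0 hθ0
  have hν0 : ∀ j, 0 ≤ nuθ q θ j := nuθ_nonneg hq0 hθ0
  have hp12 : pp (nuθ q θ) ≤ 1 / 2 := pp_le hq2 hθ0 hθ1.le
  obtain ⟨f, hf⟩ := exists_dag (D := t) hq2 hwpos (nuθ q θ) hν hν0 hp12 (by rw [← hm]; exact hm14)
    (by rw [← hm]; exact hm1) t hb1 a₀
  rw [← hm] at hf
  have hkbound : (k : ℝ) * (1 - m ^ t / (1 + 128 * t)) ^ g ≤ 1 / 2 := by
    have hpow := pow_tail_bound hb2 hb3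
    have h1 : 2 * (k : ℝ) ≤ 2 ^ t' := by
      have h2 : 2 * k ≤ 2 ^ t' := by
        refine le_trans ?_ (poly_le_two_pow t' ht'1)
        have h3 : k ≤ (2 * t' + 2) ^ 10 := hkn.trans hn2
        omega
      exact_mod_cast h2
    calc (k : ℝ) * (1 - m ^ t / (1 + 128 * t)) ^ g ≤ k * (1 / 2) ^ t' :=
          mul_le_mul_of_nonneg_left hpow (by positivity)
      _ ≤ 1 / 2 := by
          rw [one_div_pow, mul_one_div, div_le_iff₀ (by positivity)]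
          linarith
  exact final_contra hq hlen hwidth hgpos htD ht hτ hkt hk1 hkn C hC hout hsize hΓ hθt' hθ0 hθ1 f a₀
    hf hb2 hkbound

/-- Choice of the scale. -/
theorem exists_scale (n : ℕ) : ∃ s, n < (2 * s + 2) ^ 10 ∧ (2 * s) ^ 10 ≤ n := by
  have hex : ∃ s, n < (2 * s + 2) ^ 10 := by
    refine ⟨n, ?_⟩
    calc n < 2 * n + 2 := by omega
      _ = (2 * n + 2) ^ 1 := (pow_one _).symm
      _ ≤ _ := Nat.pow_le_pow_right (by omega) (by norm_num)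
  refine ⟨Nat.find hex, Nat.find_spec hex, ?_⟩
  rcases Nat.eq_zero_or_pos (Nat.find hex) with h0 | h0
  · rw [h0]
    simp
  · have := Nat.find_min hex (m := Nat.find hex - 1) (by omega)
    push Not at this
    have e : 2 * (Nat.find hex - 1) + 2 = 2 * Nat.find hex := by omega
    rwa [e] at this

/-- The final lower bound. -/
theorem imm_lower_bound (n τ : ℕ) [NeZero n]
    (h : (10 ^ 12 * (Fintype.card K) ^ 2 * (τ + 4)) ^ 10 ≤ n)
    (C : Circuit K (Fin n × Fin n × Fin n)) (hC : C.IsSynHomog) (hout : C.output = imm K n n) :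
    2 ^ τ ≤ C.size := by
  classical
  obtain ⟨q, hq⟩ : ∃ q, q = Fintype.card K := ⟨_, rfl⟩
  rw [← hq] at h
  have hq2 : 2 ≤ q := by
    rw [hq]
    exact Fintype.one_lt_card
  obtain ⟨t', ht'1, ht'2⟩ := exists_scale n
  obtain ⟨Q, hQ⟩ : ∃ Q, Q = q ^ 2 * (τ + 4) := ⟨_, rfl⟩
  have hh : 10 ^ 12 * q ^ 2 * (τ + 4) = 10 ^ 12 * Q := by
    rw [hQ]
    ring
  rw [hh] at h
  have hsc : 10 ^ 12 * Q < 2 * t' + 2 := by
    by_contra hne
    push Not at hne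
    have h1 : (2 * t' + 2) ^ 10 ≤ (10 ^ 12 * Q) ^ 10 := Nat.pow_le_pow_left hne 10
    omega
  have hqq : 4 ≤ q ^ 2 := by nlinarith
  have hQ16 : 16 ≤ Q := by
    rw [hQ]
    exact Nat.mul_le_mul hqq (show 4 ≤ τ + 4 by omega)
  have hQτ : 2 * q ^ 2 * (τ + 3) ≤ 2 * Q := by
    rw [hQ, mul_assoc]
    exact Nat.mul_le_mul_left _ (Nat.mul_le_mul_left _ (by omega))
  norm_num at hsc
  have ht0 : 20000000000 ≤ t' := by omega
  have hτ : 2 * q ^ 2 * (τ + 3) ≤ t' := by omega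
  exact param_main hq.symm t' n τ ht0 ht'2 ht'1.le hτ C hC hout

end Vale.Agent.Lib.P346
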