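import Mathlib
import Vale.Agent.Lib.P346.Params
import Vale.Agent.Lib.P346.Assemble2
import Vale.Agent.Lib.P346.Dag2

/-!
Choice of the parameters for the graph with many start vertices, and the final lower bound.
-/

namespace Vale.Agent.Lib.P346.S

open Finset

/-- A crude growth lemma. -/
theorem four_mul_le_two_pow (l : ℕ) (hl : 4 ≤ l) : 4 * l ≤ 2 ^ l := by
  induction l, hl using Nat.le_induction with
  | base => norm_num
  | succ l _ ih =>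
    rw [pow_succ]
    omega

/-- Arithmetic of the logarithm of the scale. -/
theorem log_scale_facts {s l e' e t : ℕ} (hs : 24 ≤ s) (hl : l = Nat.log 2 s) (he' : e' = l + 4)
    (he : e = 2 * e') (ht : t = (e + 1) * s) :
    12 * (t + 2) ≤ 2 ^ e ∧ 2 ^ e' ≤ 6 * (t + 2) := by
  have h1 : 2 ^ l ≤ s := by
    rw [hl]
    exact Nat.pow_log_le_self 2 (by omega)
  have h2 : s < 2 ^ (l + 1) := by
    rw [hl]
    exact Nat.lt_pow_succ_log_self (by norm_num) s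
  have hl4 : 4 ≤ l := by
    by_contra hlt
    push Not at hlt
    have h3 : 2 ^ (l + 1) ≤ 2 ^ 4 := Nat.pow_le_pow_right (by norm_num) (by omega)
    norm_num at h3
    omega
  have h3 : 4 * l ≤ s := le_trans (four_mul_le_two_pow l hl4) h1
  have h4 : 2 ^ e' = 16 * 2 ^ l := by
    rw [he', pow_add]
    ring
  have h5 : 8 * s ≤ 2 ^ e' := by
    have : 2 ^ (l + 1) = 2 * 2 ^ l := by ring
    omega
  have h6 : 2 ^ e = 2 ^ e' * 2 ^ e' := by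
    rw [he, two_mul, pow_add]
  have h7 : (8 * s) * (8 * s) ≤ 2 ^ e := by
    rw [h6]
    exact Nat.mul_le_mul h5 h5
  have he1 : e + 1 = 2 * l + 9 := by omega
  constructor
  · refine le_trans ?_ h7
    rw [ht, he1]
    nlinarith
  · rw [h4, ht, he1]
    have h8 : 3 * s ≤ (2 * l + 9) * s := Nat.mul_le_mul_right _ (by omega)
    omega

/-- The base `θ`. -/
theorem theta_bounds {Γ θ : ℝ} {e e' s : ℕ} (he : e = 2 * e') (he0 : 0 < e') (hs : 0 < s)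
    (hθ : θ ^ (e * s) = 1 / Γ) (h0 : 0 < θ) (h1 : θ < 1) (hΓ1 : Γ ≤ 2 ^ e) (hΓ2 : 2 ^ e' ≤ Γ) :
    1 / 2 ≤ θ ^ s ∧ 1 / (4 * (s : ℝ)) ≤ 1 - θ := by
  have hΓ : 0 < Γ := lt_of_lt_of_le (by positivity) hΓ2
  constructor
  · by_contra hlt
    push Not at hlt
    have h2 : (θ ^ s) ^ e < (1 / 2 : ℝ) ^ e :=
      pow_lt_pow_left₀ hlt (by positivity) (by omega)
    rw [← pow_mul, mul_comm s e, hθ, one_div_pow] at h2
    have h3 : 1 / (2 : ℝ) ^ e ≤ 1 / Γ := one_div_le_one_div_of_le hΓ hΓ1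
    linarith
  · have h2 : θ ^ (2 * s) ≤ 1 / 2 := by
      by_contra hlt
      push Not at hlt
      have h3 : (1 / 2 : ℝ) ^ e' < (θ ^ (2 * s)) ^ e' :=
        pow_lt_pow_left₀ hlt (by norm_num) (by omega)
      have h4 : (θ ^ (2 * s)) ^ e' = θ ^ (e * s) := by
        rw [← pow_mul, he]
        congr 1
        ring
      rw [h4, hθ, one_div_pow] at h3
      have h5 : 1 / Γ ≤ 1 / (2 : ℝ) ^ e' := one_div_le_one_div_of_le (by positivity) hΓ2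
      linarith
    have h3 := one_add_mul_le_pow (a := θ - 1) (by linarith) (2 * s)
    have h4 : 1 + (θ - 1) = θ := by ring
    rw [h4] at h3
    have hsR : (0 : ℝ) < s := by exact_mod_cast hs
    rw [div_le_iff₀ (by positivity)]
    push_cast at h3
    nlinarith

/-- Properties of the measure for the base `θ`, with `D` labels. -/
theorem measure_facts2 {q D t : ℕ} (hq2 : 2 ≤ q) (ht1 : 1 ≤ t) (hD : 2 * t ≤ 2 ^ D) {Γ θ : ℝ}
    (hΓ : 0 < Γ) (hθt : 1 / (2 * Γ) ≤ θ ^ t) (hθ0 : 0 < θ) (hθ1 : θ < 1) (hθhalf : 1 / 2 ≤ θ) :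
    1 / 4 ≤ mm (nuθ q θ) D ∧ mm (nuθ q θ) D ≤ θ ∧ 1 / (4 * Γ) ≤ mm (nuθ q θ) D ^ t := by
  have hq0 : 0 < q := by omega
  have hp12 : pp (nuθ q θ) ≤ 1 / 2 := pp_le hq2 hθ0 hθ1.le
  have hp0 : 0 ≤ pp (nuθ q θ) := by
    rw [show pp (nuθ q θ) = θ ^ (q - 1) / Zθ q θ from pp_nuθ hq0 θ]
    have := Zθ_pos hq0 hθ0
    positivity
  have hmm : mm (nuθ q θ) D = θ * (1 - pp (nuθ q θ) ^ D) := mm_eq hq0 hθ0
  obtain ⟨P, hP⟩ : ∃ P, P = pp (nuθ q θ) ^ D := ⟨_, rfl⟩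
  rw [← hP] at hmm
  have htR : (1 : ℝ) ≤ t := by exact_mod_cast ht1
  have hpD : P ≤ 1 / (2 * (t : ℝ)) := by
    have h1 : P ≤ (1 / 2 : ℝ) ^ D := by
      rw [hP]
      exact pow_le_pow_left₀ hp0 hp12 D
    refine le_trans h1 ?_
    rw [one_div_pow]
    apply one_div_le_one_div_of_le (by positivity)
    exact_mod_cast hD
  have hpD2 : P ≤ 1 / 2 := by
    refine le_trans hpD ?_
    apply one_div_le_one_div_of_le (by norm_num)
    linarith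
  have hpD0 : 0 ≤ P := by
    rw [hP]
    positivity
  rw [hmm]
  refine ⟨by nlinarith, by nlinarith, ?_⟩
  rw [mul_pow]
  have h2 : 1 / 2 ≤ (1 - P) ^ t := by
    have h3 := one_add_mul_le_pow (a := -P) (by linarith) t
    have h4 : (t : ℝ) * P ≤ 1 / 2 := by
      calc (t : ℝ) * P ≤ t * (1 / (2 * (t : ℝ))) :=
            mul_le_mul_of_nonneg_left hpD (by positivity)
        _ = 1 / 2 := by
            have : (t : ℝ) ≠ 0 := by linarith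
            field_simp
    have h5 : 1 + (t : ℝ) * -P ≤ (1 - P) ^ t := by
      simpa [sub_eq_add_neg] using h3
    nlinarith
  have h6 : 1 / (4 * Γ) = 1 / (2 * Γ) * (1 / 2) := by
    field_simp
    norm_num
  rw [h6]
  exact mul_le_mul hθt h2 (by norm_num) (by positivity)

/-- The geometric sums. -/
theorem geom_bounds {m : ℝ} (hm0 : 0 < m) (hm1 : m < 1) (t : ℕ) :
    ∑ i ∈ range t, m ^ i ≤ 1 / (1 - m) ∧ ∑ i ∈ range t, m⁻¹ ^ i ≤ m⁻¹ ^ t / (1 - m) := by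
  have h1m : 0 < 1 - m := by linarith
  constructor
  · rw [le_div_iff₀ h1m, mul_comm, mul_neg_geom_sum]
    have : 0 < m ^ t := pow_pos hm0 t
    linarith
  · rw [le_div_iff₀ h1m]
    have hx : m⁻¹ - 1 = (1 - m) / m := by
      field_simp
    have h2 := geom_sum_mul m⁻¹ t
    have hxt : 0 < m⁻¹ ^ t := by positivity
    have h3 : (1 - m) ≤ m⁻¹ - 1 := by
      rw [hx, le_div_iff₀ hm0]
      nlinarith
    have h4 : 0 ≤ ∑ i ∈ range t, m⁻¹ ^ i := Finset.sum_nonneg fun _ _ => by positivity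
    have h5 := mul_le_mul_of_nonneg_left h3 h4
    linarith

variable {K : Type*} [Field K] [Fintype K]

/-- The real parameters. -/
theorem exists_base {n k t t' s e e' : ℕ} (hk : 1 ≤ k) (hn3 : ((t : ℝ) + 2) * k ≤ n)
    (hn4 : (n : ℝ) ≤ 2 * ((t : ℝ) + 2) * k) (ht : t = t' + s) (ht' : t' = e * s) (he : e = 2 * e')
    (he0 : 0 < e') (hs : 0 < s) (h1 : 12 * (t + 2) ≤ 2 ^ e) (h2 : 2 ^ e' ≤ 6 * (t + 2)) :
    ∃ θ : ℝ, θ ^ t' = 1 / (6 * n / k) ∧ 0 < θ ∧ θ < 1 ∧ 1 / 2 ≤ θ ∧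
      1 / (2 * (6 * n / k)) ≤ θ ^ t ∧ 1 / (4 * (s : ℝ)) ≤ 1 - θ := by
  obtain ⟨hΓ1, hΓ2⟩ := gamma_facts hk hn3 hn4
  obtain ⟨Γ, hΓ⟩ : ∃ Γ : ℝ, Γ = 6 * n / k := ⟨_, rfl⟩
  rw [← hΓ] at hΓ1 hΓ2 ⊢
  have h0t : (0 : ℝ) ≤ t := by positivity
  have hΓpos : 0 < Γ := by linarith
  have hΓgt : 1 < Γ := by linarith
  have h1R : 12 * ((t : ℝ) + 2) ≤ 2 ^ e := by exact_mod_cast h1
  have h2R : (2 : ℝ) ^ e' ≤ 6 * ((t : ℝ) + 2) := by exact_mod_cast h2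
  have hΓe : Γ ≤ 2 ^ e := le_trans hΓ2 h1R
  have he'Γ : (2 : ℝ) ^ e' ≤ Γ := le_trans h2R hΓ1
  have hle : e ≤ t' := by
    rw [ht']
    exact Nat.le_mul_of_pos_right _ hs
  have hΓt' : Γ ≤ 2 ^ t' := le_trans hΓe (pow_le_pow_right₀ (by norm_num) hle)
  have ht'0 : t' ≠ 0 := by
    rw [ht']
    have : 0 < e := by omega
    positivity
  obtain ⟨θ, hθt', hθ0, hθ1, hθhalf⟩ := exists_theta ht'0 hΓgt hΓt'
  obtain ⟨h3, h4⟩ := theta_bounds (Γ := Γ) (θ := θ) he he0 hs (by rw [← ht']; exact hθt') hθ0 hθ1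
    hΓe he'Γ
  refine ⟨θ, hθt', hθ0, hθ1, hθhalf, ?_, h4⟩
  rw [ht, pow_add, hθt']
  have h5 : 1 / (2 * Γ) = 1 / Γ * (1 / 2) := by
    field_simp
  rw [h5]
  exact mul_le_mul_of_nonneg_left h3 (by positivity)

open scoped Classical in
/-- The graph. -/
theorem exists_graph {q n k t s e w : ℕ} (hq2 : 2 ≤ q) (ht1 : 1 ≤ t) (hs : 0 < s) (he : 0 < e)
    (hw : w = (1 + 512 * s) * 192 * (t + 2) * s) (h2t : 2 * t ≤ 2 ^ e) {θ : ℝ}
    (hθ0 : 0 < θ) (hθ1 : θ < 1) (hθhalf : 1 / 2 ≤ θ) (hk : 0 < k)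
    (hn4 : (n : ℝ) ≤ 2 * ((t : ℝ) + 2) * k) (hn3 : ((t : ℝ) + 2) * k ≤ n)
    (hθt : 1 / (2 * (6 * n / k)) ≤ θ ^ t) (hθs : 1 / (4 * (s : ℝ)) ≤ 1 - θ) :
    ∃ f : Fin t → F1 w e, 1 / 3 ≤
      ∑ ω : Fin t → VV w e → Fin e → Fin q, pw (pw (pw (nuθ q θ))) ω *
        (if ∃ a, ∃ π, ValidPath t (hd f) ω a π then 1 else 0) := by
  have hq0 : 0 < q := by omega
  have hk' : 1 ≤ k := hk
  obtain ⟨hΓ1, hΓ2⟩ := gamma_facts hk' hn3 hn4
  obtain ⟨Γ, hΓ⟩ : ∃ Γ : ℝ, Γ = 6 * n / k := ⟨_, rfl⟩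
  rw [← hΓ] at hΓ1 hΓ2 hθt
  have h0t : (0 : ℝ) ≤ t := by positivity
  have hΓpos : 0 < Γ := by linarith
  obtain ⟨hm14, hmθ, hmt⟩ := measure_facts2 (q := q) (D := e) hq2 ht1 h2t hΓpos hθt hθ0 hθ1 hθhalf
  have hν := nuθ_sum (q := q) hq0 hθ0
  have hν0 := nuθ_nonneg (q := q) hq0 hθ0
  have hp12 : pp (nuθ q θ) ≤ 1 / 2 := pp_le hq2 hθ0 hθ1.le
  obtain ⟨m, hm⟩ : ∃ m, m = mm (nuθ q θ) e := ⟨_, rfl⟩
  rw [← hm] at hm14 hmθ hmt
  have hm0 : 0 < m := by linarith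
  have hm1 : m < 1 := by linarith
  obtain ⟨hG, hH⟩ := geom_bounds hm0 hm1 t
  have hsR : (0 : ℝ) < s := by exact_mod_cast hs
  have h1m : 1 / (4 * (s : ℝ)) ≤ 1 - m := by linarith
  have h1m0 : 0 < 1 - m := by linarith
  have hinv : 1 / (1 - m) ≤ 4 * s := by
    rw [div_le_iff₀ h1m0]
    have h2 : 4 * (s : ℝ) * (1 / (4 * (s : ℝ))) = 1 := by
      field_simp
    calc (1 : ℝ) = 4 * (s : ℝ) * (1 / (4 * (s : ℝ))) := h2.symm
      _ ≤ 4 * (s : ℝ) * (1 - m) := mul_le_mul_of_nonneg_left h1m (by positivity)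
  have hmtpos : 0 < m ^ t := pow_pos hm0 t
  have hinvt : m⁻¹ ^ t ≤ 4 * Γ := by
    rw [inv_pow, inv_le_comm₀ hmtpos (by positivity)]
    rw [one_div] at hmt
    exact hmt
  have hwR : (w : ℝ) = (1 + 512 * (s : ℝ)) * 192 * ((t : ℝ) + 2) * s := by
    rw [hw]
    push_cast
    ring
  have hHb : ∑ i ∈ range t, m⁻¹ ^ i ≤ 192 * ((t : ℝ) + 2) * s := by
    refine le_trans hH ?_
    rw [div_eq_mul_one_div]
    calc m⁻¹ ^ t * (1 / (1 - m)) ≤ (4 * Γ) * (4 * (s : ℝ)) :=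
          mul_le_mul hinvt hinv (by positivity) (by positivity)
      _ ≤ (4 * (12 * ((t : ℝ) + 2))) * (4 * (s : ℝ)) := by
          apply mul_le_mul_of_nonneg_right _ (by positivity)
          linarith
      _ = _ := by ring
  have hwpos : 0 < w := by
    rw [hw]
    positivity
  have hlam : (1 + 128 * (4 * (s : ℝ))) * ∑ i ∈ range t, m⁻¹ ^ i ≤ w := by
    rw [hwR]
    calc (1 + 128 * (4 * (s : ℝ))) * ∑ i ∈ range t, m⁻¹ ^ i
        ≤ (1 + 128 * (4 * (s : ℝ))) * (192 * ((t : ℝ) + 2) * s) :=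
          mul_le_mul_of_nonneg_left hHb (by positivity)
      _ = _ := by ring
  have hlarge : 1 + 128 * (4 * (s : ℝ)) ≤ w * m ^ t := by
    have h3 : 1 / (48 * ((t : ℝ) + 2)) ≤ m ^ t := by
      refine le_trans ?_ hmt
      apply one_div_le_one_div_of_le (by positivity)
      linarith
    have h4 : (w : ℝ) * (1 / (48 * ((t : ℝ) + 2))) = (1 + 512 * (s : ℝ)) * (4 * s) := by
      rw [hwR]
      field_simp
      norm_num
    have h5 : (w : ℝ) * (1 / (48 * ((t : ℝ) + 2))) ≤ w * m ^ t :=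
      mul_le_mul_of_nonneg_left h3 (by positivity)
    have hs1 : (1 : ℝ) ≤ s := by exact_mod_cast hs
    rw [h4] at h5
    nlinarith
  rw [hm] at hG hlam hlarge hinv
  exact exists_dag_all hq2 hwpos he (nuθ q θ) hν hν0 hp12 (by rw [← hm]; exact hm14) t (4 * (s : ℝ))
    (le_trans hG hinv) hlam hlarge

/-- The number of copies. -/
theorem copies_bound {n k a : ℕ} (hkn : k ≤ n) (ha : a = Nat.log 2 n + 2) (hn : n ≠ 0) :
    (k : ℝ) * (1 - 1 / 3 : ℝ) ^ (2 * a) ≤ 1 / 2 := by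
  have h1 : n < 2 ^ (Nat.log 2 n + 1) := Nat.lt_pow_succ_log_self (by norm_num) n
  have h2 : 2 * n ≤ 2 ^ a := by
    rw [ha, pow_succ]
    omega
  have h2R : 2 * (n : ℝ) ≤ 2 ^ a := by exact_mod_cast h2
  have h3 : (1 - 1 / 3 : ℝ) ^ (2 * a) ≤ (1 / 2) ^ a := by
    rw [pow_mul]
    exact pow_le_pow_left₀ (by norm_num) (by norm_num) a
  have h4 : (k : ℝ) ≤ n := by exact_mod_cast hkn
  calc (k : ℝ) * (1 - 1 / 3 : ℝ) ^ (2 * a) ≤ n * (1 / 2) ^ a :=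
        mul_le_mul h4 h3 (by positivity) (by positivity)
    _ ≤ 1 / 2 := by
        rw [one_div_pow, mul_one_div, div_le_iff₀ (by positivity)]
        linarith

/-- The number of vertices needed. -/
theorem width_bound2 {Y Q l a e t w : ℕ} (hY : 5 ≤ Y) (hQ : 12 ≤ Q) (hl : l + 5 ≤ Y) (ha : a ≤ Y)
    (he : e = 2 * (l + 4)) (ht : t = (e + 1) * (2 * Q))
    (hw : w = (1 + 512 * (2 * Q)) * 192 * (t + 2) * (2 * Q)) :
    1 + (2 * a) * (w * e) ≤ (200 * (Y * Q)) ^ 3 := by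
  have he1 : e ≤ 2 * Y := by omega
  have ht1 : t ≤ 4 * (Y * Q) := by
    rw [ht]
    calc (e + 1) * (2 * Q) ≤ (2 * Y) * (2 * Q) := Nat.mul_le_mul_right _ (by omega)
      _ = 4 * (Y * Q) := by ring
  have hYQ : 2 ≤ Y * Q := by nlinarith
  have ht2 : t + 2 ≤ 5 * (Y * Q) := by omega
  have h1 : 1 + 512 * (2 * Q) ≤ 1026 * Q := by omega
  have hw1 : w ≤ (1026 * Q) * 192 * (5 * (Y * Q)) * (2 * Q) := by
    rw [hw]
    gcongr
  have h2 : (2 * a) * (w * e) ≤ (2 * Y) * (((1026 * Q) * 192 * (5 * (Y * Q)) * (2 * Q)) * (2 * Y)) := by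
    gcongr
  have h3 : (2 * Y) * (((1026 * Q) * 192 * (5 * (Y * Q)) * (2 * Q)) * (2 * Y)) =
      7879680 * (Y * Q) ^ 3 := by
    ring
  have h4 : (200 * (Y * Q)) ^ 3 = 8000000 * (Y * Q) ^ 3 := by ring
  have h5 : 1 ≤ (Y * Q) ^ 3 := Nat.one_le_pow _ _ (by omega)
  rw [h4]
  omega

/-- Arithmetic of the exponents. -/
theorem exponent_facts2 {q t t' s τ k R τ₁ : ℕ} (ht : t = t' + s) (hs : s = 2 * (q ^ 2 * (τ + 3)))
    (hkt : t ≤ k) (hR : R = 2 * q * (τ + 2)) (hτ₁ : τ₁ = (q - 1) * (2 * q + R)) (hq : 0 < q) :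
    (k * t - τ₁ * k) + τ₁ * k = k * t ∧ k * t' ≤ k * t - τ₁ * k ∧ τ + 3 ≤ k := by
  have hτ1 : τ₁ ≤ s := by
    rw [hτ₁, hR, hs]
    have h1 : q - 1 ≤ q := Nat.sub_le _ _
    calc (q - 1) * (2 * q + 2 * q * (τ + 2)) ≤ q * (2 * q + 2 * q * (τ + 2)) :=
          Nat.mul_le_mul_right _ h1
      _ = 2 * (q ^ 2 * (τ + 3)) := by ring
  have h2 : τ₁ * k ≤ s * k := Nat.mul_le_mul_right _ hτ1
  have h3 : k * t = k * t' + s * k := by
    rw [ht]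
    ring
  have h4 : τ + 3 ≤ 2 * (q ^ 2 * (τ + 3)) := by
    have : 1 ≤ q ^ 2 := Nat.one_le_pow _ _ hq
    nlinarith
  refine ⟨?_, by omega, by omega⟩
  apply Nat.sub_add_cancel
  omega

open scoped Classical in
/-- The final contradiction, all parameters being in place. -/
theorem final_contra {q n k t t' s τ g w D p : ℕ} [NeZero n] (hq : Fintype.card K = q)
    (hlen : k * (t + 2) + p = n) (hwidth : 1 + g * (w * D) ≤ n) (hg : 0 < g) (hD : 0 < D)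
    (ht : t = t' + s) (hs : s = 2 * (q ^ 2 * (τ + 3))) (hkt : t ≤ k) (hk : 1 ≤ k) (hkn : k ≤ n)
    (C : Circuit K (Fin n × Fin n × Fin n)) (hC : C.IsSynHomog) (hout : C.output = imm K n n)
    (hsize : C.size < 2 ^ τ) {θ : ℝ} (hθt' : θ ^ t' = 1 / (6 * n / k))
    (hθ0 : 0 < θ) (hθ1 : θ < 1) (f : Fin t → F1 w D) (a₀ : VV w D)
    (hψ : 1 / 3 ≤ ∑ ω : Fin t → VV w D → Fin D → Fin q, pw (pw (pw (nuθ q θ))) ω *
        (if ∃ a, ∃ π, ValidPath t (hd f) ω a π then 1 else 0))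
    (hkb : (k : ℝ) * (1 - 1 / 3 : ℝ) ^ g ≤ 1 / 2) : False := by
  have hq2 : 2 ≤ q := hq ▸ Fintype.one_lt_card
  have hq0 : 0 < q := by omega
  obtain ⟨R, hR⟩ : ∃ R, R = 2 * q * (τ + 2) := ⟨_, rfl⟩
  obtain ⟨τ₁, hτ₁⟩ : ∃ τ₁, τ₁ = (q - 1) * (2 * q + R) := ⟨_, rfl⟩
  obtain ⟨hκ1, hκ2, hτk⟩ := exponent_facts2 (k := k) ht hs hkt hR hτ₁ hq0
  have hbasic := basic_ineq hq p R (k * t - τ₁ * k) hlen hwidth hg hD
    (by rw [← hτ₁]; exact hκ1) C hC hout hθ0 hθ1 f a₀ hψ (by norm_num)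
  have hnL : C.nL ≤ 2 ^ τ := by
    unfold Circuit.size at hsize
    omega
  have hnT : C.nT ≤ 2 ^ τ := by
    unfold Circuit.size at hsize
    omega
  have h1 := term_one (nL := C.nL) hq0 hR hnL
  have h2 := term_two (nT := C.nT) hk hkn rfl hθt' hθ0 hθ1 hκ2 hτk hnT
  linarith

/-- The final lower bound. -/
theorem imm_lower_bound (n τ : ℕ) [NeZero n]
    (h : (200 * (Nat.log 2 n + 5) * (Fintype.card K) ^ 2 * (τ + 3)) ^ 3 ≤ n)
    (C : Circuit K (Fin n × Fin n × Fin n)) (hC : C.IsSynHomog) (hout : C.output = imm K n n) :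
    2 ^ τ ≤ C.size := by
  classical
  by_contra hsize
  push Not at hsize
  obtain ⟨q, hq⟩ : ∃ q, Fintype.card K = q := ⟨_, rfl⟩
  rw [hq] at h
  have hq2 : 2 ≤ q := hq ▸ Fintype.one_lt_card
  have hq0 : 0 < q := by omega
  obtain ⟨Y, hY⟩ : ∃ Y, Y = Nat.log 2 n + 5 := ⟨_, rfl⟩
  obtain ⟨Q, hQ⟩ : ∃ Q, Q = q ^ 2 * (τ + 3) := ⟨_, rfl⟩
  have hX : (200 * (Y * Q)) ^ 3 ≤ n := by
    refine le_of_eq_of_le ?_ h
    rw [hY, hQ]
    ring
  have hY5 : 5 ≤ Y := by omega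
  have hQ12 : 12 ≤ Q := by
    rw [hQ]
    have h1 : 4 ≤ q ^ 2 := by nlinarith
    exact Nat.mul_le_mul h1 (show 3 ≤ τ + 3 by omega)
  have hXbig : 200 * (Y * Q) ≤ (200 * (Y * Q)) ^ 3 :=
    Nat.le_self_pow (by norm_num) _
  have hnn : n ≠ 0 := NeZero.ne n
  have hYQ : 60 ≤ Y * Q := Nat.mul_le_mul hY5 hQ12
  -- the scale
  obtain ⟨s, hs⟩ : ∃ s, s = 2 * Q := ⟨_, rfl⟩
  have hs24 : 24 ≤ s := by omega
  have hsn : s ≤ n := by
    have h1 : 1 * Q ≤ Y * Q := Nat.mul_le_mul_right _ (by omega)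
    omega
  obtain ⟨l, hl⟩ : ∃ l, l = Nat.log 2 s := ⟨_, rfl⟩
  have hlY : l + 5 ≤ Y := by
    rw [hY, hl]
    have := Nat.log_mono_right (b := 2) hsn
    omega
  obtain ⟨e', he'⟩ : ∃ e', e' = l + 4 := ⟨_, rfl⟩
  obtain ⟨e, he⟩ : ∃ e, e = 2 * e' := ⟨_, rfl⟩
  obtain ⟨t', ht'⟩ : ∃ t', t' = e * s := ⟨_, rfl⟩
  obtain ⟨t, ht⟩ : ∃ t, t = t' + s := ⟨_, rfl⟩
  have ht2 : t = (e + 1) * s := by
    rw [ht, ht']
    ring
  obtain ⟨a, ha⟩ : ∃ a, a = Nat.log 2 n + 2 := ⟨_, rfl⟩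
  obtain ⟨w, hw⟩ : ∃ w, w = (1 + 512 * s) * 192 * (t + 2) * s := ⟨_, rfl⟩
  have hepos : 0 < e := by omega
  have hwidth : 1 + (2 * a) * (w * e) ≤ n := by
    refine le_trans ?_ hX
    refine width_bound2 (t := t) hY5 hQ12 hlY (by omega) (by omega) ?_ ?_
    · rw [ht2, hs]
    · rw [hw, hs]
  have ht1 : 1 ≤ t := by
    rw [ht]
    omega
  obtain ⟨hlog1, hlog2⟩ := log_scale_facts hs24 hl he' he ht2
  have htYQ : t ≤ 4 * (Y * Q) := by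
    rw [ht2, hs]
    have h1 : e + 1 ≤ 2 * Y := by omega
    calc (e + 1) * (2 * Q) ≤ (2 * Y) * (2 * Q) := Nat.mul_le_mul_right _ h1
      _ = 4 * (Y * Q) := by ring
  have hnt : t * (t + 2) ≤ n := by
    refine le_trans ?_ hX
    have h1 : t * (t + 2) ≤ (4 * (Y * Q)) * (5 * (Y * Q)) :=
      Nat.mul_le_mul htYQ (by omega)
    have h2 : (200 * (Y * Q)) ^ 3 = 8000000 * ((Y * Q) * (Y * Q)) * (Y * Q) := by ring
    have h3 : (4 * (Y * Q)) * (5 * (Y * Q)) = 20 * ((Y * Q) * (Y * Q)) := by ring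
    rw [h2]
    rw [h3] at h1
    have h4 : 1 ≤ Y * Q := by omega
    have h5 : 8000000 * ((Y * Q) * (Y * Q)) * 1 ≤ 8000000 * ((Y * Q) * (Y * Q)) * (Y * Q) :=
      Nat.mul_le_mul_left _ h4
    omega
  obtain ⟨k, p, hlen, hp⟩ : ∃ k p, k * (t + 2) + p = n ∧ p < t + 2 :=
    ⟨n / (t + 2), n % (t + 2), by rw [Nat.mul_comm]; exact Nat.div_add_mod n (t + 2),
      Nat.mod_lt _ (by omega)⟩
  have hkt : t ≤ k := by
    by_contra hlt
    push Not at hlt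
    have h1 : (k + 1) * (t + 2) ≤ t * (t + 2) := Nat.mul_le_mul_right _ hlt
    have h2 : (k + 1) * (t + 2) = k * (t + 2) + (t + 2) := by ring
    omega
  have hk1 : 1 ≤ k := by omega
  have hkn : k ≤ n := by
    have h1 : 1 * k ≤ (t + 2) * k := Nat.mul_le_mul_right _ (by omega)
    have h2 : (t + 2) * k = k * (t + 2) := Nat.mul_comm _ _
    omega
  obtain ⟨hn3, hn4⟩ := scale_facts hlen hp hk1
  obtain ⟨θ, hθt', hθ0, hθ1, hθhalf, hθt, hθs⟩ := exists_base hk1 hn3 hn4 ht ht' he (by omega)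
    (by omega) hlog1 hlog2
  have h2t : 2 * t ≤ 2 ^ e := by omega
  obtain ⟨f, hf⟩ := exists_graph (q := q) hq2 ht1 (by omega) hepos hw h2t hθ0 hθ1 hθhalf hk1 hn4 hn3
    hθt hθs
  have hwpos : 0 < w := by
    rw [hw]
    have : 0 < s := by omega
    positivity
  have a₀ : VV w e := (⟨0, hwpos⟩, ⟨0, hepos⟩)
  exact final_contra hq hlen hwidth (by omega) hepos ht (by rw [hs, hQ]) hkt hk1 hkn C hC hout hsize
    hθt' hθ0 hθ1 f a₀ hf (copies_bound hkn ha hnn)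

end Vale.Agent.Lib.P346.S
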