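import Mathlib
import Vale.Agent.Lib.P346.Params2
import Vale.Agent.Lib.P346.Assemble3

/-!
Choice of the parameters with the factorization of the top product gates, and the final bound.
-/

namespace Vale.Agent.Lib.P346.S

open Finset

theorem Bsum_le_pow (a c : ℕ) : Bsum a c ≤ (a + 1) ^ c := by
  induction a generalizing c with
  | zero => simp [Bsum_zero_left]
  | succ a ih =>
    cases c with
    | zero => simp [Bsum]
    | succ c =>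
      rw [Bsum_succ_succ]
      calc Bsum a (c + 1) + Bsum a c ≤ (a + 1) ^ (c + 1) + (a + 1) ^ c :=
            Nat.add_le_add (ih _) (ih _)
        _ = (a + 1) ^ c * (a + 2) := by ring
        _ ≤ (a + 2) ^ c * (a + 2) := by
            apply Nat.mul_le_mul_right
            exact Nat.pow_le_pow_left (by omega) c
        _ = (a + 1 + 1) ^ (c + 1) := by ring

/-- The term from the union bound over the selections. -/
theorem term_bsum {q n k l τ nT Lp : ℕ} (hq2 : 2 ≤ q) (hLp : Lp = Nat.log 2 n + 1)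
    (hl : l = τ + 4 + k * Lp) (hnT : nT ≤ 2 ^ τ) :
    (nT : ℝ) * Bsum n k / (q : ℝ) ^ l ≤ 1 / 16 := by
  have h1 : n + 1 ≤ 2 ^ Lp := by
    rw [hLp]
    exact Nat.lt_pow_succ_log_self (by norm_num) n
  have h2 : Bsum n k ≤ 2 ^ (k * Lp) := by
    calc Bsum n k ≤ (n + 1) ^ k := Bsum_le_pow n k
      _ ≤ (2 ^ Lp) ^ k := Nat.pow_le_pow_left h1 k
      _ = 2 ^ (k * Lp) := by rw [← pow_mul, Nat.mul_comm]
  have h3 : nT * Bsum n k ≤ 2 ^ τ * 2 ^ (k * Lp) := Nat.mul_le_mul hnT h2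
  have h3R : (nT : ℝ) * Bsum n k ≤ 2 ^ τ * 2 ^ (k * Lp) := by exact_mod_cast h3
  have hq' : (2 : ℝ) ≤ q := by exact_mod_cast hq2
  have h4 : (2 : ℝ) ^ l ≤ (q : ℝ) ^ l := pow_le_pow_left₀ (by norm_num) hq' l
  have h5 : (2 : ℝ) ^ l = 2 ^ τ * 2 ^ (k * Lp) * 16 := by
    rw [hl, pow_add, pow_add]
    norm_num
    ring
  have hqpos : (0 : ℝ) < (q : ℝ) ^ l := lt_of_lt_of_le (by positivity) h4
  rw [div_le_iff₀ hqpos]
  have h6 : (0 : ℝ) < 2 ^ τ * 2 ^ (k * Lp) := by positivity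
  nlinarith

/-- The base `θ = 1 - 1 / t`. -/
theorem theta_facts {t₂ t : ℕ} (h : 1 ≤ t₂) (ht : t = 2 * t₂) {θ : ℝ} (hθ : θ = 1 - 1 / (t : ℝ)) :
    0 < θ ∧ θ < 1 ∧ 1 / 2 ≤ θ ∧ 1 / 4 ≤ θ ^ t ∧ θ ^ t ≤ 1 / 2 := by
  have ht₂ : (1 : ℝ) ≤ t₂ := by exact_mod_cast h
  have htR : (t : ℝ) = 2 * t₂ := by
    rw [ht]
    push_cast
    ring
  have htpos : (0 : ℝ) < t := by linarith
  have h1t : 1 / (t : ℝ) ≤ 1 / 2 := by
    apply one_div_le_one_div_of_le (by norm_num)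
    linarith
  have h1t0 : 0 < 1 / (t : ℝ) := by positivity
  have h0 : 0 < θ := by linarith
  have h1 : θ < 1 := by linarith
  have h2 : 1 / 2 ≤ θ := by linarith
  refine ⟨h0, h1, h2, ?_, ?_⟩
  · have h3 := one_add_mul_le_pow (a := -(1 / (t : ℝ))) (by linarith) t₂
    have h4 : (t₂ : ℝ) * -(1 / (t : ℝ)) = -(1 / 2) := by
      rw [htR]
      field_simp
    rw [h4, ← sub_eq_add_neg, ← sub_eq_add_neg, ← hθ] at h3
    rw [ht, two_mul, pow_add]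
    nlinarith
  · have h3 : θ ≤ Real.exp (-(1 / (t : ℝ))) := by
      have := Real.add_one_le_exp (-(1 / (t : ℝ)))
      rw [hθ]
      linarith
    have h4 : θ ^ t ≤ Real.exp (-(1 / (t : ℝ))) ^ t := pow_le_pow_left₀ h0.le h3 t
    rw [← Real.exp_nat_mul] at h4
    have h5 : (t : ℝ) * -(1 / (t : ℝ)) = -1 := by
      field_simp
    rw [h5] at h4
    have h6 : Real.exp (-1) ≤ 1 / 2 := by
      rw [Real.exp_neg, one_div]
      apply inv_anti₀ (by norm_num)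
      have := Real.exp_one_gt_d9
      linarith
    linarith

/-- The main term. -/
theorem term_theta {t a κ' τ nT : ℕ} (hκ : a * t ≤ κ') (ha : a = τ + 3) (hnT : nT ≤ 2 ^ τ) {θ : ℝ}
    (h0 : 0 < θ) (h1 : θ < 1) (ht : θ ^ t ≤ 1 / 2) : (nT : ℝ) * θ ^ κ' ≤ 1 / 8 := by
  have h2 : θ ^ κ' ≤ θ ^ (a * t) := pow_le_pow_of_le_one h0.le h1.le hκ
  have h3 : θ ^ (a * t) = (θ ^ t) ^ a := by
    rw [← pow_mul, Nat.mul_comm]
  have h4 : (θ ^ t) ^ a ≤ (1 / 2 : ℝ) ^ a := pow_le_pow_left₀ (by positivity) ht a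
  have hnTR : (nT : ℝ) ≤ 2 ^ τ := by exact_mod_cast hnT
  have h5 : (1 / 2 : ℝ) ^ a = (1 / 2) ^ τ * (1 / 8) := by
    rw [ha, pow_add]
    norm_num
  have h6 : (2 : ℝ) ^ τ * (1 / 2) ^ τ = 1 := by
    rw [← mul_pow]
    norm_num
  have h7 : θ ^ κ' ≤ (1 / 2) ^ τ * (1 / 8) := by
    rw [← h5]
    linarith
  calc (nT : ℝ) * θ ^ κ' ≤ 2 ^ τ * ((1 / 2) ^ τ * (1 / 8)) :=
        mul_le_mul hnTR h7 (by positivity) (by positivity)
    _ = 1 / 8 := by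
        rw [← mul_assoc, h6, one_mul]

open scoped Classical in
/-- The graph. -/
theorem exists_graph3 {q t D w : ℕ} (hq2 : 2 ≤ q) (ht1 : 1 ≤ t) (hD : 0 < D) (h2t : 2 * t ≤ 2 ^ D)
    (hw : w = (1 + 128 * t) * (8 * t)) {θ : ℝ} (hθ0 : 0 < θ) (hθ1 : θ < 1) (hθhalf : 1 / 2 ≤ θ)
    (hθt : 1 / 4 ≤ θ ^ t) :
    ∃ f : Fin t → F1 w D, 1 / 3 ≤
      ∑ ω : Fin t → VV w D → Fin D → Fin q, pw (pw (pw (nuθ q θ))) ω *
        (if ∃ a, ∃ π, ValidPath t (hd f) ω a π then 1 else 0) := by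
  have hq0 : 0 < q := by omega
  obtain ⟨hm14, hmθ, hmt⟩ := measure_facts2 (q := q) (D := D) (Γ := 2) hq2 ht1 h2t (by norm_num)
    (by norm_num; norm_num at hθt; linarith) hθ0 hθ1 hθhalf
  have hν := nuθ_sum (q := q) hq0 hθ0
  have hν0 := nuθ_nonneg (q := q) hq0 hθ0
  have hp12 : pp (nuθ q θ) ≤ 1 / 2 := pp_le hq2 hθ0 hθ1.le
  obtain ⟨m, hm⟩ : ∃ m, m = mm (nuθ q θ) D := ⟨_, rfl⟩
  rw [← hm] at hm14 hmθ hmt
  have hm0 : 0 < m := by linarith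
  have hm1 : m < 1 := by linarith
  have htR : (1 : ℝ) ≤ t := by exact_mod_cast ht1
  have hG : ∑ i ∈ range t, m ^ i ≤ t := by
    calc ∑ i ∈ range t, m ^ i ≤ ∑ _i ∈ range t, (1 : ℝ) :=
          Finset.sum_le_sum fun i _ => pow_le_one₀ hm0.le hm1.le
      _ = t := by simp
  have hinv1 : 1 ≤ m⁻¹ := (one_le_inv₀ hm0).2 hm1.le
  have hmtpos : 0 < m ^ t := pow_pos hm0 t
  have hinvt : m⁻¹ ^ t ≤ 8 := by
    rw [inv_pow, inv_le_comm₀ hmtpos (by norm_num)]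
    norm_num at hmt ⊢
    linarith
  have hH : ∑ i ∈ range t, m⁻¹ ^ i ≤ 8 * t := by
    calc ∑ i ∈ range t, m⁻¹ ^ i ≤ ∑ _i ∈ range t, (8 : ℝ) := by
          apply Finset.sum_le_sum
          intro i hi
          refine le_trans ?_ hinvt
          exact pow_le_pow_right₀ hinv1 (Finset.mem_range.1 hi).le
      _ = 8 * t := by
          simp
          ring
  have hwR : (w : ℝ) = (1 + 128 * (t : ℝ)) * (8 * t) := by
    rw [hw]
    push_cast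
    ring
  have hwpos : 0 < w := by
    rw [hw]
    positivity
  have hlam : (1 + 128 * (t : ℝ)) * ∑ i ∈ range t, m⁻¹ ^ i ≤ w := by
    rw [hwR]
    exact mul_le_mul_of_nonneg_left hH (by positivity)
  have hlarge : 1 + 128 * (t : ℝ) ≤ w * m ^ t := by
    have h1 : (w : ℝ) * (1 / (4 * 2)) ≤ w * m ^ t :=
      mul_le_mul_of_nonneg_left hmt (by positivity)
    have h2 : (w : ℝ) * (1 / (4 * 2)) = (1 + 128 * (t : ℝ)) * t := by
      rw [hwR]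
      ring
    rw [h2] at h1
    nlinarith
  rw [hm] at hG hlam hlarge
  exact exists_dag_all hq2 hwpos hD (nuθ q θ) hν hν0 hp12 (by rw [← hm]; exact hm14) t (t : ℝ)
    hG hlam hlarge

/-- The degree budget. -/
theorem budget {q a τ R k Lp Y l t : ℕ} (hq : 1 ≤ q) (ha : a = τ + 3) (hR : R = 2 * q * (τ + 2))
    (hk : k = 2 * a) (hY : Y = Lp + 4) (hl : l = τ + 4 + k * Lp) (ht : t = 4 * (q ^ 4 * a * Y)) :
    (q - 1) * (2 * q + R) * k + (l + k) * ((q - 1) * R * (q - 1) * (q - 1)) ≤ a * t := by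
  have h1 : q - 1 ≤ q := Nat.sub_le _ _
  have h2 : (q - 1) * (2 * q + R) ≤ 2 * q ^ 2 * a := by
    calc (q - 1) * (2 * q + R) ≤ q * (2 * q + R) := Nat.mul_le_mul_right _ h1
      _ = 2 * q ^ 2 * a := by
          rw [hR, ha]
          ring
  have h3 : (q - 1) * R * (q - 1) * (q - 1) ≤ 2 * q ^ 4 * a := by
    calc (q - 1) * R * (q - 1) * (q - 1) ≤ q * R * q * q := by gcongr
      _ = 2 * q ^ 4 * (τ + 2) := by
          rw [hR]
          ring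
      _ ≤ 2 * q ^ 4 * a := by
          apply Nat.mul_le_mul_left
          omega
  have h4 : l + k ≤ 2 * a * (Lp + 2) := by
    rw [hl, hk]
    have : 2 * a * (Lp + 2) = 2 * a * Lp + 4 * a := by ring
    omega
  have h5 : q ^ 2 ≤ q ^ 4 := Nat.pow_le_pow_right hq (by norm_num)
  calc (q - 1) * (2 * q + R) * k + (l + k) * ((q - 1) * R * (q - 1) * (q - 1))
      ≤ (2 * q ^ 2 * a) * k + (2 * a * (Lp + 2)) * (2 * q ^ 4 * a) :=
        Nat.add_le_add (Nat.mul_le_mul_right _ h2) (Nat.mul_le_mul h4 h3)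
    _ ≤ (2 * q ^ 4 * a) * k + (2 * a * (Lp + 2)) * (2 * q ^ 4 * a) := by
        gcongr
    _ = 4 * (q ^ 4 * a * a) * (Lp + 3) := by
        rw [hk]
        ring
    _ ≤ 4 * (q ^ 4 * a * a) * Y := by
        apply Nat.mul_le_mul_left
        omega
    _ = a * t := by
        rw [ht]
        ring

/-- The number of vertices needed. -/
theorem width_bound3 {Y Z g D t w : ℕ} (hY : 1 ≤ Y) (hZ : 1 ≤ Z) (hg : g ≤ 2 * Y) (hD : D ≤ Y)
    (ht : t = 4 * Z) (hw : w = (1 + 128 * t) * (8 * t)) :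
    1 + g * (w * D) ≤ (200 * (Y * Z)) ^ 2 := by
  have h1 : 1 + 128 * t ≤ 129 * t := by omega
  have hw1 : w ≤ (129 * t) * (8 * t) := by
    rw [hw]
    exact Nat.mul_le_mul_right _ h1
  have h2 : g * (w * D) ≤ (2 * Y) * (((129 * t) * (8 * t)) * Y) :=
    Nat.mul_le_mul hg (Nat.mul_le_mul hw1 hD)
  have h3 : (2 * Y) * (((129 * t) * (8 * t)) * Y) = 33024 * (Y * Z) ^ 2 := by
    rw [ht]
    ring
  have h4 : (200 * (Y * Z)) ^ 2 = 40000 * (Y * Z) ^ 2 := by ring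
  have h5 : 1 ≤ (Y * Z) ^ 2 := Nat.one_le_pow _ _ (Nat.mul_pos hY hZ)
  rw [h4]
  omega

/-- Arithmetic of the parameters. -/
theorem param_arith {n q τ Y a Z t₂ t k B₀ : ℕ} (hq0 : 0 < q) (hY : Y = Nat.log 2 n + 5)
    (ha : a = τ + 3) (hZ : Z = q ^ 4 * a * Y) (hX : (200 * (Y * Z)) ^ 2 ≤ n)
    (ht₂ : t₂ = 2 * Z) (ht : t = 2 * t₂) (hk : k = 2 * a) (hbudget : B₀ ≤ a * t) :
    1 ≤ Z ∧ t = 4 * Z ∧ k * (t + 2) ≤ n ∧ k ≤ n ∧ t ≤ n ∧
      (k * t - B₀) + B₀ = k * t ∧ a * t ≤ k * t - B₀ := by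
  have hq4 : 1 ≤ q ^ 4 := Nat.one_le_pow _ _ hq0
  have ha1 : 1 ≤ a := by omega
  have hqa : a ≤ q ^ 4 * a := Nat.le_mul_of_pos_left _ hq4
  have hY1 : 1 ≤ Y := by omega
  have haZ : a ≤ Z := by
    rw [hZ]
    exact le_trans hqa (Nat.le_mul_of_pos_right _ hY1)
  have hZ1 : 1 ≤ Z := le_trans ha1 haZ
  have hZZ : Z ≤ Y * Z := Nat.le_mul_of_pos_left _ hY1
  have hbig : 40000 * ((Y * Z) * (Y * Z)) ≤ n := by
    refine le_trans (le_of_eq ?_) hX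
    ring
  have ht4 : t = 4 * Z := by omega
  have hkt : k * t = a * t + a * t := by
    rw [hk]
    ring
  have hkn0 : k * (t + 2) ≤ 12 * (Z * Z) := by
    have h1 : k ≤ 2 * Z := by omega
    have h2 : t + 2 ≤ 6 * Z := by omega
    calc k * (t + 2) ≤ (2 * Z) * (6 * Z) := Nat.mul_le_mul h1 h2
      _ = 12 * (Z * Z) := by ring
  have hZZ2 : Z * Z ≤ (Y * Z) * (Y * Z) := Nat.mul_le_mul hZZ hZZ
  have hlenle : k * (t + 2) ≤ n := by omega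
  have hkn : k ≤ n := by
    have h1 : 1 * k ≤ (t + 2) * k := Nat.mul_le_mul_right _ (by omega)
    have h2 : (t + 2) * k = k * (t + 2) := Nat.mul_comm _ _
    omega
  have hZ2 : Z ≤ Z * Z := Nat.le_mul_self Z
  refine ⟨hZ1, ht4, hlenle, hkn, by omega, ?_, by omega⟩
  apply Nat.sub_add_cancel
  omega

variable {K : Type*} [Field K] [Fintype K]

open scoped Classical in
/-- The final contradiction, all parameters being in place. -/
theorem final_contra3 {q n k t τ g w D p R κ' l Lp a : ℕ} [NeZero n] (hq : Fintype.card K = q)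
    (hlen : k * (t + 2) + p = n) (hwidth : 1 + g * (w * D) ≤ n) (hg : 0 < g) (hD : 0 < D)
    (hκ : κ' + ((q - 1) * (2 * q + R) * k + (l + k) * ((q - 1) * R * (q - 1) * (q - 1))) = k * t)
    (hκ2 : a * t ≤ κ') (ha : a = τ + 3) (hR : R = 2 * q * (τ + 2)) (hLp : Lp = Nat.log 2 n + 1)
    (hl : l = τ + 4 + k * Lp)
    (C : Circuit K (Fin n × Fin n × Fin n)) (hC : C.IsSynHomog) (hout : C.output = imm K n n)
    (hsize : C.size < 2 ^ τ) {θ : ℝ} (hθ0 : 0 < θ) (hθ1 : θ < 1) (hθt : θ ^ t ≤ 1 / 2)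
    (f : Fin t → F1 w D) (a₀ : VV w D)
    (hψ : 1 / 3 ≤ ∑ ω : Fin t → VV w D → Fin D → Fin q, pw (pw (pw (nuθ q θ))) ω *
        (if ∃ a, ∃ π, ValidPath t (hd f) ω a π then 1 else 0))
    (hkb : (k : ℝ) * (1 - 1 / 3 : ℝ) ^ g ≤ 1 / 2) : False := by
  have hq2 : 2 ≤ q := hq ▸ Fintype.one_lt_card
  have hq0 : 0 < q := by omega
  have hbasic := basic_ineq3 hq p R κ' l hlen hwidth hg hD hκ C hC hout hθ0 hθ1 f a₀ hψ
    (by norm_num)
  have hnL : C.nL ≤ 2 ^ τ := by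
    unfold Circuit.size at hsize
    omega
  have hnT : C.nT ≤ 2 ^ τ := by
    unfold Circuit.size at hsize
    omega
  have h1 := term_one (nL := C.nL) hq0 hR hnL
  have h2 := term_bsum (q := q) (n := n) (k := k) hq2 hLp hl hnT
  have h3 := term_theta hκ2 ha hnT hθ0 hθ1 hθt
  linarith

/-- The final lower bound. -/
theorem imm_sqrt_bound (n τ : ℕ) [NeZero n]
    (h : (200 * (Nat.log 2 n + 5) ^ 2 * (Fintype.card K) ^ 4 * (τ + 3)) ^ 2 ≤ n)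
    (C : Circuit K (Fin n × Fin n × Fin n)) (hC : C.IsSynHomog) (hout : C.output = imm K n n) :
    2 ^ τ ≤ C.size := by
  classical
  by_contra hsize
  push Not at hsize
  obtain ⟨q, hq⟩ : ∃ q, Fintype.card K = q := ⟨_, rfl⟩
  rw [hq] at h
  have hq2 : 2 ≤ q := hq ▸ Fintype.one_lt_card
  have hq0 : 0 < q := by omega
  obtain ⟨Y, hY⟩ : ∃ Y, Y = Nat.log 2 n + 5 := ⟨_, rfl⟩
  obtain ⟨a, ha⟩ : ∃ a, a = τ + 3 := ⟨_, rfl⟩
  obtain ⟨Z, hZ⟩ : ∃ Z, Z = q ^ 4 * a * Y := ⟨_, rfl⟩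
  have hX : (200 * (Y * Z)) ^ 2 ≤ n := by
    refine le_of_eq_of_le ?_ h
    rw [hZ, hY, ha]
    ring
  have hnn : n ≠ 0 := NeZero.ne n
  -- the parameters
  obtain ⟨t₂, ht₂⟩ : ∃ t₂, t₂ = 2 * Z := ⟨_, rfl⟩
  obtain ⟨t, ht⟩ : ∃ t, t = 2 * t₂ := ⟨_, rfl⟩
  obtain ⟨k, hk⟩ : ∃ k, k = 2 * a := ⟨_, rfl⟩
  obtain ⟨Lp, hLp⟩ : ∃ Lp, Lp = Nat.log 2 n + 1 := ⟨_, rfl⟩
  obtain ⟨l, hl⟩ : ∃ l, l = τ + 4 + k * Lp := ⟨_, rfl⟩
  obtain ⟨R, hR⟩ : ∃ R, R = 2 * q * (τ + 2) := ⟨_, rfl⟩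
  obtain ⟨B₀, hB₀⟩ : ∃ B₀, B₀ = (q - 1) * (2 * q + R) * k +
      (l + k) * ((q - 1) * R * (q - 1) * (q - 1)) := ⟨_, rfl⟩
  have hbudget : B₀ ≤ a * t := by
    rw [hB₀]
    refine budget (Y := Y) (Lp := Lp) (by omega) ha hR hk (by omega) hl ?_
    rw [ht, ht₂, hZ]
    ring
  obtain ⟨hZ1, ht4, hlenle, hkn, htn, hκ, hκ2⟩ := param_arith hq0 hY ha hZ hX ht₂ ht hk hbudget
  obtain ⟨p, hp⟩ : ∃ p, p = n - k * (t + 2) := ⟨_, rfl⟩
  have hlen : k * (t + 2) + p = n := by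
    rw [hp]
    exact Nat.add_sub_cancel' hlenle
  obtain ⟨D, hD⟩ : ∃ D, D = Nat.log 2 t + 2 := ⟨_, rfl⟩
  have hDY : D ≤ Y := by
    have := Nat.log_mono_right (b := 2) htn
    omega
  have h2t : 2 * t ≤ 2 ^ D := by
    have h1 : t < 2 ^ (Nat.log 2 t + 1) := Nat.lt_pow_succ_log_self (by norm_num) t
    rw [hD, pow_succ]
    omega
  obtain ⟨w, hw⟩ : ∃ w, w = (1 + 128 * t) * (8 * t) := ⟨_, rfl⟩
  obtain ⟨a', ha'⟩ : ∃ a', a' = Nat.log 2 n + 2 := ⟨_, rfl⟩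
  obtain ⟨g, hg⟩ : ∃ g, g = 2 * a' := ⟨_, rfl⟩
  have hwidth : 1 + g * (w * D) ≤ n :=
    le_trans (width_bound3 (by omega) hZ1 (by omega) hDY ht4 hw) hX
  have hD0 : 0 < D := by omega
  have ht1 : 1 ≤ t := by omega
  obtain ⟨θ, hθ⟩ : ∃ θ : ℝ, θ = 1 - 1 / (t : ℝ) := ⟨_, rfl⟩
  obtain ⟨hθ0, hθ1, hθhalf, hθt, hθt'⟩ := theta_facts (t₂ := t₂) (by omega) ht hθ
  obtain ⟨f, hf⟩ := exists_graph3 (q := q) hq2 ht1 hD0 h2t hw hθ0 hθ1 hθhalf hθt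
  have hwpos : 0 < w := by
    rw [hw]
    positivity
  have a₀ : VV w D := (⟨0, hwpos⟩, ⟨0, hD0⟩)
  have h4 := copies_bound hkn ha' hnn
  rw [← hg] at h4
  exact final_contra3 hq hlen hwidth (by omega) hD0 (by rw [← hB₀]; exact hκ) hκ2 ha hR hLp hl C
    hC hout hsize hθ0 hθ1 hθt' f a₀ hf h4

end Vale.Agent.Lib.P346.S
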