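import Mathlib
import Vale.Agent.Lib.P346.Params2
import Vale.Agent.Lib.P346.Assemble4
import Vale.Agent.Lib.P346.Dag3

/-!
Choice of the parameters for the final bound without logarithmic factors in `n`.
-/

namespace Vale.Agent.Lib.P346.Y

open Finset

/-- Partial binomial sums against powers. -/
theorem Bsum_mul_pow_le {y : ℝ} (h0 : 0 ≤ y) (h1 : y ≤ 1) :
    ∀ m c : ℕ, (Bsum m c : ℝ) * y ^ c ≤ (1 + y) ^ m := by
  intro m
  induction m with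
  | zero =>
    intro c
    rw [Bsum_zero_left]
    simp only [Nat.cast_one, one_mul, pow_zero]
    exact pow_le_one₀ h0 h1
  | succ m ih =>
    intro c
    cases c with
    | zero =>
      have h2 : Bsum (m + 1) 0 = 1 := by simp [Bsum]
      rw [h2]
      simp only [Nat.cast_one, pow_zero, mul_one]
      exact one_le_pow₀ (by linarith)
    | succ c =>
      rw [Bsum_succ_succ]
      push_cast
      have h2 := ih (c + 1)
      have h3 := ih c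
      calc ((Bsum m (c + 1) : ℝ) + Bsum m c) * y ^ (c + 1)
          = (Bsum m (c + 1) : ℝ) * y ^ (c + 1) + y * ((Bsum m c : ℝ) * y ^ c) := by ring
        _ ≤ (1 + y) ^ m + y * (1 + y) ^ m := by
            apply add_le_add h2
            exact mul_le_mul_of_nonneg_left h3 h0
        _ = (1 + y) ^ (m + 1) := by ring

/-- The partial binomial sum bound. -/
theorem Bsum_le_of_le_mul {m r k : ℕ} (hr : 1 ≤ r) (hm : m ≤ r * k) : Bsum m k ≤ (3 * r) ^ k := by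
  have hrR : (1 : ℝ) ≤ r := by exact_mod_cast hr
  have hr0 : (0 : ℝ) < r := by linarith
  obtain ⟨y, hy⟩ : ∃ y : ℝ, y = 1 / r := ⟨_, rfl⟩
  have hy0 : 0 < y := by rw [hy]; positivity
  have hy1 : y ≤ 1 := by
    rw [hy, div_le_one hr0]
    exact hrR
  have h1 := Bsum_mul_pow_le hy0.le hy1 m k
  have h2 : (1 + y) ^ m ≤ Real.exp (m * y) := by
    have h3 : 1 + y ≤ Real.exp y := by
      have := Real.add_one_le_exp y
      linarith
    calc (1 + y) ^ m ≤ Real.exp y ^ m := pow_le_pow_left₀ (by linarith) h3 m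
      _ = Real.exp (m * y) := by rw [← Real.exp_nat_mul]
  have h3 : (m : ℝ) * y ≤ k := by
    have h4 : (m : ℝ) ≤ r * k := by exact_mod_cast hm
    rw [hy, mul_one_div, div_le_iff₀ hr0]
    linarith
  have h4 : Real.exp (m * y) ≤ 3 ^ k := by
    calc Real.exp (m * y) ≤ Real.exp (k : ℝ) := Real.exp_le_exp.2 h3
      _ = Real.exp 1 ^ k := by rw [← Real.exp_nat_mul]; simp
      _ ≤ 3 ^ k := by
          apply pow_le_pow_left₀ (Real.exp_pos _).le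
          have := Real.exp_one_lt_d9
          linarith
  have h5 : (Bsum m k : ℝ) * y ^ k ≤ 3 ^ k := le_trans h1 (le_trans h2 h4)
  have h6 : (Bsum m k : ℝ) ≤ ((3 * r : ℕ) : ℝ) ^ k := by
    have hyr : y * r = 1 := by
      rw [hy]
      field_simp
    have h7 : ((3 * r : ℕ) : ℝ) ^ k = 3 ^ k * (r : ℝ) ^ k := by
      push_cast
      rw [mul_pow]
    rw [h7]
    have h8 : (Bsum m k : ℝ) = (Bsum m k : ℝ) * y ^ k * (r : ℝ) ^ k := by
      rw [mul_assoc, ← mul_pow, hyr, one_pow, mul_one]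
    rw [h8]
    exact mul_le_mul_of_nonneg_right h5 (by positivity)
  exact_mod_cast h6

/-- The term from the union bound over the selections. -/
theorem term_rounds {q n k τ nT I₀ L₀ : ℕ} (l : ℕ → ℕ) (hq2 : 2 ≤ q) (hk : k = τ + 3)
    (hnT : nT ≤ 2 ^ τ) (hn : n ≤ 2 ^ L₀ * k * 2 ^ I₀)
    (hl : ∀ j, l j = k * (5 + L₀) + j * (k + 1)) :
    (nT : ℝ) * (∑ j ∈ range (I₀ + 1), (Bsum (n / 2 ^ (I₀ - j)) k : ℝ) / (q : ℝ) ^ l j) ≤
      1 / 4 * (1 / 3) ^ k := by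
  have hq' : (2 : ℝ) ≤ q := by exact_mod_cast hq2
  have hterm : ∀ j ∈ range (I₀ + 1), (Bsum (n / 2 ^ (I₀ - j)) k : ℝ) / (q : ℝ) ^ l j ≤
      (1 / 2) ^ (3 * k) * (1 / 2) ^ j := by
    intro j hj
    have hj' : j ≤ I₀ := by
      have := Finset.mem_range.1 hj
      omega
    have h1 : n / 2 ^ (I₀ - j) ≤ 2 ^ (L₀ + j) * k := by
      apply Nat.div_le_of_le_mul
      refine le_trans hn (le_of_eq ?_)
      have : 2 ^ I₀ = 2 ^ (I₀ - j) * 2 ^ j := by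
        rw [← pow_add]
        congr 1
        omega
      rw [this, pow_add]
      ring
    have h2 : Bsum (n / 2 ^ (I₀ - j)) k ≤ 2 ^ ((L₀ + j + 2) * k) := by
      calc Bsum (n / 2 ^ (I₀ - j)) k ≤ (3 * 2 ^ (L₀ + j)) ^ k :=
            Bsum_le_of_le_mul (Nat.one_le_two_pow) h1
        _ ≤ (2 ^ (L₀ + j + 2)) ^ k := by
            apply Nat.pow_le_pow_left
            rw [pow_add _ (L₀ + j) 2]
            omega
        _ = 2 ^ ((L₀ + j + 2) * k) := by rw [← pow_mul]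
    have h2R : (Bsum (n / 2 ^ (I₀ - j)) k : ℝ) ≤ 2 ^ ((L₀ + j + 2) * k) := by
      exact_mod_cast h2
    have h3 : (2 : ℝ) ^ l j ≤ (q : ℝ) ^ l j := pow_le_pow_left₀ (by norm_num) hq' _
    have h4 : l j = (L₀ + j + 2) * k + (3 * k + j) := by
      rw [hl j]
      ring
    have h5 : (2 : ℝ) ^ l j = 2 ^ ((L₀ + j + 2) * k) * 2 ^ (3 * k + j) := by
      rw [h4, pow_add]
    have h6 : (0 : ℝ) < 2 ^ l j := by positivity
    have h7 : (0 : ℝ) < (q : ℝ) ^ l j := lt_of_lt_of_le h6 h3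
    calc (Bsum (n / 2 ^ (I₀ - j)) k : ℝ) / (q : ℝ) ^ l j
        ≤ 2 ^ ((L₀ + j + 2) * k) / 2 ^ l j :=
          div_le_div₀ (by positivity) h2R h6 h3
      _ = (1 / 2) ^ (3 * k) * (1 / 2) ^ j := by
          have h8 : (0 : ℝ) < 2 ^ ((L₀ + j + 2) * k) := by positivity
          rw [h5, ← pow_add (1 / 2 : ℝ), one_div_pow]
          field_simp
  have hsum : ∑ j ∈ range (I₀ + 1), (Bsum (n / 2 ^ (I₀ - j)) k : ℝ) / (q : ℝ) ^ l j ≤
      (1 / 2) ^ (3 * k) * 2 := by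
    refine le_trans (Finset.sum_le_sum hterm) ?_
    rw [← Finset.mul_sum]
    exact mul_le_mul_of_nonneg_left (sum_geometric_two_le _) (by positivity)
  have hnTR : (nT : ℝ) ≤ 2 ^ τ := by exact_mod_cast hnT
  have hs0 : (0 : ℝ) ≤ ∑ j ∈ range (I₀ + 1), (Bsum (n / 2 ^ (I₀ - j)) k : ℝ) / (q : ℝ) ^ l j := by
    apply Finset.sum_nonneg
    intro j _
    positivity
  calc (nT : ℝ) * (∑ j ∈ range (I₀ + 1), (Bsum (n / 2 ^ (I₀ - j)) k : ℝ) / (q : ℝ) ^ l j)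
      ≤ 2 ^ τ * ((1 / 2) ^ (3 * k) * 2) := mul_le_mul hnTR hsum hs0 (by positivity)
    _ = 1 / 4 * ((2 : ℝ) ^ k * (1 / 2) ^ (3 * k)) := by
        rw [hk]
        ring
    _ = 1 / 4 * (1 / 4) ^ k := by
        congr 1
        rw [pow_mul, ← mul_pow]
        norm_num
    _ ≤ 1 / 4 * (1 / 3) ^ k := by
        apply mul_le_mul_of_nonneg_left _ (by norm_num)
        exact pow_le_pow_left₀ (by norm_num) (by norm_num) k

/-- The base of the geometric weights. -/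
theorem theta4 {t₈ t : ℕ} (h : 1 ≤ t₈) (ht : t = 8 * t₈) {θ : ℝ}
    (hθ : θ = 1 - 1 / (2 * (t₈ : ℝ))) :
    0 < θ ∧ θ < 1 ∧ 1 / 2 ≤ θ ∧ 1 / 256 ≤ θ ^ t ∧ θ ^ (4 * t₈) ≤ 1 / 7 := by
  have ht₈ : (1 : ℝ) ≤ t₈ := by exact_mod_cast h
  have h1t : 1 / (2 * (t₈ : ℝ)) ≤ 1 / 2 := by
    apply one_div_le_one_div_of_le (by norm_num)
    linarith
  have h1t0 : 0 < 1 / (2 * (t₈ : ℝ)) := by positivity
  have h0 : 0 < θ := by linarith
  have h1 : θ < 1 := by linarith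
  have h2 : 1 / 2 ≤ θ := by linarith
  refine ⟨h0, h1, h2, ?_, ?_⟩
  · have h3 := one_add_mul_le_pow (a := -(1 / (2 * (t₈ : ℝ)))) (by linarith) t₈
    have h4 : (t₈ : ℝ) * -(1 / (2 * (t₈ : ℝ))) = -(1 / 2) := by
      field_simp
    rw [h4, ← sub_eq_add_neg, ← sub_eq_add_neg, ← hθ] at h3
    rw [ht, mul_comm, pow_mul]
    calc (1 / 256 : ℝ) = (1 / 2) ^ 8 := by norm_num
      _ ≤ (θ ^ t₈) ^ 8 := pow_le_pow_left₀ (by norm_num) (by linarith) 8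
  · have h3 : θ ≤ Real.exp (-(1 / (2 * (t₈ : ℝ)))) := by
      have := Real.add_one_le_exp (-(1 / (2 * (t₈ : ℝ))))
      rw [hθ]
      linarith
    have h4 : θ ^ (4 * t₈) ≤ Real.exp (-(1 / (2 * (t₈ : ℝ)))) ^ (4 * t₈) :=
      pow_le_pow_left₀ h0.le h3 _
    rw [← Real.exp_nat_mul] at h4
    have h5 : ((4 * t₈ : ℕ) : ℝ) * -(1 / (2 * (t₈ : ℝ))) = -2 := by
      push_cast
      field_simp
      norm_num
    rw [h5] at h4
    have h6 : Real.exp (-2) ≤ 1 / 7 := by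
      rw [Real.exp_neg, one_div]
      apply inv_anti₀ (by norm_num)
      have h7 : Real.exp 2 = Real.exp 1 ^ 2 := by
        rw [← Real.exp_nat_mul]
        norm_num
      rw [h7]
      have := Real.exp_one_gt_d9
      nlinarith
    linarith

/-- The bad set term. -/
theorem term_bad4 {q τ k nL R : ℕ} (hq0 : 0 < q) (hR : R = 2 * q * (τ + 2 + 2 * k))
    (hnL : nL ≤ 2 ^ τ) :
    (nL : ℝ) * Real.exp (-(R : ℝ) / (2 * q)) ≤ 1 / 4 * (1 / 3) ^ k := by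
  have hq' : (0 : ℝ) < q := by exact_mod_cast hq0
  have hnLR : (nL : ℝ) ≤ 2 ^ τ := by exact_mod_cast hnL
  have hexp : Real.exp (-(R : ℝ) / (2 * q)) =
      Real.exp (-(τ : ℝ)) * Real.exp (-2) * Real.exp (-2) ^ k := by
    rw [← Real.exp_nat_mul, ← Real.exp_add, ← Real.exp_add]
    congr 1
    rw [hR]
    push_cast
    field_simp
    ring
  rw [hexp]
  have h1 := two_pow_mul_exp_le τ
  have h2 : Real.exp (-2) ≤ 1 / 3 := by
    rw [Real.exp_neg, one_div]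
    apply inv_anti₀ (by norm_num)
    have h7 : Real.exp 2 = Real.exp 1 ^ 2 := by
      rw [← Real.exp_nat_mul]
      norm_num
    rw [h7]
    have := Real.exp_one_gt_d9
    nlinarith
  have h3 : Real.exp (-2) ^ k ≤ (1 / 3) ^ k :=
    pow_le_pow_left₀ (Real.exp_pos _).le h2 k
  have h4 : (nL : ℝ) * (Real.exp (-(τ : ℝ)) * Real.exp (-2)) ≤ 1 / 4 := by
    refine le_trans ?_ h1
    exact mul_le_mul_of_nonneg_right hnLR (by positivity)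
  calc (nL : ℝ) * (Real.exp (-(τ : ℝ)) * Real.exp (-2) * Real.exp (-2) ^ k)
      = ((nL : ℝ) * (Real.exp (-(τ : ℝ)) * Real.exp (-2))) * Real.exp (-2) ^ k := by ring
    _ ≤ 1 / 4 * (1 / 3) ^ k :=
        mul_le_mul h4 h3 (by positivity) (by norm_num)

/-- The main term. -/
theorem term_main4 {k κ' t₈ τ nT : ℕ} (hκ : k * (4 * t₈) ≤ κ') (hk : k = τ + 3)
    (hnT : nT ≤ 2 ^ τ) {θ : ℝ} (h0 : 0 < θ) (h1 : θ < 1) (ht : θ ^ (4 * t₈) ≤ 1 / 7) :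
    (nT : ℝ) * θ ^ κ' ≤ 1 / 4 * (1 / 3) ^ k := by
  have h2 : θ ^ κ' ≤ θ ^ (k * (4 * t₈)) := pow_le_pow_of_le_one h0.le h1.le hκ
  have h3 : θ ^ (k * (4 * t₈)) = (θ ^ (4 * t₈)) ^ k := by
    rw [← pow_mul, Nat.mul_comm]
  have h4 : (θ ^ (4 * t₈)) ^ k ≤ (1 / 7 : ℝ) ^ k := pow_le_pow_left₀ (by positivity) ht k
  have hnTR : (nT : ℝ) ≤ 2 ^ τ := by exact_mod_cast hnT
  have h5 : θ ^ κ' ≤ (1 / 7 : ℝ) ^ k := by
    rw [h3] at h2
    linarith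
  have h6 : (2 : ℝ) ^ τ * (1 / 7) ^ k ≤ 1 / 4 * (1 / 3) ^ k := by
    rw [hk]
    have h7 : (2 : ℝ) ^ τ * (1 / 7) ^ (τ + 3) = (2 / 7) ^ τ * (1 / 343) := by
      rw [pow_add, ← mul_assoc, ← mul_pow]
      norm_num
    have h8 : (1 / 4 : ℝ) * (1 / 3) ^ (τ + 3) = (1 / 3) ^ τ * (1 / 108) := by
      rw [pow_add]
      norm_num
      ring
    rw [h7, h8]
    have h9 : (2 / 7 : ℝ) ^ τ ≤ (1 / 3) ^ τ := pow_le_pow_left₀ (by norm_num) (by norm_num) τ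
    have h10 : (0 : ℝ) < (1 / 3) ^ τ := by positivity
    nlinarith
  calc (nT : ℝ) * θ ^ κ' ≤ 2 ^ τ * (1 / 7) ^ k :=
        mul_le_mul hnTR h5 (by positivity) (by positivity)
    _ ≤ _ := h6

open scoped Classical in
/-- The graph. -/
theorem exists_graph4 {q t D W : ℕ} [NeZero W] (hq2 : 2 ≤ q) (ht1 : 1 ≤ t) (h2t : 2 * t ≤ 2 ^ D)
    (hDW : D ≤ W) (hW : W = (1 + 128 * t) * (512 * t)) {θ : ℝ} (hθ0 : 0 < θ) (hθ1 : θ < 1)
    (hθhalf : 1 / 2 ≤ θ) (hθt : 1 / 256 ≤ θ ^ t) :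
    ∃ f : Fin t → ZMod W → ZMod W, 1 / 3 ≤
      ∑ ω : Fin t → ZMod W → Fin D → Fin q, pw (pw (pw (nuθ q θ))) ω *
        (if ∃ a, ∃ π, ValidPath t (S.hz f) ω a π then 1 else 0) := by
  have hq0 : 0 < q := by omega
  obtain ⟨hm14, hmθ, hmt⟩ := S.measure_facts2 (q := q) (D := D) (Γ := 128) hq2 ht1 h2t (by norm_num)
    (by norm_num; norm_num at hθt; linarith) hθ0 hθ1 hθhalf
  have hν := nuθ_sum (q := q) hq0 hθ0
  have hν0 := nuθ_nonneg (q := q) hq0 hθ0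
  have hp12 : pp (nuθ q θ) ≤ 1 / 2 := pp_le hq2 hθ0 hθ1.le
  obtain ⟨m, hm⟩ : ∃ m, m = mm (nuθ q θ) D := ⟨_, rfl⟩
  rw [← hm] at hm14 hmθ hmt
  have hm0 : 0 < m := by linarith
  have hm1 : m < 1 := by linarith
  have htR : (1 : ℝ) ≤ t := by exact_mod_cast ht1
  have hG : ∑ i ∈ range t, m ^ i ≤ t := by
    calc ∑ i ∈ range t, m ^ i ≤ ∑ _i ∈ range t, (1 : ℝ) :=
          Finset.sum_le_sum fun i _ => pow_le_one₀ hm0.le hm1.le
      _ = t := by simp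
  have hinv1 : 1 ≤ m⁻¹ := (one_le_inv₀ hm0).2 hm1.le
  have hmtpos : 0 < m ^ t := pow_pos hm0 t
  have hinvt : m⁻¹ ^ t ≤ 512 := by
    rw [inv_pow, inv_le_comm₀ hmtpos (by norm_num)]
    norm_num at hmt ⊢
    linarith
  have hH : ∑ i ∈ range t, m⁻¹ ^ i ≤ 512 * t := by
    calc ∑ i ∈ range t, m⁻¹ ^ i ≤ ∑ _i ∈ range t, (512 : ℝ) := by
          apply Finset.sum_le_sum
          intro i hi
          refine le_trans ?_ hinvt
          exact pow_le_pow_right₀ hinv1 (Finset.mem_range.1 hi).le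
      _ = 512 * t := by
          simp
          ring
  have hwR : (W : ℝ) = (1 + 128 * (t : ℝ)) * (512 * t) := by
    rw [hW]
    push_cast
    ring
  have hlam : (1 + 128 * (t : ℝ)) * ∑ i ∈ range t, m⁻¹ ^ i ≤ W := by
    rw [hwR]
    exact mul_le_mul_of_nonneg_left hH (by positivity)
  have hlarge : 1 + 128 * (t : ℝ) ≤ W * m ^ t := by
    have h1 : (W : ℝ) * (1 / (4 * 128)) ≤ W * m ^ t :=
      mul_le_mul_of_nonneg_left hmt (by positivity)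
    have h2 : (W : ℝ) * (1 / (4 * 128)) = (1 + 128 * (t : ℝ)) * t := by
      rw [hwR]
      ring
    rw [h2] at h1
    nlinarith
  rw [hm] at hG hlam hlarge
  exact S.exists_dag_z hq2 hDW (nuθ q θ) hν hν0 hp12 (by rw [← hm]; exact hm14) t (t : ℝ)
    hG hlam hlarge

/-- Sum of a linear function against powers of two. -/
theorem sum_lin_pow (A B I : ℕ) :
    ∑ j ∈ range I, (A + j * B) * 2 ^ (I - j) + 2 * A + B * (2 * I + 2) = 2 ^ (I + 1) * (A + B) := by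
  induction I with
  | zero => simp; ring
  | succ I ih =>
    rw [Finset.sum_range_succ]
    have h1 : ∑ j ∈ range I, (A + j * B) * 2 ^ (I + 1 - j) =
        2 * ∑ j ∈ range I, (A + j * B) * 2 ^ (I - j) := by
      rw [Finset.mul_sum]
      refine Finset.sum_congr rfl fun j hj => ?_
      have := Finset.mem_range.1 hj
      rw [show I + 1 - j = (I - j) + 1 by omega, pow_succ]
      ring
    rw [h1, show I + 1 - I = 1 by omega]
    have e : 2 ^ (I + 1 + 1) * (A + B) = 2 * (2 ^ (I + 1) * (A + B)) := by ring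
    rw [e, ← ih]
    ring

/-- The degree budget. -/
theorem budget4 {q τ k R L₀ I₀ : ℕ} (l : ℕ → ℕ) (hq2 : 2 ≤ q) (hk : k = τ + 3)
    (hR : R = 2 * q * (τ + 2 + 2 * k)) (hl : ∀ j, l j = k * (5 + L₀) + j * (k + 1))
    (hI : 2 ^ I₀ ≤ (q - 1) * R) :
    (q - 1) * (2 * q + R) * k + (∑ j ∈ range (I₀ + 1),
          l j * (2 ^ (I₀ + 1 - j) * (q - 1) * (q - 1)) +
        k * (2 ^ (I₀ + 1) * (q - 1) * (q - 1))) ≤ k * (4 * (k * q ^ 4 * (46 + 6 * L₀))) := by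
  obtain ⟨r, hr⟩ : ∃ r, r = q - 1 := ⟨_, rfl⟩
  rw [← hr] at hI ⊢
  have hrq : r ≤ q := by omega
  have hk3 : 3 ≤ k := by omega
  have hR6 : R ≤ 6 * q * k := by
    rw [hR]
    have : τ + 2 + 2 * k ≤ 3 * k := by omega
    calc 2 * q * (τ + 2 + 2 * k) ≤ 2 * q * (3 * k) := Nat.mul_le_mul_left _ this
      _ = 6 * q * k := by ring
  -- the sum
  obtain ⟨A, hA⟩ : ∃ A, A = k * (5 + L₀) := ⟨_, rfl⟩
  obtain ⟨B, hB⟩ : ∃ B, B = k + 1 := ⟨_, rfl⟩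
  have hsum : ∑ j ∈ range (I₀ + 1), l j * (2 ^ (I₀ + 1 - j) * r * r) =
      (∑ j ∈ range (I₀ + 1), (A + j * B) * 2 ^ (I₀ + 1 - j)) * (r * r) := by
    rw [Finset.sum_mul]
    refine Finset.sum_congr rfl fun j _ => ?_
    rw [hl j, hA, hB]
    ring
  have hT := sum_lin_pow A B (I₀ + 1)
  have hT2 : ∑ j ∈ range (I₀ + 1), (A + j * B) * 2 ^ (I₀ + 1 - j) ≤ 2 ^ (I₀ + 1 + 1) * (A + B) := by
    omega
  have hΔ : ∑ j ∈ range (I₀ + 1), l j * (2 ^ (I₀ + 1 - j) * r * r) + k * (2 ^ (I₀ + 1) * r * r) ≤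
      (2 ^ I₀ * (4 * A + 4 * B + 2 * k)) * (r * r) := by
    rw [hsum]
    have h1 : k * (2 ^ (I₀ + 1) * r * r) = (k * 2 ^ (I₀ + 1)) * (r * r) := by ring
    rw [h1, ← add_mul]
    apply Nat.mul_le_mul_right
    have h2 : 2 ^ (I₀ + 1 + 1) * (A + B) + k * 2 ^ (I₀ + 1) = 2 ^ I₀ * (4 * A + 4 * B + 2 * k) := by
      rw [pow_succ, pow_succ]
      ring
    omega
  have hAB : 4 * A + 4 * B + 2 * k ≤ k * (28 + 4 * L₀) := by
    rw [hA, hB]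
    have : k * (28 + 4 * L₀) = 4 * (k * (5 + L₀)) + 8 * k := by ring
    omega
  have hΔ2 : (2 ^ I₀ * (4 * A + 4 * B + 2 * k)) * (r * r) ≤
      (r * R * (k * (28 + 4 * L₀))) * (r * r) :=
    Nat.mul_le_mul_right _ (Nat.mul_le_mul hI hAB)
  have hΔ3 : (r * R * (k * (28 + 4 * L₀))) * (r * r) ≤
      (q * (6 * q * k) * (k * (28 + 4 * L₀))) * (q * q) := by
    gcongr
  have hΔ4 : (q * (6 * q * k) * (k * (28 + 4 * L₀))) * (q * q) =
      (k * k) * q ^ 4 * (168 + 24 * L₀) := by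
    ring
  have hB1 : r * (2 * q + R) * k ≤ (k * k) * q ^ 4 * 2 := by
    have h1 : r * (2 * q + R) * k ≤ q * (2 * q + 6 * q * k) * k := by
      gcongr
    have h2 : q * (2 * q + 6 * q * k) * k = (k * 6 + 2) * k * q ^ 2 := by ring
    have h3 : (k * 6 + 2) * k * q ^ 2 ≤ (k * 7) * k * q ^ 2 := by
      apply Nat.mul_le_mul_right
      apply Nat.mul_le_mul_right
      omega
    have h4 : 4 ≤ q ^ 2 := by nlinarith
    have h5 : q ^ 4 = q ^ 2 * q ^ 2 := by ring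
    have h6 : (k * 7) * k * q ^ 2 ≤ (k * k) * q ^ 4 * 2 := by
      rw [h5]
      have h7 : 7 * q ^ 2 ≤ q ^ 2 * q ^ 2 * 2 := by nlinarith
      calc (k * 7) * k * q ^ 2 = (k * k) * (7 * q ^ 2) := by ring
        _ ≤ (k * k) * (q ^ 2 * q ^ 2 * 2) := Nat.mul_le_mul_left _ h7
        _ = _ := by ring
    omega
  have hfinal : k * (4 * (k * q ^ 4 * (46 + 6 * L₀))) = (k * k) * q ^ 4 * (184 + 24 * L₀) := by ring
  have h170 : (k * k) * q ^ 4 * 2 + (k * k) * q ^ 4 * (168 + 24 * L₀) ≤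
      (k * k) * q ^ 4 * (184 + 24 * L₀) := by
    rw [← Nat.mul_add]
    apply Nat.mul_le_mul_left
    omega
  rw [hfinal]
  omega

/-- The rank parameter is large. -/
theorem rank_large {q τ k R : ℕ} (hq2 : 2 ≤ q) (hR : R = 2 * q * (τ + 2 + 2 * k)) (hk : 1 ≤ k) :
    2 * (q ^ 2 * k) ≤ (q - 1) * R ∧ 1 ≤ (q - 1) * R := by
  obtain ⟨r, rfl⟩ : ∃ r, q = r + 1 := ⟨q - 1, by omega⟩
  have hr : 1 ≤ r := by omega
  simp only [Nat.add_sub_cancel]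
  have h1 : (r + 1) * k ≤ r * (τ + 2 + 2 * k) := by
    have h2 : r + 1 ≤ r * 2 := by omega
    calc (r + 1) * k ≤ (r * 2) * k := Nat.mul_le_mul_right _ h2
      _ = r * (2 * k) := by ring
      _ ≤ r * (τ + 2 + 2 * k) := Nat.mul_le_mul_left _ (by omega)
  have h2 : 2 * ((r + 1) ^ 2 * k) ≤ r * R := by
    rw [hR]
    calc 2 * ((r + 1) ^ 2 * k) = 2 * (r + 1) * ((r + 1) * k) := by ring
      _ ≤ 2 * (r + 1) * (r * (τ + 2 + 2 * k)) := Nat.mul_le_mul_left _ h1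
      _ = r * (2 * (r + 1) * (τ + 2 + 2 * k)) := by ring
  refine ⟨h2, le_trans ?_ h2⟩
  have : 1 ≤ (r + 1) ^ 2 * k := Nat.mul_pos (by positivity) hk
  omega

/-- The size of `n` relative to the top class. -/
theorem n_bound {n q Lq k I₀ L₀ : ℕ} (hnU : n < (10 ^ 6 * q ^ 4 * Lq * (k + 1)) ^ 2)
    (hq : q ≤ 2 ^ Lq) (hLq : Lq ≤ 2 ^ Lq) (hL₀ : L₀ = 42 + 8 * Lq) (hI : q ^ 2 * k ≤ 2 ^ I₀)
    (hk : 1 ≤ k) : n ≤ 2 ^ L₀ * k * 2 ^ I₀ := by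
  obtain ⟨E, hE⟩ : ∃ E, E = 2 ^ Lq := ⟨_, rfl⟩
  rw [← hE] at hq hLq
  have h1 : (10 ^ 6 * q ^ 4 * Lq * (k + 1)) ^ 2 ≤ (10 ^ 6 * q ^ 4 * Lq * (2 * k)) ^ 2 := by
    apply Nat.pow_le_pow_left
    apply Nat.mul_le_mul_left
    omega
  have h2 : (10 ^ 6 * q ^ 4 * Lq * (2 * k)) ^ 2 = (4 * 10 ^ 12) * ((q ^ 6 * Lq ^ 2) * (q ^ 2 * k)) * k := by
    ring
  have h3 : q ^ 6 * Lq ^ 2 ≤ E ^ 8 := by
    calc q ^ 6 * Lq ^ 2 ≤ E ^ 6 * E ^ 2 :=
          Nat.mul_le_mul (Nat.pow_le_pow_left hq 6) (Nat.pow_le_pow_left hLq 2)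
      _ = E ^ 8 := by ring
  have h4 : 2 ^ L₀ = 2 ^ 42 * E ^ 8 := by
    rw [hL₀, hE, pow_add, ← pow_mul, Nat.mul_comm 8 Lq]
  have h5 : (4 * 10 ^ 12) * ((q ^ 6 * Lq ^ 2) * (q ^ 2 * k)) * k ≤ 2 ^ 42 * (E ^ 8 * 2 ^ I₀) * k := by
    apply Nat.mul_le_mul_right
    apply Nat.mul_le_mul (by norm_num)
    exact Nat.mul_le_mul h3 hI
  have h6 : 2 ^ L₀ * k * 2 ^ I₀ = 2 ^ 42 * (E ^ 8 * 2 ^ I₀) * k := by
    rw [h4]
    ring
  rw [h6]
  omega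

/-- The arithmetic of the size of the graph. -/
theorem width_arith {q Lq k t₈ t W L₀ : ℕ} (hq0 : 1 ≤ q) (hk : 1 ≤ k) (hLq : 2 ≤ Lq)
    (hL₀ : L₀ = 42 + 8 * Lq) (ht₈ : t₈ = k * q ^ 4 * (46 + 6 * L₀)) (ht : t = 8 * t₈)
    (hW : W = (1 + 128 * t) * (512 * t)) :
    1 ≤ t₈ ∧ 1 + W ≤ (10 ^ 6 * q ^ 4 * Lq * k) ^ 2 ∧ k * (t + 2) ≤ (10 ^ 6 * q ^ 4 * Lq * k) ^ 2 := by
  obtain ⟨Z, hZ⟩ : ∃ Z, Z = q ^ 4 * Lq * k := ⟨_, rfl⟩
  have hq4 : 1 ≤ q ^ 4 := Nat.one_le_pow _ _ hq0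
  have hZ1 : 1 ≤ Z := by
    rw [hZ]
    exact Nat.mul_pos (Nat.mul_pos hq4 (by omega)) hk
  have hkZ : k ≤ Z := by
    rw [hZ]
    exact Nat.le_mul_of_pos_left _ (Nat.mul_pos hq4 (by omega))
  have h1 : 46 + 6 * L₀ ≤ 197 * Lq := by omega
  have h2 : t₈ ≤ 197 * Z := by
    rw [ht₈, hZ]
    calc k * q ^ 4 * (46 + 6 * L₀) ≤ k * q ^ 4 * (197 * Lq) := Nat.mul_le_mul_left _ h1
      _ = 197 * (q ^ 4 * Lq * k) := by ring
  have h3 : 1 ≤ t₈ := by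
    rw [ht₈]
    exact Nat.mul_pos (Nat.mul_pos hk hq4) (by omega)
  have ht2 : t ≤ 1576 * Z := by omega
  have ht1 : 1 ≤ t := by omega
  have h4 : 1 + 128 * t ≤ 129 * t := by omega
  have h5 : W ≤ (129 * t) * (512 * t) := by
    rw [hW]
    exact Nat.mul_le_mul_right _ h4
  have h6 : (129 * t) * (512 * t) ≤ (129 * (1576 * Z)) * (512 * (1576 * Z)) :=
    Nat.mul_le_mul (Nat.mul_le_mul_left _ ht2) (Nat.mul_le_mul_left _ ht2)
  have h7 : (129 * (1576 * Z)) * (512 * (1576 * Z)) = 164048437248 * (Z * Z) := by ring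
  have h8 : (10 ^ 6 * q ^ 4 * Lq * k) ^ 2 = 1000000000000 * (Z * Z) := by
    rw [hZ]
    ring
  have hZZ : 1 ≤ Z * Z := Nat.mul_pos hZ1 hZ1
  refine ⟨h3, ?_, ?_⟩
  · rw [h8]
    omega
  · rw [h8]
    have h9 : k * (t + 2) ≤ Z * (1578 * Z) := Nat.mul_le_mul hkZ (by omega)
    have h10 : Z * (1578 * Z) = 1578 * (Z * Z) := by ring
    omega

variable {K : Type*} [Field K] [Fintype K]

open scoped Classical in
/-- The final contradiction, all parameters being in place. -/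
theorem final_contra4 {q n k t t₈ τ D W p R κ' L₀ : ℕ} [NeZero n] [NeZero W] (l : ℕ → ℕ)
    (hq : Fintype.card K = q)
    (hlen : k * (t + 2) + p = n) (hwidth : 1 + W ≤ n) (hD : 0 < D) (hDW : D ≤ W)
    (hR1 : 1 ≤ (q - 1) * R)
    (hκ : κ' + ((q - 1) * (2 * q + R) * k +
      (∑ j ∈ range (Nat.log 2 ((q - 1) * R) + 1),
          l j * (2 ^ (Nat.log 2 ((q - 1) * R) + 1 - j) * (q - 1) * (q - 1)) +
        k * (2 ^ (Nat.log 2 ((q - 1) * R) + 1) * (q - 1) * (q - 1)))) = k * t)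
    (hκ2 : k * (4 * t₈) ≤ κ') (hk : k = τ + 3) (hR : R = 2 * q * (τ + 2 + 2 * k))
    (hn : n ≤ 2 ^ L₀ * k * 2 ^ Nat.log 2 ((q - 1) * R))
    (hl : ∀ j, l j = k * (5 + L₀) + j * (k + 1))
    (C : Circuit K (Fin n × Fin n × Fin n)) (hC : C.IsSynHomog) (hout : C.output = imm K n n)
    (hsize : C.size < 2 ^ τ) {θ : ℝ} (hθ0 : 0 < θ) (hθ1 : θ < 1) (hθt : θ ^ (4 * t₈) ≤ 1 / 7)
    (f : Fin t → ZMod W → ZMod W)
    (hψ : 1 / 3 ≤ ∑ ω : Fin t → ZMod W → Fin D → Fin q, pw (pw (pw (nuθ q θ))) ω *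
        (if ∃ a, ∃ π, ValidPath t (S.hz f) ω a π then 1 else 0)) : False := by
  have hq2 : 2 ≤ q := hq ▸ Fintype.one_lt_card
  have hq0 : 0 < q := by omega
  have hinj : ∀ j a, Function.Injective (S.hz (D := D) f j a) := by
    intro j a l₁ l₂ h
    have h1 : ((l₁ : ℕ) : ZMod W) = ((l₂ : ℕ) : ZMod W) := add_left_cancel h
    rw [ZMod.natCast_eq_natCast_iff', Nat.mod_eq_of_lt (lt_of_lt_of_le l₁.2 hDW),
      Nat.mod_eq_of_lt (lt_of_lt_of_le l₂.2 hDW)] at h1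
    exact Fin.ext h1
  have hbasic := basic_ineq4 hq p R κ' l hlen (by simpa [ZMod.card] using hwidth) hD hR1 hκ C hC
    hout hθ0 hθ1 (S.hz f) hinj (0 : ZMod W) (by norm_num) hψ
  have hnL : C.nL ≤ 2 ^ τ := by
    unfold Circuit.size at hsize
    omega
  have hnT : C.nT ≤ 2 ^ τ := by
    unfold Circuit.size at hsize
    omega
  have h1 := term_bad4 (nL := C.nL) hq0 hR hnL
  have h2 := term_rounds (q := q) (n := n) (nT := C.nT) (I₀ := Nat.log 2 ((q - 1) * R)) l hq2 hk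
    hnT hn hl
  have h3 := term_main4 hκ2 hk hnT hθ0 hθ1 hθt
  have h4 : (0 : ℝ) < (1 / 3) ^ k := by positivity
  linarith

/-- The bound, for the parameter adapted to `n`. -/
theorem imm_core (n τ : ℕ) [NeZero n]
    (hL : (10 ^ 6 * (Fintype.card K) ^ 4 * (Nat.log 2 (Fintype.card K) + 1) * (τ + 3)) ^ 2 ≤ n)
    (hU : n < (10 ^ 6 * (Fintype.card K) ^ 4 * (Nat.log 2 (Fintype.card K) + 1) * (τ + 3 + 1)) ^ 2)
    (C : Circuit K (Fin n × Fin n × Fin n)) (hC : C.IsSynHomog) (hout : C.output = imm K n n) :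
    2 ^ τ ≤ C.size := by
  classical
  by_contra hsize
  push Not at hsize
  obtain ⟨q, hq⟩ : ∃ q, Fintype.card K = q := ⟨_, rfl⟩
  rw [hq] at hL hU
  have hq2 : 2 ≤ q := hq ▸ Fintype.one_lt_card
  have hq0 : 0 < q := by omega
  obtain ⟨Lq, hLq⟩ : ∃ Lq, Lq = Nat.log 2 q + 1 := ⟨_, rfl⟩
  rw [← hLq] at hL hU
  have hLq2 : 2 ≤ Lq := by
    have : 1 ≤ Nat.log 2 q := Nat.log_pos (by norm_num) hq2
    omega
  have hqE : q ≤ 2 ^ Lq := by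
    rw [hLq]
    exact (Nat.lt_pow_succ_log_self (by norm_num) q).le
  have hLE : Lq ≤ 2 ^ Lq := (Nat.lt_two_pow_self).le
  obtain ⟨k, hk⟩ : ∃ k, k = τ + 3 := ⟨_, rfl⟩
  rw [← hk] at hL hU
  have hk1 : 1 ≤ k := by omega
  obtain ⟨L₀, hL₀⟩ : ∃ L₀, L₀ = 42 + 8 * Lq := ⟨_, rfl⟩
  obtain ⟨t₈, ht₈⟩ : ∃ t₈, t₈ = k * q ^ 4 * (46 + 6 * L₀) := ⟨_, rfl⟩
  obtain ⟨t, ht⟩ : ∃ t, t = 8 * t₈ := ⟨_, rfl⟩
  obtain ⟨W, hW⟩ : ∃ W, W = (1 + 128 * t) * (512 * t) := ⟨_, rfl⟩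
  obtain ⟨R, hR⟩ : ∃ R, R = 2 * q * (τ + 2 + 2 * k) := ⟨_, rfl⟩
  obtain ⟨hR2, hR1⟩ := rank_large hq2 hR hk1
  obtain ⟨I₀, hI₀⟩ : ∃ I₀, I₀ = Nat.log 2 ((q - 1) * R) := ⟨_, rfl⟩
  have hI1 : 2 ^ I₀ ≤ (q - 1) * R := by
    rw [hI₀]
    exact Nat.pow_log_le_self 2 (by omega)
  have hI2 : (q - 1) * R < 2 ^ (I₀ + 1) := by
    rw [hI₀]
    exact Nat.lt_pow_succ_log_self (by norm_num) _
  have hI3 : q ^ 2 * k ≤ 2 ^ I₀ := by
    rw [pow_succ] at hI2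
    omega
  have hn := n_bound hU hqE hLE hL₀ hI3 hk1
  obtain ⟨ht₈1, hwidth', hlen'⟩ := width_arith hq0 hk1 hLq2 hL₀ ht₈ ht hW
  have hwidth : 1 + W ≤ n := le_trans hwidth' hL
  have hlenle : k * (t + 2) ≤ n := le_trans hlen' hL
  obtain ⟨p, hp⟩ : ∃ p, p = n - k * (t + 2) := ⟨_, rfl⟩
  have hlen : k * (t + 2) + p = n := by
    rw [hp]
    exact Nat.add_sub_cancel' hlenle
  let l : ℕ → ℕ := fun j => k * (5 + L₀) + j * (k + 1)
  have hbudget := budget4 (q := q) (τ := τ) (k := k) (R := R) (L₀ := L₀) (I₀ := I₀) l hq2 hk hR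
    (fun _ => rfl) hI1
  rw [← ht₈] at hbudget
  obtain ⟨B₀, hB₀⟩ : ∃ B₀, B₀ = (q - 1) * (2 * q + R) * k + (∑ j ∈ range (I₀ + 1),
          l j * (2 ^ (I₀ + 1 - j) * (q - 1) * (q - 1)) +
        k * (2 ^ (I₀ + 1) * (q - 1) * (q - 1))) := ⟨_, rfl⟩
  rw [← hB₀] at hbudget
  obtain ⟨κ', hκ'⟩ : ∃ κ', κ' = k * t - B₀ := ⟨_, rfl⟩
  have hkt : k * t = k * (4 * t₈) + k * (4 * t₈) := by
    rw [ht]
    ring
  have hκ : κ' + B₀ = k * t := by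
    rw [hκ']
    apply Nat.sub_add_cancel
    omega
  have hκ2 : k * (4 * t₈) ≤ κ' := by
    rw [hκ']
    omega
  have ht1 : 1 ≤ t := by omega
  obtain ⟨D, hD⟩ : ∃ D, D = Nat.log 2 t + 2 := ⟨_, rfl⟩
  have h2t : 2 * t ≤ 2 ^ D := by
    have h1 : t < 2 ^ (Nat.log 2 t + 1) := Nat.lt_pow_succ_log_self (by norm_num) t
    rw [hD, pow_succ]
    omega
  have hD0 : 0 < D := by omega
  have hDW : D ≤ W := by
    have h1 : Nat.log 2 t < t := Nat.log_lt_self 2 (by omega)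
    have h2 : 1 * 1 ≤ (1 + 128 * t) * (512 * t) :=
      Nat.mul_le_mul (by omega) (by omega)
    have h3 : (1 + 128 * t) * 1 ≤ (1 + 128 * t) * (512 * t) :=
      Nat.mul_le_mul_left _ (by omega)
    rw [hW, hD]
    omega
  have hW0 : W ≠ 0 := by
    rw [hW]
    positivity
  have : NeZero W := ⟨hW0⟩
  obtain ⟨θ, hθ⟩ : ∃ θ : ℝ, θ = 1 - 1 / (2 * (t₈ : ℝ)) := ⟨_, rfl⟩
  obtain ⟨hθ0, hθ1, hθhalf, hθt, hθt'⟩ := theta4 ht₈1 ht hθ
  obtain ⟨f, hf⟩ := exists_graph4 (q := q) hq2 ht1 h2t hDW hW hθ0 hθ1 hθhalf hθt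
  refine final_contra4 (K := K) (t₈ := t₈) (L₀ := L₀) l hq hlen hwidth hD0 hDW hR1 ?_ hκ2 hk hR ?_
    (fun _ => rfl) C hC hout hsize hθ0 hθ1 hθt' f hf
  · rw [← hI₀, ← hB₀]
    exact hκ
  · rw [← hI₀]
    exact hn

/-- The final lower bound. -/
theorem imm_exp_sqrt (n τ : ℕ) [NeZero n]
    (h : (10 ^ 6 * (Fintype.card K) ^ 4 * (Nat.log 2 (Fintype.card K) + 1) * (τ + 3)) ^ 2 ≤ n)
    (C : Circuit K (Fin n × Fin n × Fin n)) (hC : C.IsSynHomog) (hout : C.output = imm K n n) :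
    2 ^ τ ≤ C.size := by
  classical
  obtain ⟨X, hX⟩ : ∃ X, X = 10 ^ 6 * (Fintype.card K) ^ 4 * (Nat.log 2 (Fintype.card K) + 1) :=
    ⟨_, rfl⟩
  have hq0 : 0 < Fintype.card K := Fintype.card_pos
  have hX1 : 1 ≤ X := by
    rw [hX]
    exact Nat.mul_pos (Nat.mul_pos (by norm_num) (Nat.pow_pos hq0)) (by omega)
  rw [← hX] at h
  let P : ℕ → Prop := fun τ' => (X * (τ' + 3)) ^ 2 ≤ n
  have hPn : ∀ τ', P τ' → τ' ≤ n := by
    intro τ' hτ'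
    have h1 : τ' + 3 ≤ X * (τ' + 3) := Nat.le_mul_of_pos_left _ hX1
    have h2 : X * (τ' + 3) ≤ (X * (τ' + 3)) ^ 2 := Nat.le_self_pow (by norm_num) _
    have h3 : (X * (τ' + 3)) ^ 2 ≤ n := hτ'
    omega
  have hτn := hPn τ h
  let τs := Nat.findGreatest P n
  have h1 : τ ≤ τs := Nat.le_findGreatest hτn h
  have h2 : P τs := Nat.findGreatest_spec hτn h
  have h3 : ¬ P (τs + 1) := by
    intro hc
    have h4 := hPn _ hc
    exact Nat.findGreatest_is_greatest (P := P) (n := n) (Nat.lt_succ_self τs) h4 hc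
  have h4 : n < (X * (τs + 3 + 1)) ^ 2 := by
    by_contra hc
    push Not at hc
    apply h3
    show (X * (τs + 1 + 3)) ^ 2 ≤ n
    rw [show τs + 1 + 3 = τs + 3 + 1 by ring]
    exact hc
  have h5 : 2 ^ τs ≤ C.size := by
    apply imm_core n τs _ _ C hC hout
    · rw [← hX]
      exact h2
    · rw [← hX]
      exact h4
  exact le_trans (Nat.pow_le_pow_right (by norm_num) h1) h5

end Vale.Agent.Lib.P346.Y
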